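import Vale.Agent.P027.L.Ord
import Vale.Agent.P027.Q.OrdB

/-! The order of `P0` modulo `q` is at most `8 q + 100`. -/

set_option linter.all false

namespace Vale.Agent.P027.L

open Vale.Agent.P027

lemma norm_small {q : ℕ} [hq : Fact q.Prime] {u : ℚ} (h : padicNorm q u < 1) :
    padicNorm q u ≤ (q : ℚ)⁻¹ := by
  by_cases h0 : u = 0
  · subst h0
    rw [padicNorm.zero]
    positivity
  have hq1 : (1 : ℚ) < q := by exact_mod_cast hq.out.one_lt
  rw [norm_eq_zpow q h0] at h ⊢
  have h1 : (0 : ℤ) < padicValRat q u := by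
    by_contra hcon
    push Not at hcon
    have : (1 : ℚ) ≤ (q : ℚ) ^ (-padicValRat q u) := one_le_zpow₀ hq1.le (by omega)
    linarith
  rw [← zpow_neg_one]
  exact zpow_le_zpow_right₀ hq1.le (by omega)

instance fact2833 : Fact (Nat.Prime 2833) := ⟨by norm_num⟩

/-- the bad residue does not occur -/
lemma not_bad {V : E.Point} {a : ℚ} (hV : HasX V a) (hle : padicNorm 2833 a ≤ 1) :
    ¬ padicNorm 2833 (2 * a + 105) < 1 := by
  intro hu
  obtain ⟨y, hy, -⟩ := hV
  set u := 2 * a + 105 with hudef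
  have hint : ∀ n : ℤ, ¬ (2833 : ℤ) ∣ n → padicNorm 2833 (n : ℚ) = 1 := by
    intro n hn
    rw [padicNorm.int_eq_one_iff]
    exact_mod_cast hn
  have n105 : padicNorm 2833 (105 : ℚ) = 1 := by exact_mod_cast hint 105 (by norm_num)
  have n2 : padicNorm 2833 (2 : ℚ) = 1 := by exact_mod_cast hint 2 (by norm_num)
  have n4 : padicNorm 2833 (4 : ℚ) = 1 := by exact_mod_cast hint 4 (by norm_num)
  have nq : padicNorm 2833 (2833 : ℚ) = (2833 : ℚ)⁻¹ := by
    have := padicNorm.padicNorm_p (p := 2833) (by norm_num)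
    exact_mod_cast this
  -- the first coordinate is a unit
  have na : padicNorm 2833 a = 1 := by
    have e : 2 * a = u + -105 := by rw [hudef]; ring
    have h1 : padicNorm 2833 (2 * a) = 1 := by
      rw [e, padicNorm.add_eq_max_of_ne (by rw [padicNorm.neg, n105]; exact hu.ne), padicNorm.neg,
        n105]
      exact max_eq_right hu.le
    rw [padicNorm.mul, n2, one_mul] at h1
    exact h1
  have h2 : padicNorm 2833 (u ^ 2) < padicNorm 2833 (-2833 : ℚ) := by
    have h3 := norm_small hu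
    have h4 : 0 ≤ padicNorm 2833 u := padicNorm.nonneg _
    rw [padicNorm.neg, nq, sq, padicNorm.mul]
    push_cast at h3
    have : padicNorm 2833 u * padicNorm 2833 u ≤ (2833 : ℚ)⁻¹ * (2833 : ℚ)⁻¹ :=
      mul_le_mul h3 h3 h4 (by norm_num)
    refine lt_of_le_of_lt this (by norm_num)
  have h5 : padicNorm 2833 (u ^ 2 + -2833) = (2833 : ℚ)⁻¹ := by
    rw [padicNorm.add_eq_max_of_ne h2.ne, max_eq_right h2.le, padicNorm.neg, nq]
  have h6 : 4 * y ^ 2 = a * (u ^ 2 + -2833) := by
    rw [hudef]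
    linear_combination 4 * hy
  have h7 : padicNorm 2833 y * padicNorm 2833 y = (2833 : ℚ)⁻¹ := by
    have h8 : padicNorm 2833 (4 * y ^ 2) = padicNorm 2833 (a * (u ^ 2 + -2833)) := by rw [h6]
    rw [padicNorm.mul, padicNorm.mul, na, n4, h5, sq, padicNorm.mul] at h8
    linarith
  have hy0 : y ≠ 0 := by
    rintro rfl
    rw [padicNorm.zero] at h7
    norm_num at h7
  have h9 : padicNorm 2833 y = (2833 : ℚ) ^ (-padicValRat 2833 y) := by
    have := norm_eq_zpow 2833 hy0
    exact_mod_cast this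
  rw [h9, ← zpow_add₀ (by norm_num), ← zpow_neg_one] at h7
  have h10 := zpow_right_injective₀ (by norm_num : (0 : ℚ) < 2833) (by norm_num) h7
  omega

/-- the residues of the first coordinates of multiples up to half of the order are distinct -/
lemma res_ne_odd {q : ℕ} (hq : q.Prime) (hq2 : q ≠ 2) {i j : ℤ} (hi : 0 < i)
    (hij : i < j) (h1 : ¬ Dv q i) (h2 : ¬ Dv q j) (h3 : ¬ Dv q (i + j)) (h4 : ¬ Dv q (j - i)) :
    padicNorm q (xc (i • P0) - xc (j • P0)) = 1 := by
  have : Fact q.Prime := ⟨hq⟩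
  have hle : ∀ k : ℤ, ¬ Dv q k → padicNorm q (xc (k • P0)) ≤ 1 := by
    intro k hk
    by_contra hcon
    push Not at hcon
    exact hk (Or.inr (val_neg_of_norm_gt q hcon).2)
  have hi0 : i ≠ 0 := by omega
  have hj0 : j ≠ 0 := by omega
  have hXa := hasX_n hi0
  have hXb := hasX_n hj0
  set a := xc (i • P0) with ha
  set b := xc (j • P0) with hb
  have hne : a ≠ b := by
    intro h
    rw [h] at hXa
    rcases hXa.eq_or_neg hXb with h5 | h5
    · have := zsmul_inj h5; omega
    · rw [← neg_zsmul] at h5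
      have := zsmul_inj h5; omega
  obtain ⟨s, d, hs, hd, hsum, hprod⟩ := hasX_add_sub hXa hXb hne
  rw [← add_zsmul] at hs
  rw [sub_eq_add_neg, ← sub_zsmul] at hd
  have hd' : d = xc ((j - i) • P0) := by
    rw [← xc_of_hasX hd, show (j - i) = -(i - j) by ring, neg_zsmul, xc_neg]
  have hs' : s = xc ((i + j) • P0) := (xc_of_hasX hs).symm
  have ns : padicNorm q s ≤ 1 := by rw [hs']; exact hle _ h3
  have nd : padicNorm q d ≤ 1 := by rw [hd']; exact hle _ h4
  have na : padicNorm q a ≤ 1 := hle _ h1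
  have nb : padicNorm q b ≤ 1 := hle _ h2
  have nab : padicNorm q (a - b) ≤ 1 := padicNorm.sub.trans (max_le na nb)
  refine le_antisymm nab ?_
  by_contra hcon
  push Not at hcon
  -- everything is small
  have small_mul : ∀ {u v : ℚ}, padicNorm q u < 1 → padicNorm q v ≤ 1 → padicNorm q (u * v) < 1 := by
    intro u v hu hv
    rw [padicNorm.mul]
    have h0 := padicNorm.nonneg (p := q) u
    have h0' := padicNorm.nonneg (p := q) v
    nlinarith
  have small_add : ∀ {u v : ℚ}, padicNorm q u < 1 → padicNorm q v < 1 → padicNorm q (u + v) < 1 :=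
    fun hu hv => lt_of_le_of_lt padicNorm.nonarchimedean (max_lt hu hv)
  have small_neg : ∀ {u : ℚ}, padicNorm q u < 1 → padicNorm q (-u) < 1 := by
    intro u hu
    rwa [padicNorm.neg]
  have le_mul : ∀ {u v : ℚ}, padicNorm q u ≤ 1 → padicNorm q v ≤ 1 → padicNorm q (u * v) ≤ 1 := by
    intro u v hu hv
    rw [padicNorm.mul]
    exact mul_le_one₀ hu (padicNorm.nonneg _) hv
  have le_add : ∀ {u v : ℚ}, padicNorm q u ≤ 1 → padicNorm q v ≤ 1 → padicNorm q (u + v) ≤ 1 :=
    fun hu hv => padicNorm.nonarchimedean.trans (max_le hu hv)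
  have hint : ∀ n : ℤ, padicNorm q (n : ℚ) ≤ 1 := fun n => padicNorm.of_int n
  have p1 : padicNorm q ((a * b - 2048) * (a * b - 2048)) < 1 := by
    rw [← sq, ← hprod, sq]
    have : s * d * ((a - b) * (a - b)) = (a - b) * (s * d * (a - b)) := by ring
    rw [this]
    exact small_mul hcon (le_mul (le_mul ns nd) nab)
  have p2 : padicNorm q (a * b - 2048) < 1 := by
    rw [padicNorm.mul] at p1
    have h0 := padicNorm.nonneg (p := q) (a * b - 2048)
    nlinarith
  have p3 : padicNorm q (2 * ((a * b + 2048) * (a + b) + 210 * (a * b))) < 1 := by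
    rw [← hsum]
    have : (s + d) * (a - b) ^ 2 = (a - b) * ((s + d) * (a - b)) := by ring
    rw [this]
    exact small_mul hcon (le_mul (le_add ns nd) nab)
  have p4 : padicNorm q (8192 * (2 * a + 105)) < 1 := by
    have e : 8192 * (2 * a + 105) = 2 * ((a * b + 2048) * (a + b) + 210 * (a * b)) +
        ((a * b - 2048) * (-(2 * (a + b)) + -420) + (a - b) * 8192) := by ring
    rw [e]
    refine small_add p3 (small_add (small_mul p2 ?_) (small_mul hcon ?_))
    · refine le_add ?_ (by exact_mod_cast hint (-420))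
      rw [padicNorm.neg]
      exact le_mul (by exact_mod_cast hint 2) (le_add na nb)
    · exact_mod_cast hint 8192
  have n8192 : padicNorm q 8192 = 1 := by
    have h5 : (8192 : ℚ) = ((8192 : ℤ) : ℚ) := by norm_num
    rw [h5, padicNorm.int_eq_one_iff]
    intro hdvd
    have h6 : q ∣ 2 ^ 13 := by exact_mod_cast hdvd
    exact hq2 ((Nat.prime_dvd_prime_iff_eq hq Nat.prime_two).1 (hq.dvd_of_dvd_pow h6))
  have p5 : padicNorm q (2 * a + 105) < 1 := by
    rw [padicNorm.mul, n8192, one_mul] at p4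
    exact p4
  have p6 : padicNorm q 2833 < 1 := by
    have e : (2833 : ℚ) = (2 * a + 105) * (105 + -(2 * a)) + ((a * b - 2048) * 4 + (a - b) * (4 * a)) := by
      ring
    rw [e]
    refine small_add (small_mul p5 ?_) (small_add (small_mul p2 ?_) (small_mul hcon ?_))
    · refine le_add (by exact_mod_cast hint 105) ?_
      rw [padicNorm.neg]
      exact le_mul (by exact_mod_cast hint 2) na
    · exact_mod_cast hint 4
    · exact le_mul (by exact_mod_cast hint 4) na
  have hq' : q = 2833 := by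
    by_contra hne'
    have n32 : padicNorm q 2833 = 1 := by
      have h5 : (2833 : ℚ) = ((2833 : ℤ) : ℚ) := by norm_num
      rw [h5, padicNorm.int_eq_one_iff]
      intro hdvd
      have h6 : q ∣ 2833 := by exact_mod_cast hdvd
      exact hne' ((Nat.prime_dvd_prime_iff_eq hq (by norm_num)).1 h6)
    rw [n32] at p6
    exact lt_irrefl _ p6
  subst hq'
  exact not_bad hXa na p5

theorem ord_le {q m : ℕ} (hq : q.Prime) (h : Ord q m) : m ≤ 8 * q + 100 := by
  have : Fact q.Prime := ⟨hq⟩
  by_cases hq2 : q = 2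
  · subst hq2
    have h1 : Dv 2 14 := by
      right
      rw [val_fourteen]
      norm_num
    have h2 := (h.2 _).1 h1
    have h3 : m ∣ 14 := by exact_mod_cast h2
    have := Nat.le_of_dvd (by norm_num) h3
    omega
  by_contra hcon
  push Not at hcon
  have hnd : ∀ k : ℤ, 0 < k → k < m → ¬ Dv q k := by
    intro k h0 h1 h2
    have h3 := Int.le_of_dvd h0 ((h.2 k).1 h2)
    omega
  have hle : ∀ k : ℤ, 0 < k → k < m → padicNorm q (xc (k • P0)) ≤ 1 := by
    intro k h0 h1
    by_contra hc
    push Not at hc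
    exact hnd k h0 h1 (Or.inr (val_neg_of_norm_gt q hc).2)
  let f : Fin (q + 1) → ZMod q := fun i =>
    ((xc (((i : ℕ) + 1 : ℤ) • P0)).num : ZMod q) / ((xc (((i : ℕ) + 1 : ℤ) • P0)).den : ZMod q)
  have hNe : NeZero q := ⟨hq.ne_zero⟩
  obtain ⟨i, j, hij, hf⟩ := Fintype.exists_ne_map_eq_of_card_lt f
    (by rw [ZMod.card, Fintype.card_fin]; omega)
  have key : ∀ i j : Fin (q + 1), (i : ℕ) < j → f i = f j → False := by
    intro i j hlt hf
    have hi := i.2
    have hj := j.2
    have n1 := hle ((i : ℕ) + 1 : ℤ) (by omega) (by omega)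
    have n2 := hle ((j : ℕ) + 1 : ℤ) (by omega) (by omega)
    have h1 := Q.res_rat n1 n2 hf
    have h2 := res_ne_odd hq hq2 (i := ((i : ℕ) + 1 : ℤ)) (j := ((j : ℕ) + 1 : ℤ)) (by omega)
      (by omega) (hnd _ (by omega) (by omega)) (hnd _ (by omega) (by omega))
      (hnd _ (by omega) (by omega)) (hnd _ (by omega) (by omega))
    linarith
  rcases lt_or_gt_of_ne (fun h => hij (Fin.ext h) : (i : ℕ) ≠ j) with h1 | h1
  · exact key i j h1 hf
  · exact key j i h1 hf.symm

end Vale.Agent.P027.L
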