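import Vale.Agent.P027.L.Desc

/-! Every rational point whose first coordinate is a square or minus a square is `k P0`. -/

set_option linter.all false

namespace Vale.Agent.P027.L

theorem pt_eq_or {x y y' : ℚ} (h : y ^ 2 = x ^ 3 + 105 * x ^ 2 + 2048 * x)
    (h' : y' ^ 2 = x ^ 3 + 105 * x ^ 2 + 2048 * x) :
    pt x y h = pt x y' h' ∨ pt x y h = -pt x y' h' :=
  HasX.eq_or_neg ⟨y, h, rfl⟩ ⟨y', h', rfl⟩

theorem even_of_dbl {x y x' y' : ℚ} (h : y ^ 2 = x ^ 3 + 105 * x ^ 2 + 2048 * x)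
    (h' : y' ^ 2 = x' ^ 3 + 105 * x' ^ 2 + 2048 * x')
    (hy' : y' ≠ 0) (hx : x * (4 * y' ^ 2) = (x' ^ 2 - 2048) ^ 2) {k : ℤ}
    (hk : pt x' y' h' = k • P0) : ∃ k : ℤ, pt x y h = (2 * k) • P0 := by
  obtain ⟨Y, h'', e⟩ := hasX_double h' hy'
  obtain ⟨X, hX⟩ : ∃ X, X = ((x' ^ 2 - 2048) / (2 * y')) ^ 2 := ⟨_, rfl⟩
  rw [← hX] at h''
  replace e : pt x' y' h' + pt x' y' h' = pt X Y h'' := e.trans (pt_congr hX.symm rfl)
  have hXx : X = x := by
    have h1 : X * (4 * y' ^ 2) = (x' ^ 2 - 2048) ^ 2 := by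
      rw [hX]
      field_simp
      ring
    have h2 : (4 * y' ^ 2) ≠ 0 := by positivity
    exact mul_right_cancel₀ h2 (h1.trans hx.symm)
  subst hXx
  rcases pt_eq_or h h'' with h1 | h1
  · refine ⟨k, ?_⟩
    rw [h1, ← e, hk, ← add_zsmul]; congr 1; ring
  · refine ⟨-k, ?_⟩
    rw [h1, ← e, hk, ← add_zsmul, ← neg_zsmul]; congr 1; ring

theorem sq_of_point {r w : ℕ} (hr : 0 < r) (hw : 0 < w) {X Y : ℚ}
    (h : Y ^ 2 = X ^ 3 + 105 * X ^ 2 + 2048 * X)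
    (hX : X = (r : ℚ) ^ 2 / (w : ℚ) ^ 2) :
    ∃ s : ℕ, s ^ 2 = r ^ 4 + 105 * r ^ 2 * w ^ 2 + 2048 * w ^ 4 := by
  have hr' : (r : ℚ) ≠ 0 := by positivity
  have hw' : (w : ℚ) ≠ 0 := by positivity
  have h1 : (((r ^ 4 + 105 * r ^ 2 * w ^ 2 + 2048 * w ^ 4 : ℕ)) : ℚ) =
      (Y * w ^ 3 / r) * (Y * w ^ 3 / r) := by
    have e : (Y * w ^ 3 / r) * (Y * w ^ 3 / r) = Y ^ 2 * w ^ 6 / r ^ 2 := by
      field_simp
    rw [e, h, hX]
    push_cast
    field_simp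
  have h2 : IsSquare (((r ^ 4 + 105 * r ^ 2 * w ^ 2 + 2048 * w ^ 4 : ℕ)) : ℚ) := ⟨_, h1⟩
  rw [Rat.isSquare_natCast_iff] at h2
  obtain ⟨t, ht⟩ := h2
  exact ⟨t, by rw [ht]; ring⟩

/-- the polynomial inequality behind the descent -/
lemma poly_ineq {X Y T : ℤ} (hX : 0 < X) (hY : 9 ≤ Y) (hT : T = 105 * X * Y - (X ^ 2 + 2048 * Y ^ 2))
    (hT0 : 0 ≤ T) : 256 * (96 * (X - 32 * Y) ^ 2 + 54 * X * Y + 6 * T) <
      (X ^ 2 - 2048 * Y ^ 2) ^ 2 + 4 * X * Y * T := by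
  have hXY : 25 * Y ≤ X := by
    by_contra hcon
    push Not at hcon
    have h1 : 0 < (X - 25 * Y) * (X - 80 * Y) :=
      mul_pos_of_neg_of_neg (by linarith) (by linarith)
    nlinarith
  have hY0 : 0 < Y := by linarith
  have hY4 : 0 < Y ^ 4 := by positivity
  have hA : 0 ≤ 96 * (X - 32 * Y) ^ 2 + 54 * X * Y + 6 * T := by positivity
  have hY2 : 81 ≤ Y ^ 2 := by nlinarith
  have h1 : 81 * (96 * (X - 32 * Y) ^ 2 + 54 * X * Y + 6 * T) ≤
      Y ^ 2 * (96 * (X - 32 * Y) ^ 2 + 54 * X * Y + 6 * T) := mul_le_mul_of_nonneg_right hY2 hA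
  have h2 : 0 < 81 * ((X ^ 2 - 2048 * Y ^ 2) ^ 2 + 4 * X * Y * T) -
      256 * (Y ^ 2 * (96 * (X - 32 * Y) ^ 2 + 54 * X * Y + 6 * T)) := by
    have e : 81 * ((X ^ 2 - 2048 * Y ^ 2) ^ 2 + 4 * X * Y * T) -
        256 * (Y ^ 2 * (96 * (X - 32 * Y) ^ 2 + 54 * X * Y + 6 * T)) =
        81 * (X ^ 2 - 2 * X * Y - 1983 * Y ^ 2) ^ 2 +
        (126 * X ^ 2 + 91716 * X * Y - 796881 * Y ^ 2) * Y ^ 2 := by
      rw [hT]; ring
    rw [e]
    have h3 : 0 < 126 * X ^ 2 + 91716 * X * Y - 796881 * Y ^ 2 := by nlinarith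
    have h4 : 0 < (126 * X ^ 2 + 91716 * X * Y - 796881 * Y ^ 2) * Y ^ 2 := by positivity
    have h5 : 0 ≤ 81 * (X ^ 2 - 2 * X * Y - 1983 * Y ^ 2) ^ 2 := by positivity
    linarith
  linarith

/-- the size of the new point -/
lemma size_ineq {A B M n X Y T p : ℤ} (hA : 0 ≤ A) (hB : 0 ≤ B) (hM : 0 ≤ M) (hn : 0 ≤ n)
    (hX : 0 < X) (hY : 9 ≤ Y) (hT : T = 105 * X * Y - (X ^ 2 + 2048 * Y ^ 2)) (hT0 : 0 ≤ T)
    (hA2 : A ^ 2 = (X ^ 2 - 2048 * Y ^ 2) ^ 2) (hB2 : B ^ 2 = 4 * X * Y * T)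
    (hM2 : M ^ 2 = 64 * (X - 32 * Y) ^ 2) (hn2 : n ^ 2 ≤ 18 * X * Y + 2 * T) :
    16 * (M + n) < A + B := by
  have h1 := poly_ineq hX hY hT hT0
  by_contra hcon
  push Not at hcon
  have h2 : (A + B) ^ 2 ≤ (16 * (M + n)) ^ 2 := by
    apply pow_le_pow_left₀ (by positivity) hcon
  have h3 : 0 ≤ A * B := mul_nonneg hA hB
  have h4 : 0 ≤ (M - 2 * n) ^ 2 := sq_nonneg _
  nlinarith

lemma not_sq_thirtytwo {z : ℚ} (h : z ^ 2 = 32) : False := by
  have h3 : IsSquare (32 : ℚ) := ⟨z, by linear_combination -h⟩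
  obtain ⟨n, hn⟩ : IsSquare (32 : ℕ) :=
    Rat.isSquare_natCast_iff.1 (by exact_mod_cast h3 : IsSquare ((32 : ℕ) : ℚ))
  have : n < 6 := by nlinarith only [hn]
  interval_cases n <;> omega

/-- small cases -/
lemma small_c {c t : ℕ} (h : (t : ℤ) ^ 2 = 105 * (c : ℤ) ^ 2 - (c ^ 4 + 2048)) : c = 8 := by
  have hc : c < 10 := by
    by_contra hcon
    push Not at hcon
    have h1 : (100 : ℤ) ≤ (c : ℤ) ^ 2 := by
      have : (10 : ℤ) ≤ c := by exact_mod_cast hcon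
      nlinarith
    nlinarith [sq_nonneg (t : ℤ)]
  have ht : t < 30 := by
    by_contra hcon
    push Not at hcon
    have h1 : (900 : ℤ) ≤ (t : ℤ) ^ 2 := by
      have : (30 : ℤ) ≤ t := by exact_mod_cast hcon
      nlinarith
    interval_cases c <;> norm_num at h <;> omega
  interval_cases c <;> norm_num at h <;> interval_cases t <;> omega

/-- the size of the new point, in terms of the descent data -/
lemma next_size {r w c d t g M G r' w' : ℕ} (hc0 : 0 < c) (hgw : g * w = 2 * c * d * t)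
    (hgr : (g * r : ℤ) = c ^ 4 - 2048 * d ^ 4 ∨ (g * r : ℤ) = 2048 * d ^ 4 - c ^ 4)
    (hB : (t : ℤ) ^ 2 = 105 * (c : ℤ) ^ 2 * d ^ 2 - (c ^ 4 + 2048 * d ^ 4))
    (hg : (g = 1 ∧ c % 2 = 1) ∨ (g = 32 ∧ 4 ∣ c ∧ d % 2 = 1 ∧ 8 ∣ 3 * c * d + t) ∨
        (g = 128 ∧ 8 ∣ c ∧ d % 2 = 1 ∧ 16 ∣ 3 * c * d + t) ∨
        (g = 512 ∧ 16 ∣ c ∧ d % 2 = 1 ∧ 32 ∣ 3 * c * d + t))
    (hcd1 : ¬ c = 8 * d) (hM : M = 8 * ((c : ℤ) ^ 2 - 32 * (d : ℤ) ^ 2).natAbs) (hG : 0 < G)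
    (hco : Nat.Coprime r' w') (hmg : M = r' * G) (hng : 3 * c * d + t = w' * G) :
    r' + w' < r + w := by
  have hMz : (M : ℤ) = 8 * |(c : ℤ) ^ 2 - 32 * (d : ℤ) ^ 2| := by
    rw [hM]; push_cast; ring
  -- `d` is odd
  have hdo : d % 2 = 1 := by
    rcases hg with ⟨h1, h2⟩ | ⟨-, -, h2, -⟩ | ⟨-, -, h2, -⟩ | ⟨-, -, h2, -⟩
    · by_contra hcon
      obtain ⟨d1, hd1⟩ : ∃ d1 : ℤ, (d : ℤ) = 2 * d1 := ⟨(d : ℤ) / 2, by omega⟩
      have e1 : (t : ℤ) ^ 2 + (c : ℤ) ^ 4 = 4 * (105 * (c : ℤ) ^ 2 * d1 ^ 2 - 8192 * d1 ^ 4) := by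
        rw [hB, hd1]; ring
      have e2 := odd_sq8 (a := (c : ℤ)) (by omega)
      have e3 : (c : ℤ) ^ 4 % 4 = 1 := by
        have : (c : ℤ) ^ 4 = (c : ℤ) ^ 2 * (c : ℤ) ^ 2 := by ring
        rw [this, Int.mul_emod]
        have e4 : (c : ℤ) ^ 2 % 4 = 1 := by omega
        rw [e4]; norm_num
      have e5 : (t : ℤ) ^ 2 % 4 = 0 ∨ (t : ℤ) ^ 2 % 4 = 1 := by
        rcases Int.emod_two_eq_zero_or_one (t : ℤ) with h | h
        · left
          obtain ⟨t1, ht1⟩ : ∃ t1 : ℤ, (t : ℤ) = 2 * t1 := ⟨(t : ℤ) / 2, by omega⟩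
          rw [ht1]
          have : (2 * t1) ^ 2 = 4 * t1 ^ 2 := by ring
          omega
        · right
          have := odd_sq8 h
          omega
      omega
    · exact h2
    · exact h2
    · exact h2
  have hd3 : 3 ≤ d := by
    by_contra hcon
    have hd1 : d = 1 := by omega
    subst hd1
    apply hcd1
    rw [mul_one]
    refine small_c (t := t) ?_
    rw [hB]; push_cast; ring
  have hkey : (16 : ℤ) * ((M : ℤ) + ((3 * c * d + t : ℕ) : ℤ)) < (g : ℤ) * r + (g : ℤ) * w := by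
    have hdz : (3 : ℤ) ≤ d := by exact_mod_cast hd3
    refine size_ineq (X := (c : ℤ) ^ 2) (Y := (d : ℤ) ^ 2) (T := (t : ℤ) ^ 2) (p := 0)
      (by positivity) (by positivity) (by positivity) (by positivity) (by positivity)
      (by nlinarith) (by rw [hB]; ring) (by positivity) ?_ ?_ ?_ ?_
    · rcases hgr with h1 | h1 <;> rw [h1] <;> ring
    · have : (g : ℤ) * w = 2 * c * d * t := by exact_mod_cast hgw
      rw [this]; ring
    · rw [hMz, mul_pow, sq_abs]; norm_num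
    · push_cast
      nlinarith [sq_nonneg (3 * (c : ℤ) * d - t)]
  have hkey' : 16 * (M + (3 * c * d + t)) < g * r + g * w := by exact_mod_cast hkey
  have hGg : Nat.gcd M (3 * c * d + t) = G := by
    rw [hmg, hng, Nat.gcd_mul_right, hco.gcd_eq_one, one_mul]
  have hfin : ∀ hh κ : ℕ, g = hh * κ → κ ≤ 16 → hh ∣ M → hh ∣ 3 * c * d + t →
      r' + w' < r + w := by
    intro hh κ hgk hκ h1 h2
    have h3 : hh ≤ G := by
      refine Nat.le_of_dvd hG ?_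
      rw [← hGg]
      exact Nat.dvd_gcd h1 h2
    have h4 : g * (r' + w') ≤ 16 * (M + (3 * c * d + t)) := by
      calc g * (r' + w') = κ * (hh * (r' + w')) := by rw [hgk]; ring
        _ ≤ 16 * (G * (r' + w')) :=
          Nat.mul_le_mul hκ (Nat.mul_le_mul_right _ h3)
        _ = 16 * (M + (3 * c * d + t)) := by rw [hmg, hng]; ring
    have h5 : g * (r' + w') < g * (r + w) := by
      have : g * (r + w) = g * r + g * w := by ring
      omega
    have h6 := Nat.lt_of_mul_lt_mul_left h5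
    omega
  have hM8 : 8 ∣ M := ⟨_, hM⟩
  rcases hg with ⟨h1, h2⟩ | ⟨h1, h2, h3, h4⟩ | ⟨h1, h2, h3, h4⟩ | ⟨h1, h2, h3, h4⟩
  · exact hfin 1 1 (by rw [h1]) (by norm_num) (one_dvd _) (one_dvd _)
  · exact hfin 8 4 (by rw [h1]) (by norm_num) hM8 h4
  · refine hfin 16 8 (by rw [h1]) (by norm_num) ?_ h4
    obtain ⟨c1, hc1⟩ := h2
    have e1 : (c : ℤ) ^ 2 - 32 * (d : ℤ) ^ 2 = 2 * (32 * (c1 : ℤ) ^ 2 - 16 * (d : ℤ) ^ 2) := by
      rw [hc1]; push_cast; ring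
    rw [hM, e1, Int.natAbs_mul]
    exact ⟨(32 * (c1 : ℤ) ^ 2 - 16 * (d : ℤ) ^ 2).natAbs, by norm_num; ring⟩
  · refine hfin 32 16 (by rw [h1]) (by norm_num) ?_ h4
    obtain ⟨c1, hc1⟩ := h2
    have e1 : (c : ℤ) ^ 2 - 32 * (d : ℤ) ^ 2 = 4 * (64 * (c1 : ℤ) ^ 2 - 8 * (d : ℤ) ^ 2) := by
      rw [hc1]; push_cast; ring
    rw [hM, e1, Int.natAbs_mul]
    exact ⟨(64 * (c1 : ℤ) ^ 2 - 8 * (d : ℤ) ^ 2).natAbs, by norm_num; ring⟩

theorem complete_aux (μ : ℕ) : ∀ r w s : ℕ, r + w = μ → Nat.Coprime r w → 0 < r → 0 < w →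
    s ^ 2 = r ^ 4 + 105 * r ^ 2 * w ^ 2 + 2048 * w ^ 4 →
    ∀ (x y : ℚ) (h : y ^ 2 = x ^ 3 + 105 * x ^ 2 + 2048 * x), x = (r : ℚ) ^ 2 / (w : ℚ) ^ 2 →
      ∃ k : ℤ, pt x y h = (2 * k) • P0 := by
  induction μ using Nat.strong_induction_on with
  | _ μ IH =>
  intro r w s hμ hc hr0 hw hrws x y h hx
  obtain ⟨c, d, t, g, hcd, hgw, hgr, hcase, hg⟩ := a_descent hc hr0 hw hrws
  have hg0 : 0 < g := by
    rcases hg with ⟨h1, -⟩ | ⟨h1, -⟩ | ⟨h1, -⟩ | ⟨h1, -⟩ <;> rw [h1] <;> norm_num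
  have hpos2 : 0 < 2 * c * d * t := by rw [← hgw]; positivity
  have hc0 : 0 < c := Nat.pos_of_ne_zero (by rintro rfl; simp at hpos2)
  have hd : 0 < d := Nat.pos_of_ne_zero (by rintro rfl; simp at hpos2)
  have ht : 0 < t := Nat.pos_of_ne_zero (by rintro rfl; simp at hpos2)
  have htq : (t : ℚ) ≠ 0 := by positivity
  have hcq : (c : ℚ) ≠ 0 := by positivity
  have hdq : (d : ℚ) ≠ 0 := by positivity
  have hwq : (w : ℚ) ≠ 0 := by positivity
  have hgq : (g : ℚ) ≠ 0 := by positivity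
  have hgwq : (g : ℚ) * w = 2 * c * d * t := by exact_mod_cast hgw
  have hgrq : ((g : ℚ) * r) ^ 2 = ((c : ℚ) ^ 4 - 2048 * d ^ 4) ^ 2 := by
    rcases hgr with h1 | h1
    · have h2 : (g : ℚ) * r = (c : ℚ) ^ 4 - 2048 * d ^ 4 := by exact_mod_cast h1
      rw [h2]
    · have h2 : (g : ℚ) * r = 2048 * (d : ℚ) ^ 4 - (c : ℚ) ^ 4 := by exact_mod_cast h1
      rw [h2]; ring
  have hy' : (c : ℚ) * t / d ^ 3 ≠ 0 := by positivity
  have hX2 : x * (4 * ((c : ℚ) * t / d ^ 3) ^ 2) = (((c : ℚ) ^ 2 / d ^ 2) ^ 2 - 2048) ^ 2 := by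
    have e1 : x = ((c : ℚ) ^ 4 - 2048 * d ^ 4) ^ 2 / (2 * c * d * t) ^ 2 := by
      rw [hx, ← hgrq, ← hgwq]
      field_simp
    rw [e1]
    field_simp
    ring
  rcases hcase with hA | hB
  · have hAq : (t : ℚ) ^ 2 = 105 * (c : ℚ) ^ 2 * d ^ 2 + (c ^ 4 + 2048 * d ^ 4) := by
      exact_mod_cast hA
    have hR : ((c : ℚ) * t / d ^ 3) ^ 2 = ((c : ℚ) ^ 2 / d ^ 2) ^ 3 +
        105 * ((c : ℚ) ^ 2 / d ^ 2) ^ 2 + 2048 * ((c : ℚ) ^ 2 / d ^ 2) := by
      field_simp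
      linear_combination hAq
    have hAn : t ^ 2 = c ^ 4 + 105 * c ^ 2 * d ^ 2 + 2048 * d ^ 4 := by
      have : (t : ℤ) ^ 2 = c ^ 4 + 105 * c ^ 2 * d ^ 2 + 2048 * d ^ 4 := by linarith
      exact_mod_cast this
    have htc : c ^ 2 < t := by
      by_contra hcon
      push Not at hcon
      have h1 : t ^ 2 ≤ (c ^ 2) ^ 2 := Nat.pow_le_pow_left hcon 2
      have h2 : 0 < d ^ 4 := by positivity
      have h3 : (c ^ 2) ^ 2 = c ^ 4 := by ring
      rw [h3, hAn] at h1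
      omega
    have hgc : g ≤ 2 * c ^ 2 := by
      have key : ∀ m : ℕ, m ∣ c → m ^ 2 ≤ c ^ 2 := fun m hm =>
        Nat.pow_le_pow_left (Nat.le_of_dvd hc0 hm) 2
      rcases hg with ⟨h1, -⟩ | ⟨h1, h2, -⟩ | ⟨h1, h2, -⟩ | ⟨h1, h2, -⟩
      · have : 0 < c ^ 2 := by positivity
        omega
      · have := key 4 h2
        omega
      · have := key 8 h2
        omega
      · have := key 16 h2
        omega
    have hwcd : c * d < w := by
      by_contra hcon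
      push Not at hcon
      have h1 : g * w ≤ (2 * c ^ 2) * (c * d) := Nat.mul_le_mul hgc hcon
      have h2 : 2 * c * d * c ^ 2 < 2 * c * d * t := Nat.mul_lt_mul_of_pos_left htc (by positivity)
      have h3 : (2 * c ^ 2) * (c * d) = 2 * c * d * c ^ 2 := by ring
      omega
    have hlt : c + d < μ := by
      have h1 : c + d ≤ c * d + 1 := by nlinarith
      omega
    obtain ⟨k, hk⟩ := IH (c + d) hlt c d t rfl hcd hc0 hd hAn _ _ hR rfl
    exact even_of_dbl h hR hy' hX2 hk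
  · have hBq : (t : ℚ) ^ 2 = 105 * (c : ℚ) ^ 2 * d ^ 2 - (c ^ 4 + 2048 * d ^ 4) := by
      exact_mod_cast hB
    have hR : ((c : ℚ) * t / d ^ 3) ^ 2 =
        (-((c : ℚ) ^ 2 / d ^ 2)) ^ 3 + 105 * (-((c : ℚ) ^ 2 / d ^ 2)) ^ 2 +
          2048 * (-((c : ℚ) ^ 2 / d ^ 2)) := by
      field_simp
      linear_combination hBq
    have hxR : x * (4 * ((c : ℚ) * t / d ^ 3) ^ 2) =
        ((-((c : ℚ) ^ 2 / d ^ 2)) ^ 2 - 2048) ^ 2 := by
      rw [hX2]; ring
    by_cases hcd1 : c = 8 * d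
    · have hd1 : d = 1 := by
        have h1 : Nat.Coprime d d := Nat.Coprime.coprime_dvd_left ⟨8, by rw [hcd1]; ring⟩ hcd
        simpa using h1
      subst hd1
      rw [mul_one] at hcd1
      subst hcd1
      have ht1 : t = 24 := by
        have h1 : t ^ 2 = 576 := by
          have : (t : ℤ) ^ 2 = 576 := by push_cast at hB; linarith
          exact_mod_cast this
        have : t < 25 := by nlinarith
        interval_cases t <;> omega
      subst ht1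
      refine even_of_dbl (k := 1) h hR hy' hxR ?_
      rw [one_zsmul]
      exact pt_congr (by norm_num) (by norm_num)
    · have hne : ((c : ℚ) ^ 2 - 64 * d ^ 2) ≠ 0 := by
        intro h0
        have h1 : (c : ℚ) ^ 2 = (8 * d : ℚ) ^ 2 := by linarith
        have h2 : c ^ 2 = (8 * d) ^ 2 := by exact_mod_cast h1
        exact hcd1 (Nat.pow_left_injective (by norm_num : (2 : ℕ) ≠ 0) h2)
      have hxne : (-((c : ℚ) ^ 2 / d ^ 2)) ≠ -64 := by
        intro h0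
        apply hne
        field_simp at h0
        linarith
      have hne32 : ((c : ℚ) ^ 2 - 32 * d ^ 2) ≠ 0 := by
        intro h0
        refine not_sq_thirtytwo (z := (c : ℚ) / d) ?_
        rw [div_pow, div_eq_iff (by positivity)]
        linarith
      have hadd := hasX_add hR (show (192 : ℚ) ^ 2 = (-64) ^ 3 + 105 * (-64) ^ 2 + 2048 * (-64) by
        norm_num) hxne
      obtain ⟨Y, h', e⟩ := hadd
      obtain ⟨X, hX⟩ : ∃ X, X = (((c : ℚ) * t / d ^ 3 - 192) / (-((c : ℚ) ^ 2 / d ^ 2) - -64)) ^ 2 -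
        105 - -((c : ℚ) ^ 2 / d ^ 2) - -64 := ⟨_, rfl⟩
      rw [← hX] at h'
      replace e : pt _ _ hR + P0 = pt X Y h' := e.trans (pt_congr hX.symm rfl)
      have hn : (t : ℚ) + 3 * c * d ≠ 0 := by positivity
      have hX' : X = ((8 * ((c : ℚ) ^ 2 - 32 * d ^ 2)) / (3 * c * d + t)) ^ 2 := by
        have h5 : X = (8 * (3 * c * d - t) / (c ^ 2 - 64 * d ^ 2)) ^ 2 := by
          obtain ⟨D, hD⟩ : ∃ D : ℚ, D = (c : ℚ) ^ 2 - 64 * d ^ 2 := ⟨_, rfl⟩
          rw [← hD] at hne ⊢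
          have h3 : (-((c : ℚ) ^ 2 / d ^ 2)) - -64 = -D / d ^ 2 := by
            rw [hD]
            field_simp
            ring
          have h4 : ((c : ℚ) * t / d ^ 3 - 192) / (-D / d ^ 2) =
              -(c * t - 192 * d ^ 3) / (d * D) := by
            field_simp
          have h5 : X * (d ^ 2 * D ^ 2) = 64 * d ^ 2 * (3 * c * d - t) ^ 2 := by
            have h6 : X * (d ^ 2 * D ^ 2) = (c * t - 192 * d ^ 3) ^ 2 + (c ^ 2 - 41 * d ^ 2) * D ^ 2 := by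
              rw [hX, h3, h4]
              field_simp
              ring
            rw [h6, hD]
            linear_combination ((c : ℚ) ^ 2 - 64 * (d : ℚ) ^ 2) * hBq
          rw [div_pow, eq_div_iff (pow_ne_zero _ hne)]
          have hd2 : (d : ℚ) ^ 2 ≠ 0 := pow_ne_zero _ hdq
          apply mul_left_cancel₀ hd2
          linear_combination h5
        have h6 : (8 * ((c : ℚ) ^ 2 - 32 * d ^ 2)) / (3 * c * d + t) =
            8 * (3 * c * d - t) / (c ^ 2 - 64 * d ^ 2) := by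
          rw [div_eq_div_iff (by positivity) hne]
          linear_combination 8 * hBq
        rw [h5, h6]
      obtain ⟨M, hM⟩ : ∃ M : ℕ, M = 8 * ((c : ℤ) ^ 2 - 32 * (d : ℤ) ^ 2).natAbs := ⟨_, rfl⟩
      have hMz : (M : ℤ) = 8 * |(c : ℤ) ^ 2 - 32 * (d : ℤ) ^ 2| := by
        rw [hM]; push_cast; ring
      have hM0 : 0 < M := by
        rw [hM]
        have : ((c : ℤ) ^ 2 - 32 * (d : ℤ) ^ 2) ≠ 0 := by
          intro h0
          exact hne32 (by exact_mod_cast h0)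
        have := Int.natAbs_pos.2 this
        omega
      have hMq : (M : ℚ) ^ 2 = (8 * ((c : ℚ) ^ 2 - 32 * d ^ 2)) ^ 2 := by
        have : (M : ℤ) ^ 2 = (8 * ((c : ℤ) ^ 2 - 32 * (d : ℤ) ^ 2)) ^ 2 := by
          rw [hMz, mul_pow, mul_pow, sq_abs]
        exact_mod_cast this
      obtain ⟨G, r', w', hG, hco, hmg, hng⟩ := Nat.exists_coprime' (m := M)
        (n := 3 * c * d + t) (Nat.gcd_pos_of_pos_left _ hM0)
      have hr'0 : 0 < r' := by
        refine Nat.pos_of_ne_zero ?_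
        rintro rfl
        rw [zero_mul] at hmg
        omega
      have hw'0 : 0 < w' := by
        refine Nat.pos_of_ne_zero ?_
        rintro rfl
        rw [zero_mul] at hng
        have : 0 < 3 * c * d := by positivity
        omega
      have hXrw : X = (r' : ℚ) ^ 2 / (w' : ℚ) ^ 2 := by
        have hm2 : (M : ℚ) = r' * G := by exact_mod_cast hmg
        have hn2 : (3 * (c : ℚ) * d + t) = w' * G := by exact_mod_cast hng
        rw [hX', div_pow, ← hMq, hm2, hn2]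
        have hgq : (G : ℚ) ≠ 0 := by positivity
        have hwq : (w' : ℚ) ≠ 0 := by positivity
        field_simp
      obtain ⟨s', hs'⟩ := sq_of_point hr'0 hw'0 h' hXrw
      have hlt : r' + w' < μ := by
        rw [← hμ]
        exact next_size hc0 hgw hgr hB hg hcd1 hM hG hco hmg hng
      obtain ⟨k, hk⟩ := IH (r' + w') hlt r' w' s' rfl hco hr'0 hw'0 hs' X Y h' hXrw
      refine even_of_dbl (k := 2 * k - 1) h hR hy' hxR ?_
      have h20 : pt _ _ hR + P0 = (2 * k) • P0 := e.trans hk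
      rw [sub_zsmul, one_zsmul, ← h20]
      abel

/-- a point whose first coordinate is a nonzero square is an even multiple of the generator -/
theorem even_of_sq {V : E.Point} {x s : ℚ} (hV : HasX V x) (hs : s ≠ 0) (hx : x = s ^ 2) :
    ∃ k : ℤ, V = (2 * k) • P0 := by
  obtain ⟨y, h, rfl⟩ := hV
  have hr : 0 < s.num.natAbs := Int.natAbs_pos.2 (Rat.num_ne_zero.2 hs)
  have hw : 0 < s.den := s.den_pos
  have hX : x = (s.num.natAbs : ℚ) ^ 2 / (s.den : ℚ) ^ 2 := by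
    have h1 : ((s.num.natAbs : ℕ) : ℚ) ^ 2 = (s.num : ℚ) ^ 2 := by
      have h2 : (((s.num.natAbs : ℕ) : ℤ) : ℚ) ^ 2 = ((s.num : ℤ) : ℚ) ^ 2 := by
        rw [← Int.cast_pow, ← Int.cast_pow, Int.natCast_natAbs, sq_abs]
      rwa [Int.cast_natCast] at h2
    rw [h1, hx, ← div_pow, Rat.num_div_den]
  obtain ⟨t, ht⟩ := sq_of_point hr hw h hX
  exact complete_aux _ _ _ _ rfl s.reduced hr hw ht _ _ h hX

/-- a point whose first coordinate is minus a nonzero square is an odd multiple of the generator -/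
theorem odd_of_neg_sq {V : E.Point} {x s : ℚ} (hV : HasX V x) (hs : s ≠ 0) (hx : x = -s ^ 2) :
    ∃ k : ℤ, V = (2 * k + 1) • P0 := by
  obtain ⟨y, h, rfl⟩ := hV
  have hs2 : s ^ 2 = -x := by linarith
  have hx0 : x ≠ 0 := by
    rintro rfl
    apply hs
    have : s ^ 2 = 0 := by linarith
    exact pow_eq_zero_iff (by norm_num) |>.1 this
  by_cases hx1 : x = -64
  · subst hx1
    rcases pt_eq_or h (show (192 : ℚ) ^ 2 = (-64) ^ 3 + 105 * (-64) ^ 2 + 2048 * (-64) by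
      norm_num) with h1 | h1
    · exact ⟨0, by rw [h1]; simp; rfl⟩
    · refine ⟨-1, ?_⟩
      rw [h1]
      norm_num
      rfl
  · have hadd := hasX_add h (show (192 : ℚ) ^ 2 = (-64) ^ 3 + 105 * (-64) ^ 2 + 2048 * (-64) by
      norm_num) hx1
    have hx1' : x + 64 ≠ 0 := by
      intro h0; exact hx1 (by linarith)
    have hv : y + 3 * x ≠ 0 := by
      intro h0
      have h2 : y = -3 * x := by linarith
      rw [h2] at h
      have h3 : x * ((x + 32) * (x + 64)) = 0 := by linear_combination -h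
      rcases mul_eq_zero.1 h3 with h4 | h4
      · exact hx0 h4
      · rcases mul_eq_zero.1 h4 with h5 | h5
        · exact not_sq_thirtytwo (z := s) (by linarith)
        · exact hx1' h5
    have e : ((y - 192) / (x - -64)) ^ 2 - 105 - x - -64 =
        (8 * (y + 3 * x) / (s * (x + 64))) ^ 2 := by
      have h1 : (s * (x + 64)) ^ 2 = -x * (x + 64) ^ 2 := by rw [mul_pow, hs2]
      rw [div_pow (8 * (y + 3 * x)), h1, sub_neg_eq_add, sub_neg_eq_add,
        eq_div_iff (mul_ne_zero (neg_ne_zero.2 hx0) (pow_ne_zero _ hx1'))]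
      have h2 : ((y - 192) / (x + 64)) ^ 2 * (x + 64) ^ 2 = (y - 192) ^ 2 := by
        rw [← mul_pow, div_mul_cancel₀ _ hx1']
      linear_combination (-x) * h2 + (-x - 64) * h
    obtain ⟨k, hk⟩ := even_of_sq hadd (div_ne_zero (mul_ne_zero (by norm_num) hv)
      (mul_ne_zero hs hx1')) e
    refine ⟨k - 1, ?_⟩
    have h1 : pt x y h + P0 = (2 * k) • P0 := hk
    have h2 : pt x y h = (2 * k) • P0 - P0 := by rw [← h1]; abel
    rw [h2]
    have e2 : (2 * (k - 1) + 1 : ℤ) = 2 * k - 1 := by ring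
    rw [e2, sub_zsmul, one_zsmul, sub_eq_add_neg]

end Vale.Agent.P027.L
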