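import Vale.Agent.P027.L.Om
import Vale.Agent.P027.L.MW
import Vale.Agent.P027.Q.Frm
import Vale.Agent.P027.H123.Main

/-! The formula, its soundness. -/

set_option linter.all false

namespace Vale.Agent.P027.L

open Vale.Agent.P027
open Vale.Agent.P027.Q (DenDvdQ denDvdQ_sound denDvdQ_complete val_neg_iff)

/-- the formula: `W = n P0`, `V = m P0` with odd `n`, `m`, the seven-adic valuation of `n` is that
of `c`, its three-adic valuation is at least that of `B`, visible primes of the index `7 n` are new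
with respect to the index `m`, and the omitted primes that divide the denominator for `7 n` divide
that for `m` or `n` -/
def Frm (R : Set ℚ) (c B : ℚ) : Prop :=
  (c ≠ 0 ∧ B ≠ 0) ∧ ∃ W V : E.Point, ∃ s t u : ℚ, (s ≠ 0 ∧ t ≠ 0 ∧ u ≠ 0) ∧
    (xc W = -t ^ 2 ∧ xc V = -u ^ 2 ∧ xc (7 • W) = -s ^ 2) ∧
    (0 ≤ padicValRat 7 (2401 * (c ^ 2 * xc (8 • W))) ∧
      0 ≤ padicValRat 7 (1 / (2401 * (c ^ 2 * xc (8 • W))))) ∧
    0 ≤ padicValRat 3 (1 / (9 * (B ^ 2 * xc (2 • W)))) ∧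
    Stp s (xc (2 • V) / xc (14 • W)) ∧ DenDvdQ R (xc (7 • W)) (xc V) (xc W)

/-- the set of the omitted primes -/
def KT (Kl : ℕ → ℕ → ℕ → Prop) : Set ℕ :=
  {q | q.Prime ∧ ∃ a N i, Kl a N i ∧ Ord q (Om a N i) ∧
    ∀ q' < q, q'.Prime → ¬ Ord q' (Om a N i)}

/-- the primes that divide the denominator of the coordinate of some odd multiple -/
def DD : Set ℕ := {q | q.Prime ∧ ∃ n : ℕ, n % 2 = 1 ∧ q ∣ (xx n).den}

/-- the class of the sets `R` -/
structure Rg (T : Set ℕ) (R : Set ℚ) : Prop where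
  sup : ∀ t : ℚ, (∀ q : ℕ, q.Prime → q ∣ t.den → q ∈ DD ∧ q ∉ T) → t ∈ R
  sub : ∀ t ∈ R, ∀ q ∈ T, ¬ q ∣ t.den

lemma Rg.int {T : Set ℕ} {R : Set ℚ} (hR : Rg T R) (z : ℤ) : (z : ℚ) ∈ R :=
  hR.sup z (fun q hq h => by
    rw [Rat.den_intCast] at h
    exact absurd (Nat.dvd_one.1 h) hq.one_lt.ne')

lemma lt_tow (i : ℕ) : i < tow i := by
  induction i with
  | zero => exact Nat.one_pos
  | succ i ih =>
    show i + 1 < 2 ^ tow i
    have h : tow i < 2 ^ tow i := Nat.lt_two_pow_self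
    omega

/-- killers -/
lemma killer_mem {Kl : ℕ → ℕ → ℕ → Prop} {a N i : ℕ} (h : Kl a N i)
    (hex : ∃ q : ℕ, q.Prime ∧ Ord q (Om a N i)) : ∃ q ∈ KT Kl, Ord q (Om a N i) := by
  classical
  obtain ⟨h1, h2⟩ := Nat.find_spec hex
  refine ⟨Nat.find hex, ⟨h1, a, N, i, h, h2, fun q' hq' hp ho => ?_⟩, h2⟩
  exact Nat.find_min hex hq' ⟨hp, ho⟩

lemma xc_smul_eq {W : E.Point} {n m : ℕ} (h : xc W = xx n) (hn : n ≠ 0) (hW : W ≠ 0) :
    xc (m • W) = xx (m * n) := by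
  have h1 : HasX W (xx n) := by rw [← h]; exact hasX_xc hW
  have e : ((m * n : ℕ) : ℤ) • P0 = m • ((n : ℤ) • P0) := by
    rw [← natCast_zsmul, ← mul_zsmul, Nat.cast_mul]
  unfold xx
  rw [e]
  rcases h1.eq_or_neg (hasX_xx hn) with h2 | h2
  · rw [h2]
  · rw [h2, neg_nsmul, xc_neg]

/-- points of odd index -/
lemma odd_index {W : E.Point} {t : ℚ} (ht : t ≠ 0) (h : xc W = -t ^ 2) :
    W ≠ 0 ∧ ∃ n : ℕ, n % 2 = 1 ∧ xc W = xx n := by
  have hW : W ≠ 0 := by
    rintro rfl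
    rw [xc_zero] at h
    have : t ^ 2 = 0 := by linarith
    exact ht (pow_eq_zero_iff (by norm_num) |>.1 this)
  refine ⟨hW, ?_⟩
  have hX := hasX_xc hW
  rw [h] at hX
  obtain ⟨k, hk⟩ := odd_of_neg_sq hX ht rfl
  rcases le_total 0 (2 * k + 1) with h1 | h1
  · refine ⟨(2 * k + 1).toNat, by omega, ?_⟩
    unfold xx
    rw [Int.toNat_of_nonneg h1, ← hk]
  · refine ⟨(-(2 * k + 1)).toNat, by omega, ?_⟩
    unfold xx
    rw [Int.toNat_of_nonneg (by omega), neg_zsmul, xc_neg, ← hk]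

lemma v7_2401 : padicValRat 7 2401 = 4 := by
  have := H123.v_pow_self 7 4
  norm_num at this
  exact this

lemma vs_ne_seven {n : ℕ} (hn : n ≠ 0) : 7 ∉ Vs n := by
  intro h
  exact ((mem_Vs hn).1 h).ne_seven rfl

lemma vs_ne_three {n : ℕ} (hn : n ≠ 0) : 3 ∉ Vs n := by
  intro h
  exact ((mem_Vs hn).1 h).ne_three rfl

lemma om_v7 (a N i : ℕ) : padicValNat 7 (Om a N i) = a + 1 := by
  induction i with
  | zero =>
    show padicValNat 7 (7 ^ (a + 1) * 3 ^ N) = a + 1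
    rw [padicValNat.mul (by positivity) (by positivity), padicValNat.prime_pow,
      padicValNat.eq_zero_of_not_dvd, add_zero]
    intro h
    have := (by norm_num : Nat.Prime 7).dvd_of_dvd_pow h
    omega
  | succ i ih =>
    show padicValNat 7 (nxt (Om a N i)) = a + 1
    rw [val_nxt (om_ne a N i) (by norm_num), ih, if_neg (vs_ne_seven (om_ne a N i))]

lemma om_v3 (a N i : ℕ) : padicValNat 3 (Om a N i) = N := by
  induction i with
  | zero =>
    show padicValNat 3 (7 ^ (a + 1) * 3 ^ N) = N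
    rw [padicValNat.mul (by positivity) (by positivity), padicValNat.prime_pow,
      padicValNat.eq_zero_of_not_dvd, zero_add]
    intro h
    have := (by norm_num : Nat.Prime 3).dvd_of_dvd_pow h
    omega
  | succ i ih =>
    show padicValNat 3 (nxt (Om a N i)) = N
    rw [val_nxt (om_ne a N i) Nat.prime_three, ih, if_neg (vs_ne_three (om_ne a N i)), add_zero]

/-- soundness -/
theorem frm_sound (hL : LawL) {Kl : ℕ → ℕ → ℕ → Prop}
    (hex : ∀ a N i, Kl a N i → ∃ q : ℕ, q.Prime ∧ Ord q (Om a N i)) {R : Set ℚ}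
    (hR : Rg (KT Kl) R) {a N : ℕ} (hN : 16 ≤ N) (hkl : ∀ i, Kl a N i) :
    ¬ Frm R (7 ^ a) (3 ^ N) := by
  rintro ⟨⟨hc, hB⟩, W, V, s, t, u, ⟨hs, ht, hu⟩, ⟨hW, hV, h7W⟩, ⟨h7a, h7b⟩, h3, hSt, hD⟩
  have f3 := Fact.mk Nat.prime_three
  obtain ⟨hW0, n, hn, hWn⟩ := odd_index ht hW
  obtain ⟨hV0, m, hm, hVm⟩ := odd_index hu hV
  have hn0 : n ≠ 0 := by omega
  have hm0 : m ≠ 0 := by omega
  rw [xc_smul_eq hWn hn0 hW0] at h7W h7a h7b h3 hSt hD
  rw [xc_smul_eq hVm hm0 hV0] at hSt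
  rw [hWn, hVm] at hD
  -- the seven-adic valuation
  have x8 : xx (8 * n) ≠ 0 := xx_ne_zero (mul_ne_zero (by norm_num) hn0)
  have v8 : padicValRat 7 (xx (8 * n)) = -4 - 2 * (padicValNat 7 n : ℤ) := by
    have := val_7 (k := (n : ℤ)) (by exact_mod_cast hn0)
    rw [padicValInt.of_nat] at this
    exact this
  rw [H123.val_one_div] at h7b
  rw [H123.val_expr (by norm_num) hc x8, v7_2401, v8] at h7a h7b
  have hc7 : padicValRat 7 ((7 : ℚ) ^ a) = a := by
    have := H123.v_pow_self 7 a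
    exact_mod_cast this
  rw [hc7] at h7a h7b
  have hv7 : padicValNat 7 n = a := by omega
  -- the three-adic valuation
  have x6 : xx (2 * n) ≠ 0 := xx_ne_zero (mul_ne_zero (by norm_num) hn0)
  have v6 : padicValRat 3 (xx (2 * n)) = -2 - 2 * (padicValNat 3 n : ℤ) := v3_double hn0
  have hB3 : padicValRat 3 ((3 : ℚ) ^ N) = N := by
    have := H123.v_pow_self 3 N
    exact_mod_cast this
  rw [H123.val_one_div, H123.val_expr (by norm_num) hB x6, H123.v3_nine, v6, hB3] at h3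
  have hv3 : N ≤ padicValNat 3 n := by omega
  -- the base index divides `7 n`
  set X₁ := 7 * n with hX₁
  have hX₁0 : X₁ ≠ 0 := mul_ne_zero (by norm_num) hn0
  have hX₁o : Odd X₁ := by
    rw [Nat.odd_iff]; omega
  have hv7X : padicValNat 7 X₁ = a + 1 := by
    rw [hX₁, padicValNat.mul (by norm_num) hn0, hv7]
    have : padicValNat 7 7 = 1 := padicValNat_self
    omega
  have hbase : Om a N 0 ∣ X₁ := by
    show 7 ^ (a + 1) * 3 ^ N ∣ X₁
    have hco : Nat.Coprime (7 ^ (a + 1)) (3 ^ N) := Nat.Coprime.pow _ _ (by norm_num)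
    refine hco.mul_dvd_of_dvd_of_dvd ?_ ?_
    · rw [← hv7X]; exact pow_padicValNat_dvd
    · refine dvd_trans (pow_dvd_pow 3 hv3) (dvd_trans pow_padicValNat_dvd ?_)
      exact dvd_mul_left _ _
  -- the largest level
  have hgrow : ∀ i, i ≤ Om a N (i + 1) := by
    intro i
    have h1 := om_tower hL a N hN i
    have h2 := lt_tow (i + 2)
    omega
  have hstop : ∃ i, ¬ Om a N (i + 1) ∣ X₁ := by
    refine ⟨X₁ + 1, fun h => ?_⟩
    have h1 := Nat.le_of_dvd (Nat.pos_of_ne_zero hX₁0) h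
    have h2 := hgrow (X₁ + 1)
    omega
  classical
  obtain ⟨i, hi1, hi2⟩ : ∃ i, Om a N i ∣ X₁ ∧ ¬ Om a N (i + 1) ∣ X₁ := by
    refine ⟨Nat.find hstop, ?_, Nat.find_spec hstop⟩
    rcases Nat.eq_zero_or_pos (Nat.find hstop) with h0 | h0
    · rw [h0]; exact hbase
    · have := Nat.find_min hstop (m := Nat.find hstop - 1) (by omega)
      rw [not_not] at this
      rwa [Nat.sub_add_cancel h0] at this
  obtain ⟨q, hqT, hqo⟩ := killer_mem (hkl i) (hex a N i (hkl i))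
  have hq : q.Prime := hqT.1
  have hxd : q ∣ (xx X₁).den :=
    (val_neg_iff hq (xx_ne_zero hX₁0)).1 ((dv_xx hX₁0).1 ((hqo.2 _).2 (by exact_mod_cast hi1)))
  have hcase := denDvdQ_sound hD hq (fun t ht => hR.sub t ht q hqT) hxd
  have hmdvd : Om a N i ∣ m := by
    rcases hcase with h | h
    · have h1 := (hqo.2 (m : ℤ)).1 ((dv_xx hm0).2 ((val_neg_iff hq (xx_ne_zero hm0)).2 h))
      exact_mod_cast h1
    · exfalso
      have h1 := (hqo.2 (n : ℤ)).1 ((dv_xx hn0).2 ((val_neg_iff hq (xx_ne_zero hn0)).2 h))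
      have h2 : Om a N i ∣ n := by exact_mod_cast h1
      have f7 : Fact (Nat.Prime 7) := ⟨by norm_num⟩
      have h3 : 7 ^ (a + 1) ∣ n := by
        refine dvd_trans ?_ h2
        have := om_v7 a N i
        rw [← this]
        exact pow_padicValNat_dvd
      have h4 := (padicValNat_dvd_iff (p := 7) (a + 1) n).1 h3
      rcases h4 with h4 | h4
      · exact hn0 h4
      · omega
  have e14 : 14 * n = 2 * X₁ := by rw [hX₁]; ring
  rw [e14] at hSt
  exact hi2 (step_sound hmdvd hi1 hm0 hX₁o hs h7W hSt)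

end Vale.Agent.P027.L
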