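import Vale.Agent.P027.L.P3

/-! The primes inert in the cubic field of conductor `7` are the primes `≢ 0, ±1 mod 7`. -/

set_option linter.all false

namespace Vale.Agent.P027.L

open Polynomial

theorem cyc {k : Type*} [Field k] {z : k} (hz : z ≠ 0) :
    z ^ 3 * ((z + z⁻¹) ^ 3 + (z + z⁻¹) ^ 2 - 2 * (z + z⁻¹) - 1) =
      z ^ 6 + z ^ 5 + z ^ 4 + z ^ 3 + z ^ 2 + z + 1 := by
  field_simp
  ring

/-- elements fixed by the Frobenius map -/
theorem exists_of_pow_eq {q : ℕ} [Fact q.Prime] {K : Type*} [Field K] [Algebra (ZMod q) K] {t : K}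
    (h : t ^ q = t) : ∃ a : ZMod q, algebraMap (ZMod q) K a = t := by
  classical
  by_contra hcon
  push Not at hcon
  have hq1 : 1 < q := (Fact.out : q.Prime).one_lt
  let S : Finset K := Finset.univ.image (algebraMap (ZMod q) K)
  have hS : S.card = q := by
    rw [Finset.card_image_of_injective _ (algebraMap (ZMod q) K).injective, Finset.card_univ,
      ZMod.card]
  have ht : t ∉ S := by
    intro h1
    obtain ⟨a, -, ha⟩ := Finset.mem_image.1 h1
    exact hcon a ha
  have hp : (X ^ q - X : K[X]) ≠ 0 := FiniteField.X_pow_card_sub_X_ne_zero K hq1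
  have hsub : (insert t S).val ⊆ (X ^ q - X : K[X]).roots := by
    intro y hy
    rw [mem_roots hp, IsRoot.def, eval_sub, eval_pow, eval_X]
    have hy' : y ∈ insert t S := hy
    rcases Finset.mem_insert.1 hy' with rfl | hy'
    · rw [h, sub_self]
    · obtain ⟨a, -, rfl⟩ := Finset.mem_image.1 hy'
      rw [← map_pow, ZMod.pow_card, sub_self]
  have := card_le_degree_of_subset_roots hsub
  rw [Finset.card_insert_of_notMem ht, hS, FiniteField.X_pow_card_sub_X_natDegree_eq K hq1] at this
  omega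

theorem inert7_iff {q : ℕ} (hq : q.Prime) : Inert7 q ↔ q % 7 ≠ 0 ∧ q % 7 ≠ 1 ∧ q % 7 ≠ 6 := by
  have := Fact.mk hq
  by_cases h7 : q = 7
  · subst h7
    refine iff_of_false ?_ (by norm_num)
    rintro ⟨-, h⟩
    refine h 2 ?_
    have : ((7 : ℕ) : ZMod 7) = 0 := ZMod.natCast_self 7
    push_cast at this
    linear_combination this
  have hmod0 : q % 7 ≠ 0 := by
    intro h
    have := (Nat.prime_dvd_prime_iff_eq (by norm_num) hq).1 (Nat.dvd_of_mod_eq_zero h)
    exact h7 this.symm
  let K := AlgebraicClosure (ZMod q)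
  have h7K : (7 : K) ≠ 0 := by
    intro h
    have h1 : ((7 : ℕ) : K) = 0 := by exact_mod_cast h
    rw [CharP.cast_eq_zero_iff K q] at h1
    exact h7 ((Nat.prime_dvd_prime_iff_eq hq (by norm_num)).1 h1)
  have hq0 : q ≠ 0 := hq.ne_zero
  constructor
  · rintro ⟨-, h⟩
    -- a primitive 7-th root of unity
    obtain ⟨z, hz⟩ := IsAlgClosed.exists_root (k := K) (X ^ 6 + X ^ 5 + X ^ 4 + X ^ 3 + X ^ 2 + X + 1)
      (by
        have : (X ^ 6 + X ^ 5 + X ^ 4 + X ^ 3 + X ^ 2 + X + 1 : K[X]).degree = 6 := by compute_degree!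
        rw [this]
        norm_num)
    simp only [IsRoot.def, eval_add, eval_pow, eval_X, eval_one] at hz
    have hz0 : z ≠ 0 := by
      rintro rfl
      norm_num at hz
    have hz7 : z ^ 7 = 1 := by linear_combination (z - 1) * hz
    have hT : (z + z⁻¹) ^ 3 + (z + z⁻¹) ^ 2 - 2 * (z + z⁻¹) - 1 = 0 := by
      have := cyc hz0
      rw [hz] at this
      exact (mul_eq_zero.1 this).resolve_left (pow_ne_zero _ hz0)
    have key : ∀ t : K, t ^ q = t → t ^ 3 + t ^ 2 - 2 * t - 1 ≠ 0 := by
      intro t ht h0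
      obtain ⟨a, rfl⟩ := exists_of_pow_eq ht
      apply h a
      apply (algebraMap (ZMod q) K).injective
      simp only [map_add, map_sub, map_mul, map_pow, map_ofNat, map_one, map_zero]
      exact h0
    have hzq : ∀ r, z ^ q = z ^ r → (z⁻¹) ^ q = (z⁻¹) ^ r := fun r h1 => by
      rw [inv_pow, inv_pow, h1]
    refine ⟨hmod0, fun h1 => ?_, fun h6 => ?_⟩
    · refine key _ ?_ hT
      rw [add_pow_char]
      have e : z ^ q = z ^ 1 := by
        obtain ⟨m, hm⟩ : ∃ m, q = 7 * m + 1 := ⟨q / 7, by omega⟩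
        calc z ^ q = z ^ (7 * m + 1) := congrArg (fun n => z ^ n) hm
          _ = z ^ 1 := by rw [pow_add, pow_mul, hz7, one_pow, one_mul]
      rw [e, hzq 1 e, pow_one, pow_one]
    · refine key _ ?_ hT
      rw [add_pow_char]
      have e : z ^ q = z ^ 6 := by
        obtain ⟨m, hm⟩ : ∃ m, q = 7 * m + 6 := ⟨q / 7, by omega⟩
        calc z ^ q = z ^ (7 * m + 6) := congrArg (fun n => z ^ n) hm
          _ = z ^ 6 := by rw [pow_add, pow_mul, hz7, one_pow, one_mul]
      have e1 : z ^ 6 = z⁻¹ := by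
        refine eq_inv_of_mul_eq_one_left ?_
        rw [← pow_succ]
        exact hz7
      have e2 : (z⁻¹) ^ 6 = z := by
        rw [inv_pow, e1, inv_inv]
      rw [e, hzq 6 e, e1, e2, add_comm]
  · rintro ⟨-, h1, h6⟩
    refine ⟨hq, fun t ht => ?_⟩
    obtain ⟨z, hz⟩ := IsAlgClosed.exists_root (k := K) (X ^ 2 - C (algebraMap (ZMod q) K t) * X + 1)
      (by
        have : (X ^ 2 - C (algebraMap (ZMod q) K t) * X + 1 : K[X]).degree = 2 := by compute_degree!
        rw [this]
        norm_num)
    simp only [IsRoot.def, eval_add, eval_sub, eval_mul, eval_pow, eval_X, eval_C, eval_one] at hz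
    set T := algebraMap (ZMod q) K t with hT
    have hz0 : z ≠ 0 := by
      rintro rfl
      norm_num at hz
    have hTz : T = z + z⁻¹ := by
      have : z * T = z * (z + z⁻¹) := by
        rw [mul_add, mul_inv_cancel₀ hz0]
        linear_combination -hz
      exact mul_left_cancel₀ hz0 this
    have hT0 : T ^ 3 + T ^ 2 - 2 * T - 1 = 0 := by
      have := congrArg (algebraMap (ZMod q) K) ht
      simpa only [map_add, map_sub, map_mul, map_pow, map_ofNat, map_one, map_zero] using this
    have hs : z ^ 6 + z ^ 5 + z ^ 4 + z ^ 3 + z ^ 2 + z + 1 = 0 := by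
      rw [← cyc hz0, ← hTz, hT0, mul_zero]
    have hz7 : z ^ 7 = 1 := by linear_combination (z - 1) * hs
    have hz1 : z ≠ 1 := by
      rintro rfl
      apply h7K
      linear_combination hs
    have : Fact (Nat.Prime 7) := ⟨by norm_num⟩
    have hord : orderOf z = 7 := orderOf_eq_prime hz7 hz1
    have hTq : T ^ q = T := by rw [hT, ← map_pow, ZMod.pow_card]
    have hq' : z ^ q + (z ^ q)⁻¹ = z + z⁻¹ := by
      rw [hTz, add_pow_char, inv_pow] at hTq
      exact hTq
    have hfac : (z ^ q - z) * (z ^ q * z - 1) = 0 := by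
      have e1 : z ^ q * (z ^ q)⁻¹ = 1 := mul_inv_cancel₀ (pow_ne_zero _ hz0)
      have e2 : z * z⁻¹ = 1 := mul_inv_cancel₀ hz0
      linear_combination (z ^ q * z) * hq' + z ^ q * e2 - z * e1
    rcases mul_eq_zero.1 hfac with h2 | h2
    · have h3 : z ^ (q - 1) = 1 := by
        have h4 : z * z ^ (q - 1) = z * 1 := by
          rw [← pow_succ', Nat.sub_add_cancel hq.one_le, mul_one]
          linear_combination h2
        exact mul_left_cancel₀ hz0 h4
      have h4 := orderOf_dvd_of_pow_eq_one h3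
      rw [hord] at h4
      have := hq.one_le
      omega
    · have h3 : z ^ (q + 1) = 1 := by
        rw [pow_succ]
        linear_combination h2
      have h4 := orderOf_dvd_of_pow_eq_one h3
      rw [hord] at h4
      omega

end Vale.Agent.P027.L
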