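import Vale.Agent.P027.L.P3

/-! Statements shared by the parts of the tower growth argument. -/

set_option linter.all false

namespace Vale.Agent.P027.L

open Vale.Agent.P027

/-- towers of twos -/
def tow : ℕ → ℕ
  | 0 => 1
  | k + 1 => 2 ^ tow k

/-- type two -/
def Ty2 (q : ℕ) : Prop := q.Prime ∧ (q % 8 = 3 ∨ q % 8 = 5) ∧ q ≠ 3

/-- type three -/
def Ty3 (q : ℕ) : Prop :=
  q.Prime ∧ (q % 7 = 2 ∨ q % 7 = 3 ∨ q % 7 = 4 ∨ q % 7 = 5) ∧ q ≠ 2 ∧ q ≠ 3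

/-- a prime of multiplicity `w` is visible -/
def Vz (q w : ℕ) : Prop := (Ty2 q ∧ w % 2 = 1) ∨ (Ty3 q ∧ w % 3 ≠ 0)

/-- the law modulo eight: a function of the index modulo seven -/
def Law2 (d : ℕ → ℕ) : Prop := ∀ n, n % 2 = 1 →
  ((d n % 8 = 3 ∨ d n % 8 = 5) ↔ (n % 7 = 3 ∨ n % 7 = 4 ∨ n % 7 = 0))

/-- the cubic law modulo seven: a function of the index modulo fifty six -/
def Law3 (d : ℕ → ℕ) : Prop := ∀ n, n % 2 = 1 →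
  ((n % 8 = 1 ∨ n % 8 = 7) ∧ (n % 7 = 1 ∨ n % 7 = 6) ∧ d n ^ 2 % 7 = 1) ∨
  ((n % 8 = 1 ∨ n % 8 = 7) ∧ (n % 7 = 2 ∨ n % 7 = 3 ∨ n % 7 = 4 ∨ n % 7 = 5) ∧ d n ^ 2 % 7 = 2) ∨
  ((n % 8 = 1 ∨ n % 8 = 7) ∧ n % 7 = 0 ∧ d n ^ 2 % 7 = 4) ∨
  ((n % 8 = 3 ∨ n % 8 = 5) ∧ (n % 7 = 1 ∨ n % 7 = 6) ∧ d n ^ 2 % 7 = 4) ∨
  ((n % 8 = 3 ∨ n % 8 = 5) ∧ (n % 7 = 2 ∨ n % 7 = 3 ∨ n % 7 = 4 ∨ n % 7 = 5) ∧ d n ^ 2 % 7 = 1) ∨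
  ((n % 8 = 3 ∨ n % 8 = 5) ∧ n % 7 = 0 ∧ d n ^ 2 % 7 = 2)

/-- the denominators `d n` of odd index and the orders -/
structure Dat (d : ℕ → ℕ) (O : ℕ → ℕ → Prop) : Prop where
  odd : ∀ n, n % 2 = 1 → d n % 2 = 1
  three : ∀ n, n % 2 = 1 → d n % 3 ≠ 0
  seven : ∀ n, n % 2 = 1 → d n % 7 ≠ 0
  one : ∀ q, ¬ O q 1
  uniq : ∀ q m m', O q m → O q m' → m = m'
  ex : ∀ q n, q.Prime → n % 2 = 1 → q ∣ d n → ∃ m, O q m ∧ m ∣ n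
  val : ∀ q m n, q.Prime → O q m → m ∣ n → n % 2 = 1 →
    q ∣ d m ∧ padicValNat q (d n) = padicValNat q (d m) + padicValNat q (n / m)
  law2 : Law2 d
  law3 : Law3 d

/-- growth (to be proved): every visible prime of `Z i` divides `Z (i + 1)` -/
def DatTower : Prop := ∀ (d : ℕ → ℕ) (O : ℕ → ℕ → Prop), Dat d O → ∀ Z : ℕ → ℕ,
  (∀ i, Z i % 2 = 1) → (∀ i, 3 ^ 16 ∣ Z i) →
  (∀ i q, q.Prime → Vz q (padicValNat q (d (Z i))) → q ∣ Z (i + 1)) →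
  ∀ i, tow (i + 2) ≤ Z (i + 1)

/-- completeness of the cubic check (to be proved) -/
def St3Complete : Prop := ∀ s κ : ℚ, s ≠ 0 → padicValRat 3 s = 0 → padicValRat 7 s = 0 →
  0 ≤ padicValRat 2 κ → 0 ≤ padicValRat 3 κ → 0 ≤ padicValRat 7 κ →
  (∀ q, Ty3 q → ¬ (3 : ℤ) ∣ padicValRat q s → κ = 0 ∨ 1 ≤ padicValRat q κ) → St3 s κ

end Vale.Agent.P027.L
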