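import Vale.Agent.P027.L.C4
import Vale.Agent.P027.L.Spec
import Vale.Agent.P027.L.In7

set_option linter.all false

namespace Vale.Agent.P027.L

theorem st3Complete : St3Complete := by
  intro s κ hs _ _ h2 h3 h7 h
  refine st3_complete hs ?_ ?_
  · intro q hq
    right
    rcases hq with rfl | rfl | rfl <;> linarith
  · intro q hin hq2 hq3 hnd
    have h1 := (inert7_iff hin.1).1 hin
    refine h q ⟨hin.1, ?_, hq2, hq3⟩ hnd
    omega

end Vale.Agent.P027.L
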