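import Vale.Agent.P027.L.Ord

/-! Quadratic growth of heights on the multiples of `P0`, curve `y^2 = x^3 + 105 x^2 + 2048 x`. -/

set_option linter.all false

namespace Vale.Agent.P027.L

open Height MvPolynomial

instance e_elliptic : E.IsElliptic := by
  refine ⟨?_⟩
  have h : E.Δ = 190119411712 := by
    simp [WeierstrassCurve.Δ, WeierstrassCurve.b₂, WeierstrassCurve.b₄, WeierstrassCurve.b₆,
      WeierstrassCurve.b₈, E]
    norm_num
  rw [h]
  exact isUnit_iff_ne_zero.2 (by norm_num)

/-- coordinates of the unordered pair of first coordinates -/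
noncomputable def sym (V W : E.Point) : Fin 3 → ℚ :=
  ![V.xRep 0 * W.xRep 0, V.xRep 0 * W.xRep 1 + V.xRep 1 * W.xRep 0, V.xRep 1 * W.xRep 1]

/-- logarithmic height of a point -/
noncomputable def lh (V : E.Point) : ℝ := logHeight V.xRep

theorem xRep_hasX {V : E.Point} {x : ℚ} (h : HasX V x) : V.xRep = ![x, 1] := by
  obtain ⟨y, hy, rfl⟩ := h
  rfl

theorem xRep_zero' : (0 : E.Point).xRep = ![1, 0] := rfl

theorem eval_addSub (v : Fin 3 → ℚ) :
    (fun i => (WeierstrassCurve.addSubMap E i).eval v) =
      ![v 0 ^ 2 - 4096 * v 0 * v 2 + 4194304 * v 2 ^ 2,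
        2 * v 1 * v 0 + 4096 * v 1 * v 2 + 420 * v 0 * v 2,
        v 1 ^ 2 - 4 * v 0 * v 2] := by
  funext i
  fin_cases i <;>
  simp [WeierstrassCurve.addSubMap, WeierstrassCurve.b₂, WeierstrassCurve.b₄,
    WeierstrassCurve.b₆, WeierstrassCurve.b₈, E] <;> ring

theorem point_cases (V : E.Point) : V = 0 ∨ ∃ x, HasX V x := by
  rcases eq_or_ne V 0 with h | h
  · exact Or.inl h
  · exact Or.inr (exists_hasX h)

theorem sym_map (V W : E.Point) : ∃ c : ℚ, c ≠ 0 ∧
    (fun i => (WeierstrassCurve.addSubMap E i).eval (sym V W)) = c • sym (V + W) (V - W) := by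
  rw [eval_addSub]
  rcases point_cases V with rfl | ⟨a, ha⟩
  · refine ⟨1, one_ne_zero, ?_⟩
    simp only [zero_add, zero_sub, one_smul, sym, WeierstrassCurve.Affine.Point.xRep_neg, xRep_zero']
    funext i
    fin_cases i <;> simp <;> ring
  rcases point_cases W with rfl | ⟨b, hb⟩
  · refine ⟨1, one_ne_zero, ?_⟩
    simp only [add_zero, sub_zero, one_smul, sym, xRep_zero']
    funext i
    fin_cases i <;> simp <;> ring
  by_cases hab : a = b
  · subst hab
    have hVW : V = W ∨ V = -W := ha.eq_or_neg hb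
    have hrep : W.xRep = ![a, 1] := xRep_hasX hb
    have hrep' : V.xRep = ![a, 1] := xRep_hasX ha
    by_cases ha0 : a = 0
    · subst ha0
      refine ⟨4194304, by norm_num, ?_⟩
      have h2 : W + W = 0 := by
        obtain ⟨y, hy, rfl⟩ := hb
        have hy0 : y = 0 := by
          have : y ^ 2 = 0 := by rw [hy]; ring
          exact pow_eq_zero_iff (n := 2) (by norm_num) |>.1 this
        have h3 : -pt 0 y hy = pt 0 y hy := by
          rw [neg_pt]
          exact pt_congr rfl (by rw [hy0]; simp)
        calc pt 0 y hy + pt 0 y hy = pt 0 y hy + -pt 0 y hy := by rw [h3]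
          _ = 0 := add_neg_cancel _
      have h1 : V + W = 0 ∧ V - W = 0 := by
        rcases hVW with h | h
        · rw [h]; exact ⟨h2, sub_self _⟩
        · rw [h]
          refine ⟨neg_add_cancel _, ?_⟩
          rw [← neg_add', h2, neg_zero]
      simp only [sym, h1.1, h1.2, hrep, hrep', xRep_zero']
      funext i
      fin_cases i <;> simp
    · have hd := cubic_ne ha0
      have hd' : 4 * (a ^ 3 + 105 * a ^ 2 + 2048 * a) ≠ 0 := mul_ne_zero (by norm_num) hd
      refine ⟨4 * (a ^ 3 + 105 * a ^ 2 + 2048 * a), hd', ?_⟩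
      have h2 : (W + W).xRep = ![(a ^ 2 - 2048) ^ 2 / (4 * (a ^ 3 + 105 * a ^ 2 + 2048 * a)), 1] :=
        xRep_hasX (hasX_two_smul hb ha0)
      have h1 : ((V + W).xRep = ![(a ^ 2 - 2048) ^ 2 / (4 * (a ^ 3 + 105 * a ^ 2 + 2048 * a)), 1] ∧
          (V - W).xRep = ![1, 0]) ∨
          ((V - W).xRep = ![(a ^ 2 - 2048) ^ 2 / (4 * (a ^ 3 + 105 * a ^ 2 + 2048 * a)), 1] ∧
          (V + W).xRep = ![1, 0]) := by
        rcases hVW with h | h
        · left
          rw [h]
          exact ⟨h2, by rw [sub_self]; rfl⟩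
        · right
          rw [h]
          refine ⟨?_, by rw [neg_add_cancel]; rfl⟩
          rw [← neg_add', WeierstrassCurve.Affine.Point.xRep_neg, h2]
      have e := mul_div_cancel₀ ((a ^ 2 - 2048) ^ 2) hd'
      rcases h1 with ⟨h1, h3⟩ | ⟨h1, h3⟩
      · simp only [sym, h1, h3, hrep, hrep']
        funext i
        fin_cases i
        · simp only [Nat.succ_eq_add_one, Nat.reduceAdd, Fin.isValue, Matrix.cons_val_zero,
            Matrix.cons_val_one, Matrix.cons_val_fin_one, mul_one, one_mul, Matrix.cons_val,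
            one_pow, Fin.zero_eta, Pi.smul_apply, smul_eq_mul]
          linear_combination -e
        · simp only [Nat.succ_eq_add_one, Nat.reduceAdd, Fin.isValue, Matrix.cons_val_zero,
            Matrix.cons_val_one, Matrix.cons_val_fin_one, mul_one, one_mul, Matrix.cons_val,
            one_pow, Fin.mk_one, mul_zero, zero_add, Pi.smul_apply, smul_eq_mul]
          ring
        · simp
          ring
      · simp only [sym, h1, h3, hrep, hrep']
        funext i
        fin_cases i
        · simp only [Nat.succ_eq_add_one, Nat.reduceAdd, Fin.isValue, Matrix.cons_val_zero,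
            Matrix.cons_val_one, Matrix.cons_val_fin_one, mul_one, one_mul, Matrix.cons_val,
            one_pow, Fin.zero_eta, Pi.smul_apply, smul_eq_mul]
          linear_combination -e
        · simp only [Nat.succ_eq_add_one, Nat.reduceAdd, Fin.isValue, Matrix.cons_val_zero,
            Matrix.cons_val_one, Matrix.cons_val_fin_one, mul_one, one_mul, Matrix.cons_val,
            one_pow, Fin.mk_one, mul_zero, zero_add, add_zero, Pi.smul_apply, smul_eq_mul]
          ring
        · simp only [Nat.succ_eq_add_one, Nat.reduceAdd, Fin.isValue, Matrix.cons_val_zero,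
            Matrix.cons_val_one, Matrix.cons_val_fin_one, mul_one, one_mul, Matrix.cons_val,
            one_pow, Fin.reduceFinMk, zero_mul, add_zero, Pi.smul_apply, smul_eq_mul, mul_zero]
          ring
  · obtain ⟨s, d, hs, hd, h1, h2⟩ := hasX_add_sub ha hb hab
    refine ⟨(a - b) ^ 2, pow_ne_zero _ (sub_ne_zero.2 hab), ?_⟩
    simp only [sym, xRep_hasX hs, xRep_hasX hd, xRep_hasX ha, xRep_hasX hb]
    funext i
    fin_cases i
    · simp only [Nat.succ_eq_add_one, Nat.reduceAdd, Fin.isValue, Matrix.cons_val_zero,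
        Matrix.cons_val_one, Matrix.cons_val_fin_one, mul_one, one_mul, Matrix.cons_val, one_pow,
        Fin.zero_eta, Pi.smul_apply, smul_eq_mul]
      linear_combination -h2
    · simp
      linear_combination -h1
    · simp
      ring

/-- the approximate parallelogram law -/
theorem parallelogram : ∃ C : ℝ, ∀ V W : E.Point,
    |lh (V + W) + lh (V - W) - 2 * lh V - 2 * lh W| ≤ C := by
  obtain ⟨C₁, h₁⟩ := WeierstrassCurve.abs_logHeight_addSubMap_sub_two_mul_logHeight_le E
  obtain ⟨C₂, h₂⟩ := Height.abs_logHeight_sym2_sub_le ℚ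
  have hsym : ∀ V W : E.Point, |logHeight (sym V W) - (lh V + lh W)| ≤ C₂ := by
    intro V W
    have hV := V.xRep_ne_zero
    have hW := W.xRep_ne_zero
    have eV : V.xRep = ![V.xRep 0, V.xRep 1] := by
      funext i; fin_cases i <;> rfl
    have eW : W.xRep = ![W.xRep 0, W.xRep 1] := by
      funext i; fin_cases i <;> rfl
    have := h₂ (a := V.xRep 0) (b := V.xRep 1) (c := W.xRep 0) (d := W.xRep 1)
      (by rw [← eV]; exact hV) (by rw [← eW]; exact hW)
    rw [← eV, ← eW] at this
    exact this
  refine ⟨C₁ + 3 * C₂, fun V W => ?_⟩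
  obtain ⟨c, hc, hmap⟩ := sym_map V W
  have h3 := h₁ (sym V W)
  rw [hmap, logHeight_smul_eq_logHeight _ hc] at h3
  have h4 := hsym V W
  have h5 := hsym (V + W) (V - W)
  rw [abs_le] at *
  constructor <;> linarith only [h3, h4, h5]

/-- the height of a rational number -/
def Hq (x : ℚ) : ℕ := max x.num.natAbs x.den

theorem lh_hasX {V : E.Point} {x : ℚ} (h : HasX V x) : lh V = Real.log (Hq x) := by
  unfold lh Hq
  rw [xRep_hasX h, ← logHeight₁_eq_logHeight, Rat.logHeight₁_eq_log_max]

/-- heights of the multiples of the generator grow quadratically -/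
theorem growth : ∃ κ C : ℝ, 0 < κ ∧ 0 ≤ C ∧ ∀ (n : ℤ) (x : ℚ), HasX (n • P0) x →
    |Real.log (Hq x) - κ * (n : ℝ) ^ 2| ≤ C := by
  obtain ⟨C, hC⟩ := parallelogram
  have hC0 : 0 ≤ C := (abs_nonneg _).trans (hC 0 0)
  have h0 : lh (0 : E.Point) = 0 := by
    unfold lh
    rw [xRep_zero', ← logHeight_swap, ← logHeight₁_eq_logHeight, logHeight₁_zero]
  obtain ⟨κ, hκ⟩ := HT.quadratic_of_parallelogram (g := fun n : ℤ => lh (n • P0)) (C := C)
    (by simp only [zero_zsmul, h0]) (fun m n => by
      have h1 := hC (m • P0) (n • P0)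
      have e : m • P0 - n • P0 = (m - n) • P0 := by rw [sub_zsmul, sub_eq_add_neg]
      rw [← add_zsmul, e] at h1
      exact h1)
  refine ⟨κ, 2 * C, ?_, by linarith, ?_⟩
  · by_contra hneg
    push Not at hneg
    -- all heights are bounded, contradiction with Northcott
    have hfin := NumberField.finite_setOfPred_logHeight₁_le (K := ℚ) (2 * C)
    have hx : ∀ n : ℕ, ∃ x, HasX (((n : ℤ) + 1) • P0) x := by
      intro n
      rcases point_cases (((n : ℤ) + 1) • P0) with h | h
      · exact absurd h (zsmul_P0_ne_zero (by omega))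
      · exact h
    choose x hx using hx
    have hinj : Function.Injective x := by
      intro m n hmn
      have h1 := hx m
      rw [hmn] at h1
      rcases h1.eq_or_neg (hx n) with h | h
      · have := zsmul_inj h
        omega
      · rw [← neg_zsmul] at h
        have := zsmul_inj h
        omega
    refine Set.infinite_range_of_injective hinj (hfin.subset ?_)
    rintro _ ⟨n, rfl⟩
    have h1 := hκ ((n : ℤ) + 1)
    rw [lh_hasX (hx n)] at h1
    show logHeight₁ (x n) ≤ 2 * C
    rw [Rat.logHeight₁_eq_log_max]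
    unfold Hq at h1
    have h2 : κ * (((n : ℤ) + 1 : ℤ) : ℝ) ^ 2 ≤ 0 :=
      mul_nonpos_of_nonpos_of_nonneg hneg (sq_nonneg _)
    rw [abs_le] at h1
    linarith only [h1, h2]
  · intro n x hx
    have := hκ n
    rw [lh_hasX hx] at this
    exact this

end Vale.Agent.P027.L
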