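import Vale.Agent.P027.L.Ord
import Vale.Agent.P027.R4.H849.CalP

set_option linter.all false

/-! Diophantine calculus for points of the curve `y^2 = x^3 + 105 x^2 + 2048 x`. -/

namespace Vale.Agent.P027.L

open Vale.Agent.P027

/-- total decoding of pairs of rational numbers as points -/
noncomputable def dec (x y : ℚ) : E.Point := by
  classical
  exact if h : y ^ 2 = x ^ 3 + 105 * x ^ 2 + 2048 * x then pt x y h else 0

lemma dec_of {x y : ℚ} (h : y ^ 2 = x ^ 3 + 105 * x ^ 2 + 2048 * x) : dec x y = pt x y h := by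
  unfold dec; rw [dif_pos h]

lemma dec_of_not {x y : ℚ} (h : ¬ y ^ 2 = x ^ 3 + 105 * x ^ 2 + 2048 * x) : dec x y = 0 := by
  unfold dec; rw [dif_neg h]

lemma some_eq_dec {x y : ℚ} (h : E.Nonsingular x y) :
    (WeierstrassCurve.Affine.Point.some x y h : E.Point) = dec x y := by
  rw [dec_of ((e_nonsingular_iff x y).1 h)]; rfl

lemma exists_dec (P : E.Point) : ∃ x y, dec x y = P := by
  rcases P with _ | ⟨x, y, h⟩
  · exact ⟨0, 1, dec_of_not (by norm_num)⟩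
  · exact ⟨x, y, (some_eq_dec h).symm⟩

lemma dec_inj {x y x' y' : ℚ} (h : y ^ 2 = x ^ 3 + 105 * x ^ 2 + 2048 * x) (e : dec x y = dec x' y') :
    x = x' ∧ y = y' := by
  rw [dec_of h] at e
  by_cases h' : y' ^ 2 = x' ^ 3 + 105 * x' ^ 2 + 2048 * x'
  · rw [dec_of h'] at e
    unfold pt at e
    rw [WeierstrassCurve.Affine.Point.some.injEq] at e
    exact e
  · rw [dec_of_not h'] at e
    exact absurd e (WeierstrassCurve.Affine.Point.some_ne_zero _)

lemma dec_eq_iff (x y x' y' : ℚ) : dec x y = dec x' y' ↔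
    (y ^ 2 ≠ x ^ 3 + 105 * x ^ 2 + 2048 * x ∧ y' ^ 2 ≠ x' ^ 3 + 105 * x' ^ 2 + 2048 * x') ∨
      (y ^ 2 = x ^ 3 + 105 * x ^ 2 + 2048 * x ∧ x = x' ∧ y = y') := by
  constructor
  · intro e
    by_cases h : y ^ 2 = x ^ 3 + 105 * x ^ 2 + 2048 * x
    · exact Or.inr ⟨h, dec_inj h e⟩
    · by_cases h' : y' ^ 2 = x' ^ 3 + 105 * x' ^ 2 + 2048 * x'
      · exact absurd ((dec_inj h' e.symm).1 ▸ (dec_inj h' e.symm).2 ▸ h') h
      · exact Or.inl ⟨h, h'⟩
  · rintro (⟨h, h'⟩ | ⟨-, rfl, rfl⟩)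
    · rw [dec_of_not h, dec_of_not h']
    · rfl

lemma add_eq_dec {x y x' y' : ℚ} (h : y ^ 2 = x ^ 3 + 105 * x ^ 2 + 2048 * x) (h' : y' ^ 2 = x' ^ 3 + 105 * x' ^ 2 + 2048 * x')
    (hxy : ¬ (x = x' ∧ y = -y')) {l : ℚ} (hl : E.slope x x' y y' = l) :
    dec x y + dec x' y' = dec (l ^ 2 - 105 - x - x') (-(l * (l ^ 2 - 105 - x - x' - x) + y)) := by
  rw [dec_of h, dec_of h']
  have hxy' : ¬ (x = x' ∧ y = E.negY x' y') := by rw [negY_e]; exact hxy
  unfold pt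
  rw [WeierstrassCurve.Affine.Point.add_some hxy', some_eq_dec]
  have hX : E.addX x x' (E.slope x x' y y') = l ^ 2 - 105 - x - x' := by
    rw [hl]
    simp only [WeierstrassCurve.Affine.addX, E]
    ring
  have hY : E.addY x x' y (E.slope x x' y y') = -(l * (l ^ 2 - 105 - x - x' - x) + y) := by
    rw [WeierstrassCurve.Affine.addY, negY_e, WeierstrassCurve.Affine.negAddY, hX, hl]
  rw [hX, hY]

lemma add_ne {x y x' y' : ℚ} (h : y ^ 2 = x ^ 3 + 105 * x ^ 2 + 2048 * x) (h' : y' ^ 2 = x' ^ 3 + 105 * x' ^ 2 + 2048 * x')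
    (hxy : x ≠ x') : dec x y + dec x' y' =
      dec (((y - y') / (x - x')) ^ 2 - 105 - x - x')
        (-((y - y') / (x - x') * (((y - y') / (x - x')) ^ 2 - 105 - x - x' - x) + y)) :=
  add_eq_dec h h' (fun h => hxy h.1) (WeierstrassCurve.Affine.slope_of_X_ne hxy)

lemma add_self_ne {x y : ℚ} (h : y ^ 2 = x ^ 3 + 105 * x ^ 2 + 2048 * x) (hy : y ≠ 0) : dec x y + dec x y =
      dec (((3 * x ^ 2 + 210 * x + 2048) / (2 * y)) ^ 2 - 105 - x - x)
        (-((3 * x ^ 2 + 210 * x + 2048) / (2 * y) * (((3 * x ^ 2 + 210 * x + 2048) / (2 * y)) ^ 2 - 105 - x - x - x) + y)) := by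
  refine add_eq_dec h h (fun h => hy ?_) ?_
  · have := h.2; linarith only [h]
  · have hne : y ≠ E.negY x y := by
      rw [negY_e]; intro h1; apply hy; linarith
    rw [WeierstrassCurve.Affine.slope_of_Y_ne rfl hne, negY_e]
    simp only [E]
    congr 1 <;> ring

lemma neg_dec (x y : ℚ) : -dec x y = dec x (-y) := by
  by_cases h : y ^ 2 = x ^ 3 + 105 * x ^ 2 + 2048 * x
  · rw [dec_of h, dec_of (by rw [neg_sq]; exact h), neg_pt]
  · rw [dec_of_not h, dec_of_not (by rw [neg_sq]; exact h), neg_zero]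

/-- the graph of addition -/
lemma add_iff (x y x' y' u v : ℚ) : dec x y + dec x' y' = dec u v ↔
    (y ^ 2 ≠ x ^ 3 + 105 * x ^ 2 + 2048 * x ∧ dec x' y' = dec u v) ∨
    (y' ^ 2 ≠ x' ^ 3 + 105 * x' ^ 2 + 2048 * x' ∧ dec x y = dec u v) ∨
    (y ^ 2 = x ^ 3 + 105 * x ^ 2 + 2048 * x ∧ y' ^ 2 = x' ^ 3 + 105 * x' ^ 2 + 2048 * x' ∧ x ≠ x' ∧
      dec (((y - y') / (x - x')) ^ 2 - 105 - x - x')
        (-((y - y') / (x - x') * (((y - y') / (x - x')) ^ 2 - 105 - x - x' - x) + y)) = dec u v) ∨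
    (y ^ 2 = x ^ 3 + 105 * x ^ 2 + 2048 * x ∧ y' ^ 2 = x' ^ 3 + 105 * x' ^ 2 + 2048 * x' ∧ x = x' ∧ y = -y' ∧ v ^ 2 ≠ u ^ 3 + 105 * u ^ 2 + 2048 * u) ∨
    (y ^ 2 = x ^ 3 + 105 * x ^ 2 + 2048 * x ∧ x = x' ∧ y = y' ∧ y ≠ 0 ∧
      dec (((3 * x ^ 2 + 210 * x + 2048) / (2 * y)) ^ 2 - 105 - x - x)
        (-((3 * x ^ 2 + 210 * x + 2048) / (2 * y) * (((3 * x ^ 2 + 210 * x + 2048) / (2 * y)) ^ 2 - 105 - x - x - x) + y)) =
        dec u v) := by
  have hz : ∀ a b : ℚ, dec a b = 0 → b ^ 2 ≠ a ^ 3 + 105 * a ^ 2 + 2048 * a := by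
    intro a b h1 h2
    rw [dec_of h2] at h1
    exact absurd h1 (WeierstrassCurve.Affine.Point.some_ne_zero _)
  by_cases h : y ^ 2 = x ^ 3 + 105 * x ^ 2 + 2048 * x
  swap
  · constructor
    · intro e
      rw [dec_of_not h, zero_add] at e
      exact Or.inl ⟨h, e⟩
    · rintro (⟨-, e⟩ | ⟨h', e⟩ | ⟨h1, -⟩ | ⟨h1, -⟩ | ⟨h1, -⟩)
      · rw [dec_of_not h, zero_add, e]
      · rw [dec_of_not h', add_zero, e]
      · exact absurd h1 h
      · exact absurd h1 h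
      · exact absurd h1 h
  by_cases h' : y' ^ 2 = x' ^ 3 + 105 * x' ^ 2 + 2048 * x'
  swap
  · constructor
    · intro e
      rw [dec_of_not h', add_zero] at e
      exact Or.inr (Or.inl ⟨h', e⟩)
    · rintro (⟨h1, e⟩ | ⟨-, e⟩ | ⟨-, h1, -⟩ | ⟨-, h1, -⟩ | ⟨-, rfl, rfl, -⟩)
      · exact absurd h h1
      · rw [dec_of_not h', add_zero, e]
      · exact absurd h1 h'
      · exact absurd h1 h'
      · exact absurd h h'
  by_cases hx : x = x'
  · subst hx
    have hyy : y = y' ∨ y = -y' := sq_eq_sq_iff_eq_or_eq_neg.1 (by rw [h, h'])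
    by_cases hy : y = -y'
    · have e0 : dec x y + dec x y' = 0 := by
        rw [hy, ← neg_dec, neg_add_cancel]
      rw [e0]
      constructor
      · intro e
        exact Or.inr (Or.inr (Or.inr (Or.inl ⟨h, h', rfl, hy, hz _ _ e.symm⟩)))
      · rintro (⟨h1, -⟩ | ⟨h1, -⟩ | ⟨-, -, h1, -⟩ | ⟨-, -, -, -, h1⟩ | ⟨-, -, h1, h2, -⟩)
        · exact absurd h h1
        · exact absurd h' h1
        · exact absurd rfl h1
        · rw [dec_of_not h1]
        · exact absurd (by linarith only [hy, h1]) h2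
    · have hy' : y = y' := hyy.resolve_right hy
      subst hy'
      have hy0 : y ≠ 0 := by
        rintro rfl
        exact hy (by norm_num)
      rw [add_self_ne h hy0]
      constructor
      · intro e
        exact Or.inr (Or.inr (Or.inr (Or.inr ⟨h, rfl, rfl, hy0, e⟩)))
      · rintro (⟨h1, -⟩ | ⟨h1, -⟩ | ⟨-, -, h1, -⟩ | ⟨-, -, -, h1, -⟩ | ⟨-, -, -, -, e⟩)
        · exact absurd h h1
        · exact absurd h h1
        · exact absurd rfl h1
        · exact absurd h1 hy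
        · exact e
  · rw [add_ne h h' hx]
    constructor
    · intro e
      exact Or.inr (Or.inr (Or.inl ⟨h, h', hx, e⟩))
    · rintro (⟨h1, -⟩ | ⟨h1, -⟩ | ⟨-, -, -, e⟩ | ⟨-, -, h1, -⟩ | ⟨-, h1, -⟩)
      · exact absurd h h1
      · exact absurd h' h1
      · exact e
      · exact absurd h1 hx
      · exact absurd h1 hx

section Dio

variable {f g f' g' a b : (ℕ → ℚ) → ℚ}

lemma dio_on (hf : DioFn f) (hg : DioFn g) :
    Dio (fun v => g v ^ 2 = f v ^ 3 + 105 * f v ^ 2 + 2048 * f v) :=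
  Dio.eq (hg.pow 2) (((hf.pow 3).add ((lit_fn 105).mul (hf.pow 2))).add ((lit_fn 2048).mul hf))

lemma dio_not_on (hf : DioFn f) (hg : DioFn g) :
    Dio (fun v => g v ^ 2 ≠ f v ^ 3 + 105 * f v ^ 2 + 2048 * f v) :=
  Dio.ne (hg.pow 2) (((hf.pow 3).add ((lit_fn 105).mul (hf.pow 2))).add ((lit_fn 2048).mul hf))

lemma dio_dec_eq (hf : DioFn f) (hg : DioFn g) (hf' : DioFn f') (hg' : DioFn g') :
    Dio (fun v => dec (f v) (g v) = dec (f' v) (g' v)) := by
  simp only [dec_eq_iff]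
  exact ((dio_not_on hf hg).and (dio_not_on hf' hg')).or
    ((dio_on hf hg).and ((Dio.eq hf hf').and (Dio.eq hg hg')))

lemma fn_neg (hf : DioFn f) : DioFn (fun v => -f v) := by
  simpa using zero_fn.sub hf

lemma dio_add (hf : DioFn f) (hg : DioFn g) (hf' : DioFn f') (hg' : DioFn g')
    (ha : DioFn a) (hb : DioFn b) :
    Dio (fun v => dec (f v) (g v) + dec (f' v) (g' v) = dec (a v) (b v)) := by
  simp only [add_iff]
  have hl : DioFn (fun v => (g v - g' v) / (f v - f' v)) := (hg.sub hg').div (hf.sub hf')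
  have hm : DioFn (fun v => (3 * f v ^ 2 + 210 * f v + 2048) / (2 * g v)) :=
    ((((lit_fn 3).mul (hf.pow 2)).add ((lit_fn 210).mul hf)).add (lit_fn 2048)).div ((lit_fn 2).mul hg)
  refine ((dio_not_on hf hg).and (dio_dec_eq hf' hg' ha hb)).or
    (((dio_not_on hf' hg').and (dio_dec_eq hf hg ha hb)).or
    (((dio_on hf hg).and ((dio_on hf' hg').and ((Dio.ne hf hf').and ?_))).or
    (((dio_on hf hg).and ((dio_on hf' hg').and ((Dio.eq hf hf').and
      ((Dio.eq hg (fn_neg hg')).and (dio_not_on ha hb))))).or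
    ((dio_on hf hg).and ((Dio.eq hf hf').and ((Dio.eq hg hg').and
      ((Dio.ne hg zero_fn).and ?_)))))))
  · exact dio_dec_eq ((((hl.pow 2).sub (lit_fn 105)).sub hf).sub hf')
      (fn_neg ((hl.mul (((((hl.pow 2).sub (lit_fn 105)).sub hf).sub hf').sub hf)).add hg)) ha hb
  · exact dio_dec_eq ((((hm.pow 2).sub (lit_fn 105)).sub hf).sub hf)
      (fn_neg ((hm.mul (((((hm.pow 2).sub (lit_fn 105)).sub hf).sub hf).sub hf)).add hg)) ha hb

end Dio

/-- Diophantine functions with values in the group of points -/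
def DPt (F : (ℕ → ℚ) → E.Point) : Prop := Dio (fun v => dec (v 0) (v 1) = F (tl (tl v)))

theorem DPt.dec {f g : (ℕ → ℚ) → ℚ} (hf : DioFn f) (hg : DioFn g) :
    DPt (fun v => dec (f v) (g v)) :=
  dio_dec_eq (DioFn.var 0) (DioFn.var 1) hf.tl.tl hg.tl.tl

theorem DPt.const (P : E.Point) : DPt (fun _ => P) := by
  obtain ⟨x, y, rfl⟩ := exists_dec P
  have hq : ∀ q : ℚ, DioFn (fun _ => q) := by
    intro q
    have := (DioFn.int q.num).div (DioFn.int q.den)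
    refine Dio.congr this (fun v => ?_)
    push_cast
    rw [Rat.num_div_den]
  exact DPt.dec (hq x) (hq y)

/-- substitution of Diophantine points -/
theorem DPt.subst {F : (ℕ → ℚ) → E.Point} (hF : DPt F) {S : E.Point → (ℕ → ℚ) → Prop}
    (hS : Dio (fun v => S (L.dec (v 0) (v 1)) (tl (tl v)))) : Dio (fun v => S (F v) v) := by
  have h : Dio (fun v => ∃ y x, L.dec x y = F v ∧ S (L.dec x y) v) :=
    Dio.ex (S := fun y v => ∃ x, L.dec x y = F v ∧ S (L.dec x y) v)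
      (Dio.ex (S := fun x v => L.dec x (v 0) = F (tl v) ∧ S (L.dec x (v 0)) (tl v))
        (Dio.and hF hS))
  refine h.congr (fun v => ⟨fun hv => ?_, ?_⟩)
  · obtain ⟨x, y, e⟩ := exists_dec (F v)
    exact ⟨y, x, e, by rw [e]; exact hv⟩
  · rintro ⟨y, x, e, hv⟩
    rw [e] at hv
    exact hv

theorem DPt.tl {F : (ℕ → ℚ) → E.Point} (hF : DPt F) : DPt (fun v => F (tl v)) := by
  have := Dio.ren hF (fun i => if i = 0 then 0 else if i = 1 then 1 else i + 1)
  exact this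

theorem DPt.add {F G : (ℕ → ℚ) → E.Point} (hF : DPt F) (hG : DPt G) :
    DPt (fun v => F v + G v) := by
  unfold DPt
  refine DPt.subst (S := fun P v => L.dec (v 0) (v 1) = P + G (P027.tl (P027.tl v))) hF.tl.tl ?_
  refine DPt.subst (S := fun U v => L.dec (v 2) (v 3) = L.dec (v 0) (v 1) + U)
    (F := fun v => G (P027.tl (P027.tl (P027.tl (P027.tl v))))) hG.tl.tl.tl.tl ?_
  have := dio_add (DioFn.var 2) (DioFn.var 3) (DioFn.var 0) (DioFn.var 1) (DioFn.var 4)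
    (DioFn.var 5)
  exact this.congr (fun v => eq_comm)

theorem DPt.neg {F : (ℕ → ℚ) → E.Point} (hF : DPt F) : DPt (fun v => -F v) := by
  unfold DPt
  refine DPt.subst (S := fun P v => L.dec (v 0) (v 1) = -P) hF.tl.tl ?_
  simp only [neg_dec]
  exact dio_dec_eq (DioFn.var 2) (DioFn.var 3) (DioFn.var 0) (fn_neg (DioFn.var 1))

theorem DPt.sub {F G : (ℕ → ℚ) → E.Point} (hF : DPt F) (hG : DPt G) :
    DPt (fun v => F v - G v) := by
  simpa [sub_eq_add_neg] using hF.add hG.neg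

theorem DPt.nsmul {F : (ℕ → ℚ) → E.Point} (hF : DPt F) (n : ℕ) : DPt (fun v => n • F v) := by
  induction n with
  | zero => simpa using DPt.const 0
  | succ n ih => simpa only [succ_nsmul] using ih.add hF

theorem dio_pt_eq {F G : (ℕ → ℚ) → E.Point} (hF : DPt F) (hG : DPt G) :
    Dio (fun v => F v = G v) := by
  refine DPt.subst (S := fun P v => P = G v) hF ?_
  exact hG

lemma xc_dec {x y : ℚ} (h : y ^ 2 = x ^ 3 + 105 * x ^ 2 + 2048 * x) : xc (dec x y) = x :=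
  xc_of_hasX ⟨y, h, dec_of h⟩

lemma xc_dec_not {x y : ℚ} (h : ¬ y ^ 2 = x ^ 3 + 105 * x ^ 2 + 2048 * x) : xc (dec x y) = 0 := by
  rw [dec_of_not h]
  exact xc_zero

theorem DPt.xc {F : (ℕ → ℚ) → E.Point} (hF : DPt F) : DioFn (fun v => xc (F v)) := by
  unfold DioFn
  refine DPt.subst (S := fun P v => v 0 = L.xc P) hF.tl ?_
  have h1 : Dio (fun v => (v 1 ^ 2 = v 0 ^ 3 + 105 * v 0 ^ 2 + 2048 * v 0 ∧ v 2 = v 0) ∨
      (v 1 ^ 2 ≠ v 0 ^ 3 + 105 * v 0 ^ 2 + 2048 * v 0 ∧ v 2 = 0)) :=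
    ((dio_on (DioFn.var 0) (DioFn.var 1)).and (Dio.eq (DioFn.var 2) (DioFn.var 0))).or
      ((dio_not_on (DioFn.var 0) (DioFn.var 1)).and (Dio.eq (DioFn.var 2) zero_fn))
  refine h1.congr (fun v => ?_)
  change v 2 = L.xc (L.dec (v 0) (v 1)) ↔ _
  by_cases h : v 1 ^ 2 = v 0 ^ 3 + 105 * v 0 ^ 2 + 2048 * v 0
  · rw [xc_dec h]
    simp [h]
  · rw [xc_dec_not h]
    simp [h]


/-- quantification over points -/
theorem exP_rdio {C : Set ℚ → Prop} (hC : ∀ R, C R → (0 : ℚ) ∈ R)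
    {S : Set ℚ → E.Point → (ℕ → ℚ) → Prop}
    (hS : D1.RDio C (fun R v => S R (dec (v 0) (v 1)) (tl (tl v)))) :
    D1.RDio C (fun R v => ∃ P, S R P v) := by
  have h : D1.RDio C (fun R v => ∃ y x, S R (dec x y) v) :=
    D1.RDio.ex hC (S := fun R y v => ∃ x, S R (dec x y) v)
      (D1.RDio.ex hC (S := fun R x v => S R (dec x (v 0)) (tl v)) hS)
  refine h.congr (fun R _ v => ⟨?_, ?_⟩)
  · rintro ⟨P, hP⟩
    obtain ⟨x, y, e⟩ := exists_dec P
    exact ⟨y, x, by rw [e]; exact hP⟩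
  · rintro ⟨y, x, h⟩
    exact ⟨_, h⟩

end Vale.Agent.P027.L
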