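import Vale.Agent.P027.L.P3

/-! The cubic check is Diophantine. -/

set_option linter.all false

namespace Vale.Agent.P027.L

open Polynomial Vale.Agent.P027

/-! ### Residues modulo `X³ - κX² - b` -/

/-- the cubic polynomial -/
noncomputable def cub (κ b : ℚ) : ℚ[X] := X ^ 3 - C κ * X ^ 2 - C b

/-- residues -/
noncomputable def toP (u : ℚ × ℚ × ℚ) : ℚ[X] := C u.1 + C u.2.1 * X + C u.2.2 * X ^ 2

/-- product of residues -/
def tm (κ b : ℚ) (u v : ℚ × ℚ × ℚ) : ℚ × ℚ × ℚ :=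
  (u.1 * v.1 + b * (u.2.1 * v.2.2 + u.2.2 * v.2.1) + κ * b * (u.2.2 * v.2.2),
   u.1 * v.2.1 + u.2.1 * v.1 + b * (u.2.2 * v.2.2),
   u.1 * v.2.2 + u.2.1 * v.2.1 + u.2.2 * v.1 + κ * (u.2.1 * v.2.2 + u.2.2 * v.2.1) +
     κ ^ 2 * (u.2.2 * v.2.2))

def ta (u v : ℚ × ℚ × ℚ) : ℚ × ℚ × ℚ := (u.1 + v.1, u.2.1 + v.2.1, u.2.2 + v.2.2)
def tb (u v : ℚ × ℚ × ℚ) : ℚ × ℚ × ℚ := (u.1 - v.1, u.2.1 - v.2.1, u.2.2 - v.2.2)
def ts (n : ℕ) (u : ℚ × ℚ × ℚ) : ℚ × ℚ × ℚ := (n * u.1, n * u.2.1, n * u.2.2)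

/-- the norm form on residues -/
def nt (κ b : ℚ) (x y z : ℚ × ℚ × ℚ) : ℚ × ℚ × ℚ :=
  ta (tb (tb (ta (ta (tb (tb (ta (tb (tm κ b (tm κ b x x) x) (tm κ b (tm κ b x x) y))
    (ts 5 (tm κ b (tm κ b x x) z))) (ts 2 (tm κ b x (tm κ b y y)))) (tm κ b (tm κ b x y) z))
    (ts 6 (tm κ b x (tm κ b z z)))) (tm κ b (tm κ b y y) y)) (tm κ b (tm κ b y y) z))
    (ts 2 (tm κ b y (tm κ b z z)))) (tm κ b (tm κ b z z) z)

theorem toP_ta (u v : ℚ × ℚ × ℚ) : toP (ta u v) = toP u + toP v := by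
  unfold toP ta
  simp only [C_add]
  ring

theorem toP_tb (u v : ℚ × ℚ × ℚ) : toP (tb u v) = toP u - toP v := by
  unfold toP tb
  simp only [C_sub]
  ring

theorem toP_ts (n : ℕ) (u : ℚ × ℚ × ℚ) : toP (ts n u) = n * toP u := by
  unfold toP ts
  simp only [C_mul, C_eq_natCast]
  ring

theorem toP_tm (κ b : ℚ) (u v : ℚ × ℚ × ℚ) : toP u * toP v = toP (tm κ b u v) +
    cub κ b * (C (u.2.1 * v.2.2 + u.2.2 * v.2.1) + C (u.2.2 * v.2.2) * (X + C κ)) := by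
  unfold toP tm cub
  simp only [C_add, C_mul, C_pow]
  ring

theorem cub_monic (κ b : ℚ) : (cub κ b).Monic := by
  unfold cub
  monicity!

theorem cub_degree (κ b : ℚ) : (cub κ b).degree = 3 := by
  unfold cub
  compute_degree!

theorem toP_degree (u : ℚ × ℚ × ℚ) : (toP u).degree < 3 := by
  unfold toP
  refine (degree_add_le _ _).trans_lt (max_lt ((degree_add_le _ _).trans_lt (max_lt ?_ ?_)) ?_)
  · exact degree_C_le.trans_lt (by norm_num)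
  · exact (degree_C_mul_X_le _).trans_lt (by norm_num)
  · exact (degree_C_mul_X_pow_le 2 _).trans_lt (by norm_num)

theorem toP_surj {p : ℚ[X]} (hp : p.degree < 3) : ∃ u, toP u = p := by
  refine ⟨(p.coeff 0, p.coeff 1, p.coeff 2), ?_⟩
  ext n
  unfold toP
  simp only [coeff_add, coeff_C, coeff_C_mul, coeff_X, coeff_X_pow]
  rcases n with _ | _ | _ | n
  · simp
  · simp
  · simp
  · have h3 : p.degree < ((n + 1 + 1 + 1 : ℕ) : WithBot ℕ) := by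
      refine hp.trans_le ?_
      have h4 : ((3 : ℕ) : WithBot ℕ) ≤ ((n + 3 : ℕ) : WithBot ℕ) :=
        Nat.cast_le.2 (Nat.le_add_left 3 n)
      exact h4
    rw [coeff_eq_zero_of_degree_lt h3]
    simp

theorem toP_inj {u v : ℚ × ℚ × ℚ} (h : toP u = toP v) : u = v := by
  have h0 := congrArg (fun p => coeff p 0) h
  have h1 := congrArg (fun p => coeff p 1) h
  have h2 := congrArg (fun p => coeff p 2) h
  unfold toP at h0 h1 h2
  simp [coeff_C, coeff_X] at h0 h1 h2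
  exact Prod.ext h0 (Prod.ext h1 h2)

theorem p3_iff (b κ : ℚ) : P3 b κ ↔ ∃ x y z : ℚ × ℚ × ℚ, nt κ b x y z = (b, 0, 0) := by
  let π := Ideal.Quotient.mk (Ideal.span {cub κ b})
  have hπ : ∀ p q : ℚ[X], π p = π q ↔ cub κ b ∣ p - q := fun p q => by
    rw [Ideal.Quotient.eq, Ideal.mem_span_singleton]
  have hm : ∀ u v, π (toP (tm κ b u v)) = π (toP u) * π (toP v) := by
    intro u v
    rw [← map_mul, eq_comm, hπ, toP_tm κ b]
    exact ⟨C (u.2.1 * v.2.2 + u.2.2 * v.2.1) + C (u.2.2 * v.2.2) * (X + C κ), by ring⟩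
  have hnt : ∀ x y z, π (toP (nt κ b x y z)) = N7 (π (toP x)) (π (toP y)) (π (toP z)) := by
    intro x y z
    unfold nt
    simp only [toP_ta, toP_tb, toP_ts, map_add, map_sub, map_mul, hm, map_natCast]
    unfold N7
    push_cast
    ring
  have hN : ∀ x y z : ℚ[X], π (N7 x y z) = N7 (π x) (π y) (π z) := by
    intro x y z
    unfold N7
    simp only [map_add, map_sub, map_mul, map_pow, map_ofNat]
  have hb : toP (b, 0, 0) = C b := by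
    unfold toP
    simp
  constructor
  · rintro ⟨x, y, z, g, he⟩
    have hmod : ∀ p : ℚ[X], ∃ u, π (toP u) = π p := by
      intro p
      obtain ⟨u, hu⟩ := toP_surj (p := p %ₘ cub κ b)
        ((degree_modByMonic_lt _ (cub_monic κ b)).trans_eq (cub_degree κ b))
      refine ⟨u, ?_⟩
      rw [hu, hπ]
      refine ⟨-(p /ₘ cub κ b), ?_⟩
      have := modByMonic_add_div p (cub κ b)
      linear_combination this
    obtain ⟨x', hx⟩ := hmod x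
    obtain ⟨y', hy⟩ := hmod y
    obtain ⟨z', hz⟩ := hmod z
    refine ⟨x', y', z', ?_⟩
    have h1 : π (toP (nt κ b x' y' z')) = π (toP (b, 0, 0)) := by
      rw [hnt, hx, hy, hz, ← hN, he, hb, hπ]
      exact ⟨g, by unfold cub; ring⟩
    rw [hπ] at h1
    apply toP_inj
    have h2 : toP (nt κ b x' y' z') - toP (b, 0, 0) = 0 := by
      refine eq_zero_of_dvd_of_degree_lt h1 ?_
      rw [cub_degree]
      exact (degree_sub_le _ _).trans_lt (max_lt (toP_degree _) (toP_degree _))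
    exact sub_eq_zero.1 h2
  · rintro ⟨x, y, z, he⟩
    have h1 : π (N7 (toP x) (toP y) (toP z)) = π (C b) := by
      rw [hN, ← hnt, he, hb]
    rw [hπ] at h1
    obtain ⟨g, hg⟩ := h1
    refine ⟨toP x, toP y, toP z, g, ?_⟩
    have : cub κ b = X ^ 3 - C κ * X ^ 2 - C b := rfl
    rw [← this, ← hg]
    ring

/-! ### Diophantine triples -/

/-- Diophantine functions with three values -/
def DT (F : (ℕ → ℚ) → ℚ × ℚ × ℚ) : Prop :=
  DioFn (fun v => (F v).1) ∧ DioFn (fun v => (F v).2.1) ∧ DioFn (fun v => (F v).2.2)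

theorem DT.tm {κ b : (ℕ → ℚ) → ℚ} {F G : (ℕ → ℚ) → ℚ × ℚ × ℚ} (hκ : DioFn κ) (hb : DioFn b)
    (hF : DT F) (hG : DT G) : DT (fun v => tm (κ v) (b v) (F v) (G v)) := by
  obtain ⟨f0, f1, f2⟩ := hF
  obtain ⟨g0, g1, g2⟩ := hG
  have w3 := (f1.mul g2).add (f2.mul g1)
  have w4 := f2.mul g2
  exact ⟨((f0.mul g0).add (hb.mul w3)).add ((hκ.mul hb).mul w4),
    ((f0.mul g1).add (f1.mul g0)).add (hb.mul w4),
    ((((f0.mul g2).add (f1.mul g1)).add (f2.mul g0)).add (hκ.mul w3)).add ((hκ.pow 2).mul w4)⟩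

theorem DT.ta {F G : (ℕ → ℚ) → ℚ × ℚ × ℚ} (hF : DT F) (hG : DT G) :
    DT (fun v => ta (F v) (G v)) :=
  ⟨hF.1.add hG.1, hF.2.1.add hG.2.1, hF.2.2.add hG.2.2⟩

theorem DT.tb {F G : (ℕ → ℚ) → ℚ × ℚ × ℚ} (hF : DT F) (hG : DT G) :
    DT (fun v => tb (F v) (G v)) :=
  ⟨hF.1.sub hG.1, hF.2.1.sub hG.2.1, hF.2.2.sub hG.2.2⟩

theorem DT.ts (n : ℕ) {F : (ℕ → ℚ) → ℚ × ℚ × ℚ} (hF : DT F) : DT (fun v => ts n (F v)) :=
  ⟨(DioFn.num n).mul hF.1, (DioFn.num n).mul hF.2.1, (DioFn.num n).mul hF.2.2⟩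

theorem DT.nt {κ b : (ℕ → ℚ) → ℚ} {F G H : (ℕ → ℚ) → ℚ × ℚ × ℚ} (hκ : DioFn κ) (hb : DioFn b)
    (hF : DT F) (hG : DT G) (hH : DT H) : DT (fun v => nt (κ v) (b v) (F v) (G v) (H v)) := by
  have m : ∀ {F G : (ℕ → ℚ) → ℚ × ℚ × ℚ}, DT F → DT G → DT (fun v => L.tm (κ v) (b v) (F v) (G v)) :=
    fun h1 h2 => DT.tm hκ hb h1 h2
  exact ((((((((((m (m hF hF) hF).tb (m (m hF hF) hG)).ta ((m (m hF hF) hH).ts 5)).tb
    ((m hF (m hG hG)).ts 2)).tb (m (m hF hG) hH)).ta ((m hF (m hH hH)).ts 6)).ta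
    (m (m hG hG) hG)).tb (m (m hG hG) hH)).tb ((m hG (m hH hH)).ts 2)).ta (m (m hH hH) hH))

theorem DT.tl {F : (ℕ → ℚ) → ℚ × ℚ × ℚ} (hF : DT F) : DT (fun v => F (tl v)) :=
  ⟨hF.1.tl, hF.2.1.tl, hF.2.2.tl⟩

theorem Dio.ex3 {S : ℚ × ℚ × ℚ → (ℕ → ℚ) → Prop}
    (hS : Dio (fun v => S (v 2, v 1, v 0) (tl (tl (tl v))))) : Dio (fun v => ∃ t, S t v) := by
  have h : Dio (fun v => ∃ a b c : ℚ, S (a, b, c) v) := by
    refine Dio.ex (S := fun a v => ∃ b c : ℚ, S (a, b, c) v) ?_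
    refine Dio.ex (S := fun b v => ∃ c : ℚ, S (v 0, b, c) (P027.tl v)) ?_
    exact Dio.ex (S := fun c v => S (v 1, v 0, c) (P027.tl (P027.tl v))) hS
  refine h.congr fun v => ?_
  constructor
  · rintro ⟨⟨a, b, c⟩, h⟩
    exact ⟨a, b, c, h⟩
  · rintro ⟨a, b, c, h⟩
    exact ⟨_, h⟩

theorem dio_p3 {f g : (ℕ → ℚ) → ℚ} (hf : DioFn f) (hg : DioFn g) :
    Dio (fun v => P3 (f v) (g v)) := by
  refine Dio.congr (S := fun v => ∃ x y z : ℚ × ℚ × ℚ, nt (g v) (f v) x y z = (f v, 0, 0)) ?_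
    fun v => p3_iff _ _
  refine Dio.ex3 (S := fun x v => ∃ y z : ℚ × ℚ × ℚ, nt (g v) (f v) x y z = (f v, 0, 0)) ?_
  refine Dio.ex3 (S := fun y v => ∃ z : ℚ × ℚ × ℚ, nt (g (P027.tl (P027.tl (P027.tl v))))
    (f (P027.tl (P027.tl (P027.tl v)))) (v 2, v 1, v 0) y z =
    (f (P027.tl (P027.tl (P027.tl v))), 0, 0)) ?_
  refine Dio.ex3 (S := fun z v => nt (g (P027.tl (P027.tl (P027.tl (P027.tl (P027.tl (P027.tl v)))))))
    (f (P027.tl (P027.tl (P027.tl (P027.tl (P027.tl (P027.tl v))))))) (v 5, v 4, v 3)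
    (v 2, v 1, v 0) z = (f (P027.tl (P027.tl (P027.tl (P027.tl (P027.tl (P027.tl v)))))), 0, 0)) ?_
  have hf' := hf.tl.tl.tl.tl.tl.tl.tl.tl.tl
  have hg' := hg.tl.tl.tl.tl.tl.tl.tl.tl.tl
  have t : ∀ i : ℕ, DT (fun v => (v (i + 2), v (i + 1), v i)) := fun i =>
    ⟨DioFn.var _, DioFn.var _, DioFn.var _⟩
  have z0 : DioFn (fun _ : ℕ → ℚ => (0 : ℚ)) := by simpa using DioFn.int 0
  obtain ⟨h0, h1, h2⟩ := DT.nt hg' hf' (t 6) (t 3) (t 0)
  refine ((Dio.eq h0 hf').and ((Dio.eq h1 z0).and (Dio.eq h2 z0))).congr fun v => ?_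
  rw [Prod.ext_iff, Prod.ext_iff]
  rfl

/-- **the check for type 3 is Diophantine** -/
theorem dio_st3 {f g : (ℕ → ℚ) → ℚ} (hf : DioFn f) (hg : DioFn g) :
    Dio (fun v => St3 (f v) (g v)) := by
  unfold St3
  refine Dio.ex (S := fun w v => w ≠ 0 ∧ P3 (f v * w ^ 3) c3 ∧ P3 (f v * w ^ 3)⁻¹ (c3 * g v)) ?_
  have z0 : DioFn (fun _ : ℕ → ℚ => (0 : ℚ)) := by simpa using DioFn.int 0
  have hc : DioFn (fun _ : ℕ → ℚ => c3) := by
    have := (DioFn.num 42).pow 20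
    unfold c3
    simpa using this
  have sw := hf.tl.mul ((DioFn.var 0).pow 3)
  exact (Dio.ne (DioFn.var 0) z0).and ((dio_p3 sw hc).and (dio_p3 sw.inv (hc.mul hg.tl)))

end Vale.Agent.P027.L
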