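import Vale.Agent.P027.L.Asm
import Vale.Agent.P027.L.Hgt

/-! Last steps. -/

set_option linter.all false

namespace Vale.Agent.P027.L

open MvPolynomial Filter
open Vale.Agent.P345 Vale.Agent.P027 Vale.Agent.P027.D1
open Vale.Agent.P027.Q (val_neg_iff)

lemma xc_cases {V : E.Point} (hV : V ≠ 0) : ∃ y, ∃ h,
    V = WeierstrassCurve.Affine.Point.some (xc V) y h := by
  obtain ⟨y, h, e⟩ := hasX_xc hV
  exact ⟨y, _, e⟩

theorem exists_y : ∃ y : ℤ → ℚ, ∀ n : ℤ, n ≠ 0 → ∃ h,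
    n • P0 = WeierstrassCurve.Affine.Point.some (xc (n • P0)) (y n) h := by
  have h : ∀ n : ℤ, ∃ y : ℚ, n ≠ 0 → ∃ h,
      n • P0 = WeierstrassCurve.Affine.Point.some (xc (n • P0)) y h := by
    intro n
    by_cases hn : n = 0
    · exact ⟨0, fun h => absurd hn h⟩
    · obtain ⟨y, h, e⟩ := xc_cases (zsmul_P0_ne_zero hn)
      exact ⟨y, fun _ => ⟨h, e⟩⟩
  choose y hy using h
  exact ⟨y, hy⟩

/-- the primes in `DD` -/
lemma dd_eq : DD = {q | q.Prime ∧ ∃ n : ℤ, Odd n ∧ q ∣ (xc (n • P0)).den} := by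
  ext q
  constructor
  · rintro ⟨hq, n, hn, hd⟩
    refine ⟨hq, n, ?_, hd⟩
    rw [Int.odd_iff]
    omega
  · rintro ⟨hq, n, hn, hd⟩
    refine ⟨hq, n.natAbs, ?_, ?_⟩
    · have := Int.natAbs_odd.2 hn
      exact Nat.odd_iff.1 this
    · unfold xx
      rcases Int.natAbs_eq n with h | h
      · rw [← h]; exact hd
      · have e : ((n.natAbs : ℕ) : ℤ) = -n := by omega
        rw [e, neg_zsmul, xc_neg]
        exact hd

/-- the primes in `DD` are congruent to one modulo four -/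
theorem dd_mod (hL : LawL) {q : ℕ} (hq : q ∈ DD) : q % 4 = 1 := by
  obtain ⟨hqp, n, hn, hd'⟩ := hq
  have hF := Fact.mk hqp
  have hn0 : n ≠ 0 := by omega
  obtain ⟨D, -, -, hD⟩ := hL
  obtain ⟨c, hcop, hd2, hc3, hd3, hc7, hd7, hx⟩ := hD n hn
  obtain ⟨d, hd⟩ : ∃ d, d = D n := ⟨_, rfl⟩
  rw [← hd] at hcop hd2 hd3 hd7 hx
  have hx' : xx n = -((c : ℚ) / d) ^ 2 := hx
  have hd0 : (d : ℚ) ≠ 0 := by
    have : d ≠ 0 := by omega
    exact_mod_cast this
  have hc0 : (c : ℚ) ≠ 0 := by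
    have : c ≠ 0 := by omega
    exact_mod_cast this
  -- `q` divides `d`
  have hqd : q ∣ d := by
    have h1 := (val_neg_iff hqp (xx_ne_zero hn0)).2 hd'
    rw [(wt_eq hqp (div_ne_zero hc0 hd0) hx').1, padicValRat.div hc0 hd0, padicValRat.of_nat,
      padicValRat.of_nat] at h1
    by_contra hcon
    rw [padicValNat.eq_zero_of_not_dvd hcon, Nat.cast_zero] at h1
    have := Int.natCast_nonneg (padicValNat q c)
    omega
  have hq2 : q ≠ 2 := by
    rintro rfl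
    omega
  -- the equation of the curve
  obtain ⟨y, hy, -⟩ := hasX_xx hn0
  rw [hx'] at hy
  have h2 : (((-(c : ℤ) ^ 4 + 105 * (c : ℤ) ^ 2 * (d : ℤ) ^ 2 - 2048 * (d : ℤ) ^ 4 : ℤ)) : ℚ) =
      (y * d ^ 3 / c) * (y * d ^ 3 / c) := by
    have e : (y * d ^ 3 / c) * (y * d ^ 3 / c) = y ^ 2 * d ^ 6 / c ^ 2 := by
      field_simp
    rw [e, hy]
    push_cast
    field_simp
    ring
  have h3 : IsSquare (((-(c : ℤ) ^ 4 + 105 * (c : ℤ) ^ 2 * (d : ℤ) ^ 2 - 2048 * (d : ℤ) ^ 4 : ℤ)) : ℚ) :=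
    ⟨_, h2⟩
  rw [Rat.isSquare_intCast_iff] at h3
  obtain ⟨t, ht⟩ := h3
  have h4 : ((d : ℕ) : ZMod q) = 0 := (ZMod.natCast_eq_zero_iff d q).2 hqd
  have h5 : ((c : ℕ) : ZMod q) ≠ 0 := by
    rw [Ne, ZMod.natCast_eq_zero_iff]
    intro h
    have h6 := Nat.dvd_gcd h hqd
    rw [hcop] at h6
    exact hqp.one_lt.ne' (Nat.dvd_one.1 h6)
  have h6 : IsSquare (-1 : ZMod q) := by
    have h7 := congrArg (fun z : ℤ => (z : ZMod q)) ht
    push_cast at h7
    rw [h4] at h7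
    refine ⟨(t : ZMod q) / (c : ZMod q) ^ 2, ?_⟩
    field_simp
    linear_combination h7
  have h7 := ZMod.mod_four_ne_three_of_sq_eq_neg_one (p := q) (y := h6.choose) (by
    rw [sq]; exact h6.choose_spec.symm)
  have h8 : q % 2 = 1 := by
    rcases hqp.eq_two_or_odd with h | h
    · exact absurd h hq2
    · exact h
  omega

/-- the relation as a polynomial -/
theorem exists_rh (M : ℕ) : ∃ (n : ℕ) (F : MvPolynomial (Fin 2 ⊕ Fin n) ℤ), ∀ s s' : ℚ,
    (RH M s s' ↔ ∃ w : Fin n → ℚ, aeval (Sum.elim ![s, s'] w) F = 0) := by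
  have hC : ∀ R : Set ℚ, R = Set.univ → (0 : ℚ) ∈ R := by
    rintro R rfl
    exact Set.mem_univ _
  have hR : RDio (fun R => R = Set.univ) (fun R v => RH M (v 0) (v 1)) :=
    RDio.of_dio hC (dio_rh M (DioFn.var 0) (DioFn.var 1))
  obtain ⟨m, r, F, hF⟩ := rowC2 (fun R => R = Set.univ) hC (k := 2)
    (S := fun R x => RH M (x 0) (x 1)) hR
  let φ : Fin 2 ⊕ Fin m ⊕ Fin r → Fin 2 ⊕ Fin (m + r) :=
    Sum.elim Sum.inl (Sum.elim (fun i => Sum.inr (Fin.castAdd r i)) (fun j => Sum.inr (Fin.natAdd m j)))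
  refine ⟨m + r, rename φ F, fun s s' => ?_⟩
  have key : ∀ (u : Fin m → ℚ) (y : Fin r → ℚ) (x : Fin (m + r) → ℚ),
      (∀ i, x (Fin.castAdd r i) = u i) → (∀ j, x (Fin.natAdd m j) = y j) →
      Sum.elim ![s, s'] x ∘ φ = Sum.elim ![s, s'] (Sum.elim u y) := by
    intro u y x hu hy
    funext i
    rcases i with i | i | j
    · rfl
    · exact hu i
    · exact hy j
  have hF' := hF Set.univ Set.univ rfl (fun z => Set.mem_univ _) ![s, s']
  constructor
  · intro hfr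
    obtain ⟨u, y, -, -, h⟩ := hF'.1 hfr
    refine ⟨Fin.append u y, ?_⟩
    rw [aeval_rename, key u y]
    · exact h
    · intro i
      rw [Fin.append_left]
    · intro j
      rw [Fin.append_right]
  · rintro ⟨x, h⟩
    refine hF'.2 ⟨fun i => x (Fin.castAdd r i),
      fun j => x (Fin.natAdd m j), fun i => Set.mem_univ _, fun j => Set.mem_univ _, ?_⟩
    rw [aeval_rename, key _ _ x (fun i => rfl) (fun j => rfl)] at h
    exact h

end Vale.Agent.P027.L
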