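import Vale.Agent.P027.L.Vis

/-! Completeness of the step relation. -/

set_option linter.all false

namespace Vale.Agent.P027.L

open Vale.Agent.P027

/-- the multiples of odd index -/
def LawL : Prop := ∃ d : ℕ → ℕ, Law2 d ∧ Law3 d ∧ ∀ n, n % 2 = 1 → ∃ c : ℕ,
  c.Coprime (d n) ∧ d n % 2 = 1 ∧ c % 3 ≠ 0 ∧ d n % 3 ≠ 0 ∧ c % 7 ≠ 0 ∧ d n % 7 ≠ 0 ∧
  xc ((n : ℤ) • P0) = -((c : ℚ) / d n) ^ 2

lemma law_s (hL : LawL) {n : ℕ} (hn : n % 2 = 1) : ∃ s : ℚ, s ≠ 0 ∧ xx n = -s ^ 2 := by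
  obtain ⟨d, -, -, hd⟩ := hL
  obtain ⟨c, hcop, hd2, hc3, hd3, hc7, hd7, hx⟩ := hd n hn
  have hc0 : (c : ℚ) ≠ 0 := by
    have : c ≠ 0 := by omega
    exact_mod_cast this
  have hd0 : (d n : ℚ) ≠ 0 := by
    have : d n ≠ 0 := by omega
    exact_mod_cast this
  exact ⟨_, div_ne_zero hc0 hd0, hx⟩

lemma v37_root (hL : LawL) {n : ℕ} (hn : n % 2 = 1) {s : ℚ} (hs : s ≠ 0) (h : xx n = -s ^ 2) :
    padicValRat 3 s = 0 ∧ padicValRat 7 s = 0 := by
  obtain ⟨d, -, -, hd⟩ := hL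
  obtain ⟨c, hcop, hd2, hc3, hd3, hc7, hd7, hx⟩ := hd n hn
  have hc0 : (c : ℚ) ≠ 0 := by
    have : c ≠ 0 := by omega
    exact_mod_cast this
  have hd0 : (d n : ℚ) ≠ 0 := by
    have : d n ≠ 0 := by omega
    exact_mod_cast this
  constructor
  · have h1 := (wt_eq Nat.prime_three hs h).1
    have h2 := (wt_eq Nat.prime_three (div_ne_zero hc0 hd0) hx).1
    have := Fact.mk Nat.prime_three
    have ec : padicValRat 3 (c : ℚ) = 0 := vnat_zero (by omega)
    have ed : padicValRat 3 (d n : ℚ) = 0 := vnat_zero (by omega)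
    rw [h1, padicValRat.div hc0 hd0, ec, ed] at h2
    omega
  · have p7 : Nat.Prime 7 := by norm_num
    have h1 := (wt_eq p7 hs h).1
    have h2 := (wt_eq p7 (div_ne_zero hc0 hd0) hx).1
    have ec : padicValRat 7 (c : ℚ) = 0 := vnat_zero (by omega)
    have ed : padicValRat 7 (d n : ℚ) = 0 := vnat_zero (by omega)
    rw [h1, padicValRat.div hc0 hd0, ec, ed] at h2
    omega

/-- the doubles of the odd multiples have coordinates prime to seven -/
lemma v7_double {n : ℕ} (hn : n % 2 = 1) : padicValRat 7 (xx (2 * n)) = 0 := by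
  have p7 : Nat.Prime 7 := by norm_num
  have hn0 : n ≠ 0 := by omega
  have h2n : 2 * n ≠ 0 := mul_ne_zero two_ne_zero hn0
  obtain ⟨G, hG⟩ := exists_group 7 p7
  have g8 : (8 : ℤ) • P0 ∈ G := by
    have h := val_7 (k := 1) one_ne_zero
    rw [mul_one] at h
    rw [hG _ _ (hasX_n (by norm_num)), h]
    simp
  have g2 : (2 : ℤ) • P0 ∉ G := by
    intro h
    rw [hG _ _ hasX_2] at h
    have e : (256 / 9 : ℚ) = ((256 : ℕ) : ℚ) / ((9 : ℕ) : ℚ) := by norm_num
    rw [e, padicValRat.div (by norm_num) (by norm_num), vnat_zero (by norm_num),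
      vnat_zero (by norm_num)] at h
    norm_num at h
  have g4 : (4 : ℤ) • P0 + T0 ∈ G := by
    have h4 : (38416 / 16641 : ℚ) ≠ 0 := by norm_num
    rw [hG _ _ (hasX_add_T0 hasX_4 h4), val_T p7 (by norm_num) h4]
    have e : (38416 / 16641 : ℚ) = (((7 : ℕ) : ℚ) ^ 4 * ((16 : ℕ) : ℚ)) / ((16641 : ℕ) : ℚ) := by
      norm_num
    rw [e, padicValRat.div (by norm_num) (by norm_num), padicValRat.mul (by norm_num) (by norm_num),
      padicValRat.pow, vself p7, vnat_zero (by norm_num), vnat_zero (by norm_num)]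
    norm_num
  have g2T : (2 : ℤ) • P0 + T0 ∉ G := by
    intro h
    have h4 : (256 / 9 : ℚ) ≠ 0 := by norm_num
    rw [hG _ _ (hasX_add_T0 hasX_2 h4), val_T p7 (by norm_num) h4] at h
    have e : (256 / 9 : ℚ) = ((256 : ℕ) : ℚ) / ((9 : ℕ) : ℚ) := by norm_num
    rw [e, padicValRat.div (by norm_num) (by norm_num), vnat_zero (by norm_num),
      vnat_zero (by norm_num)] at h
    norm_num at h
  have hc : n % 4 = 1 ∨ n % 4 = 3 := by omega
  rcases lt_trichotomy (padicValRat 7 (xx (2 * n))) 0 with h | h | h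
  · exfalso
    have h1 : ((2 * n : ℕ) : ℤ) • P0 ∈ G := (hG _ _ (hasX_xx h2n)).2 h
    rcases hc with hc | hc
    · have e : (2 : ℤ) • P0 = ((2 * n : ℕ) : ℤ) • P0 - ((n / 4 : ℕ) : ℤ) • ((8 : ℤ) • P0) := by
        rw [← mul_zsmul, sub_eq_add_neg, ← sub_zsmul]
        congr 1
        push_cast
        omega
      exact g2 (by rw [e]; exact G.sub_mem h1 (G.zsmul_mem g8 _))
    · have e : (2 : ℤ) • P0 = ((n / 4 + 1 : ℕ) : ℤ) • ((8 : ℤ) • P0) - ((2 * n : ℕ) : ℤ) • P0 := by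
        rw [← mul_zsmul, sub_eq_add_neg, ← sub_zsmul]
        congr 1
        push_cast
        omega
      exact g2 (by rw [e]; exact G.sub_mem (G.zsmul_mem g8 _) h1)
  · exact h
  · exfalso
    have h1 : ((2 * n : ℕ) : ℤ) • P0 + T0 ∈ G := by
      rw [hG _ _ (hasX_T h2n), val_T p7 (by norm_num) (xx_ne_zero h2n)]
      omega
    have h2 : ((2 * n : ℕ) : ℤ) • P0 + T0 - ((4 : ℤ) • P0 + T0) ∈ G := G.sub_mem h1 g4
    have e0 : ((2 * n : ℕ) : ℤ) • P0 + T0 - ((4 : ℤ) • P0 + T0) = (((2 * n : ℕ) : ℤ) - 4) • P0 := by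
      rw [sub_zsmul]
      abel
    rw [e0] at h2
    rcases hc with hc | hc
    · have e : (2 : ℤ) • P0 = (((n / 4 : ℕ) : ℤ)) • ((8 : ℤ) • P0) - (((2 * n : ℕ) : ℤ) - 4) • P0 := by
        rw [← mul_zsmul, sub_eq_add_neg, ← sub_zsmul]
        congr 1
        push_cast
        omega
      exact g2 (by rw [e]; exact G.sub_mem (G.zsmul_mem g8 _) h2)
    · have e : (2 : ℤ) • P0 = (((2 * n : ℕ) : ℤ) - 4) • P0 - (((n / 4 : ℕ) : ℤ)) • ((8 : ℤ) • P0) := by
        rw [← mul_zsmul, sub_eq_add_neg, ← sub_zsmul]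
        congr 1
        push_cast
        omega
      exact g2 (by rw [e]; exact G.sub_mem h2 (G.zsmul_mem g8 _))

/-- the doubles of the odd multiples of seven at two -/
lemma v2_double {n : ℕ} (hn : n % 2 = 1) (h7 : 7 ∣ n) : padicValRat 2 (xx (2 * n)) = -6 := by
  obtain ⟨k, rfl⟩ := h7
  have hk : k % 2 = 1 := by omega
  have hk0 : k ≠ 0 := by omega
  have h := v_mul_neg Nat.prime_two (m := 14) (k := k) (by norm_num) hk0 (by
    show padicValRat 2 (xc (((14 : ℕ) : ℤ) • P0)) < 0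
    have := val_fourteen
    norm_num at this ⊢
    rw [this]
    norm_num)
  have e : 2 * (7 * k) = 14 * k := by ring
  have h14 : padicValRat 2 (xx 14) = -6 := by
    have := val_fourteen
    unfold xx
    exact_mod_cast this
  have hk2 : padicValNat 2 k = 0 := padicValNat.eq_zero_of_not_dvd (by omega)
  rw [e, h, h14, hk2]
  norm_num

/-- the three-adic valuation at even indices -/
lemma v3_double {n : ℕ} (hn : n ≠ 0) :
    padicValRat 3 (xx (2 * n)) = -2 - 2 * (padicValNat 3 n : ℤ) := by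
  have := val_3 (k := (n : ℤ)) (by exact_mod_cast hn)
  rw [padicValInt.of_nat] at this
  rw [← this]
  unfold xx
  congr 3

lemma st_sq {s κ u : ℚ} (hu : u ≠ 0) (h : Q.St (s * u ^ 2) κ) : Q.St s κ := by
  obtain ⟨w, b, a, hw, hb, h8, hcap, h1, h2⟩ := h
  refine ⟨u * w, b, a, mul_ne_zero hu hw, ?_, h8, hcap, h1, h2⟩
  have e : s * u ^ 2 * w ^ 2 = s * (u * w) ^ 2 := by ring
  rw [e] at hb
  exact hb

theorem st2_complete {s κ : ℚ} (hs : s ≠ 0) (hk2 : 0 ≤ padicValRat 2 κ)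
    (hk3 : -1 ≤ padicValRat 3 κ)
    (h : ∀ q, Ty2 q → Odd (padicValRat q s) → κ = 0 ∨ 1 ≤ padicValRat q κ) : St2 s κ := by
  have hpow : ∀ j : ℤ, ((2 : ℚ) ^ (-j)) ≠ 0 := fun j => zpow_ne_zero _ two_ne_zero
  have hz2 : ∀ j : ℤ, padicValRat 2 ((2 : ℚ) ^ j) = j := by
    intro j
    rw [padicValRat.zpow]
    have e : padicValRat 2 (2 : ℚ) = 1 := by
      have := vself (p := 2) Nat.prime_two
      exact_mod_cast this
    rw [e, mul_one]
  have hzq : ∀ q : ℕ, q.Prime → q ≠ 2 → padicValRat q (2 : ℚ) = 0 := by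
    intro q hq hq2
    have := vprime (p := q) (q := 2) hq Nat.prime_two hq2
    exact_mod_cast this
  have hzq' : ∀ q : ℕ, q.Prime → q ≠ 2 → ∀ j : ℤ, padicValRat q ((2 : ℚ) ^ j) = 0 := by
    intro q hq hq2 j
    have := Fact.mk hq
    rw [padicValRat.zpow, hzq q hq hq2, mul_zero]
  rcases Int.even_or_odd (padicValRat 2 s) with he | ho
  · left
    obtain ⟨j, hj⟩ := he
    refine st_sq (hpow j) ?_
    have hs' : s * (2 ^ (-j) : ℚ) ^ 2 ≠ 0 := mul_ne_zero hs (pow_ne_zero _ (hpow j))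
    refine Q.st_complete hs' ?_ hk2 hk3 ?_
    · rw [padicValRat.mul hs (pow_ne_zero _ (hpow j)), padicValRat.pow, hz2, hj]
      push_cast
      ring
    · intro q hq hq3 ho
      refine h q ⟨hq.1, hq.2, hq3⟩ ?_
      have := Fact.mk hq.1
      rw [padicValRat.mul hs (pow_ne_zero _ (hpow j)), padicValRat.pow,
        hzq' q hq.1 hq.ne_two, mul_zero, add_zero] at ho
      exact ho
  · right
    obtain ⟨j, hj⟩ := ho
    have h2s : 2 * s ≠ 0 := mul_ne_zero two_ne_zero hs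
    refine st_sq (hpow (j + 1)) ?_
    have hs' : 2 * s * (2 ^ (-(j + 1)) : ℚ) ^ 2 ≠ 0 := mul_ne_zero h2s (pow_ne_zero _ (hpow (j + 1)))
    refine Q.st_complete hs' ?_ hk2 hk3 ?_
    · have e1 : padicValRat 2 (2 : ℚ) = 1 := by
        have := vself (p := 2) Nat.prime_two
        exact_mod_cast this
      rw [padicValRat.mul h2s (pow_ne_zero _ (hpow (j + 1))), padicValRat.mul two_ne_zero hs,
        padicValRat.pow, hz2, hj, e1]
      push_cast
      ring
    · intro q hq hq3 ho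
      refine h q ⟨hq.1, hq.2, hq3⟩ ?_
      have := Fact.mk hq.1
      rw [padicValRat.mul h2s (pow_ne_zero _ (hpow (j + 1))), padicValRat.pow,
        padicValRat.mul two_ne_zero hs, hzq q hq.1 hq.ne_two, zero_add,
        hzq' q hq.1 hq.ne_two, mul_zero, add_zero] at ho
      exact ho

theorem step_complete (h3 : St3Complete) (hL : LawL) {Ω : ℕ} (hΩ : Odd Ω) (h7 : 7 ∣ Ω) {s : ℚ}
    (hs0 : s ≠ 0) (hs : xx (nxt Ω) = -s ^ 2) : Stp s (xx (2 * Ω) / xx (2 * nxt Ω)) := by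
  have hΩ0 : Ω ≠ 0 := by rintro rfl; simp at hΩ
  have hodd := nxt_odd hΩ
  have hn0 : nxt Ω ≠ 0 := nxt_ne hΩ0
  have h7n : 7 ∣ nxt Ω := h7.trans (dvd_nxt _)
  set Pr := ∏ q ∈ Vs Ω, q with hpr
  have hprodd : Odd Pr := prod_Vs_odd hΩ0
  have hpr0 : Pr ≠ 0 := prod_Vs_ne hΩ0
  have hnxt : nxt Ω = Ω * Pr := rfl
  have hx0 : xx (2 * Ω) ≠ 0 := xx_ne_zero (mul_ne_zero two_ne_zero hΩ0)
  have hx1 : xx (2 * nxt Ω) ≠ 0 := xx_ne_zero (mul_ne_zero two_ne_zero hn0)
  have hk2 : padicValRat 2 (xx (2 * Ω) / xx (2 * nxt Ω)) = 0 := by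
    rw [padicValRat.div hx0 hx1, v2_double (Nat.odd_iff.1 hΩ) h7,
      v2_double (Nat.odd_iff.1 hodd) h7n]
    norm_num
  have hk3 : padicValRat 3 (xx (2 * Ω) / xx (2 * nxt Ω)) = 0 := by
    rw [padicValRat.div hx0 hx1, v3_double hΩ0, v3_double hn0, val_nxt hΩ0 Nat.prime_three,
      if_neg (fun h => ((mem_Vs hΩ0).1 h).ne_three rfl), add_zero]
    ring
  have hk7 : padicValRat 7 (xx (2 * Ω) / xx (2 * nxt Ω)) = 0 := by
    rw [padicValRat.div hx0 hx1, v7_double (Nat.odd_iff.1 hΩ), v7_double (Nat.odd_iff.1 hodd)]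
    norm_num
  have key : ∀ q, Vz q (padicValRat q s).natAbs →
      1 ≤ padicValRat q (xx (2 * Ω) / xx (2 * nxt Ω)) := by
    intro q hvz
    have hqp := hvz.prime
    have hq2 := hvz.ne_two
    have := Fact.mk hqp
    have hw1 : Vz q (wt q (nxt Ω)) := by
      rw [(wt_eq hqp hs0 hs).2]
      exact hvz
    rw [padicValRat.div hx0 hx1]
    by_cases hmem : q ∈ Vs Ω
    · have hw := (mem_Vs hΩ0).1 hmem
      have h2Ω : padicValRat q (xx (2 * Ω)) < 0 := by
        refine two_mul_neg hqp hq2 hΩ0 ?_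
        intro h
        apply hw.ne_zero
        unfold wt
        rw [h]
        norm_num
      have e1 : 2 * nxt Ω = (2 * Ω) * Pr := by rw [hnxt]; ring
      rw [e1, v_mul_neg hqp (mul_ne_zero two_ne_zero hΩ0) hpr0 h2Ω, hpr,
        val_prod_primes _ (Vs_prime hΩ0) hqp, if_pos hmem]
      push_cast
      omega
    · have hw0 : wt q Ω = 0 := by
        by_contra hne
        apply hmem
        rw [mem_Vs hΩ0]
        have h1 : wt q (nxt Ω) = wt q Ω := by
          rw [hnxt, wt_mul hqp hq2 hΩ0 hprodd hne, hpr,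
            val_prod_primes _ (Vs_prime hΩ0) hqp, if_neg hmem, add_zero]
        rw [← h1]
        exact hw1
      obtain ⟨s₀, hs₀0, hs₀⟩ := law_s hL (Nat.odd_iff.1 hΩ)
      have hv0 : padicValRat q (xx Ω) = 0 := by
        have h1 := wt_eq hqp hs₀0 hs₀
        rw [hw0] at h1
        omega
      have hv1 : padicValRat q (xx (nxt Ω)) ≠ 0 := by
        intro h
        apply hw1.ne_zero
        unfold wt
        rw [h]
        norm_num
      obtain ⟨G, hG⟩ := exists_group q hqp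
      obtain ⟨k, hk⟩ := hprodd
      have hb : ¬ padicValRat q (xx (2 * Ω)) < 0 := by
        intro hneg
        have g2 : ((2 * Ω : ℕ) : ℤ) • P0 ∈ G :=
          (hG _ _ (hasX_xx (mul_ne_zero two_ne_zero hΩ0))).2 hneg
        have gk : (k : ℤ) • (((2 * Ω : ℕ) : ℤ) • P0) ∈ G := G.zsmul_mem g2 k
        have e : ((nxt Ω : ℕ) : ℤ) • P0 = (Ω : ℤ) • P0 + (k : ℤ) • (((2 * Ω : ℕ) : ℤ) • P0) := by
          rw [← mul_zsmul, ← add_zsmul]
          congr 1
          rw [hnxt, hk]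
          push_cast
          ring
        rcases lt_or_gt_of_ne hv1 with h1 | h1
        · have h2 : ((nxt Ω : ℕ) : ℤ) • P0 ∈ G := (hG _ _ (hasX_xx hn0)).2 h1
          rw [e] at h2
          have h3 := (G.add_mem_cancel_right gk).1 h2
          rw [hG _ _ (hasX_xx hΩ0)] at h3
          omega
        · have h2 : ((nxt Ω : ℕ) : ℤ) • P0 + T0 ∈ G := by
            rw [hG _ _ (hasX_T hn0), val_T hqp hq2 (xx_ne_zero hn0)]
            omega
          rw [e] at h2
          have e3 : (Ω : ℤ) • P0 + (k : ℤ) • (((2 * Ω : ℕ) : ℤ) • P0) + T0 =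
              ((Ω : ℤ) • P0 + T0) + (k : ℤ) • (((2 * Ω : ℕ) : ℤ) • P0) := by abel
          rw [e3] at h2
          have h3 := (G.add_mem_cancel_right gk).1 h2
          rw [hG _ _ (hasX_T hΩ0), val_T hqp hq2 (xx_ne_zero hΩ0)] at h3
          omega
      have hc : padicValRat q (xx (2 * nxt Ω)) < 0 := two_mul_neg hqp hq2 hn0 hv1
      omega
  obtain ⟨s3, s7⟩ := v37_root hL (Nat.odd_iff.1 hodd) hs0 hs
  constructor
  · refine st2_complete hs0 (by rw [hk2]) (by rw [hk3]; norm_num) (fun q hq ho => Or.inr ?_)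
    exact key q (Or.inl ⟨hq, Nat.odd_iff.1 (Int.natAbs_odd.2 ho)⟩)
  · refine h3 s _ hs0 s3 s7 (by rw [hk2]) (by rw [hk3]) (by rw [hk7]) (fun q hq ho => Or.inr ?_)
    refine key q (Or.inr ⟨hq, fun h => ho ?_⟩)
    exact Int.natCast_dvd.2 (Nat.dvd_of_mod_eq_zero h)

end Vale.Agent.P027.L
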