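import Vale.Agent.P027.L.LawE
import Vale.Agent.P027.L.Vis2

/-! The laws for the multiples of odd index of `P0`. -/

set_option linter.all false

namespace Vale.Agent.P027.L

open Vale.Agent.P027

lemma nine_of {d : ℕ} (h : d ^ 2 % 16 = 9) : d % 8 = 3 ∨ d % 8 = 5 := by
  have h1 : d % 16 < 16 := Nat.mod_lt _ (by norm_num)
  rw [Nat.pow_mod] at h
  generalize hr : d % 16 = r at h h1
  interval_cases r <;> first | omega | (exfalso; revert h; decide)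

lemma one_of {d : ℕ} (h : d ^ 2 % 16 = 1) : d % 8 = 1 ∨ d % 8 = 7 := by
  have h1 : d % 16 < 16 := Nat.mod_lt _ (by norm_num)
  rw [Nat.pow_mod] at h
  generalize hr : d % 16 = r at h h1
  interval_cases r <;> first | omega | (exfalso; revert h; decide)

/-- the residue of the square of the denominator -/
def v7 (r : ℕ) : ℕ :=
  if r % 8 = 1 ∨ r % 8 = 7 then (if r % 7 = 1 ∨ r % 7 = 6 then 1 else if r % 7 = 0 then 4 else 2)
  else (if r % 7 = 1 ∨ r % 7 = 6 then 4 else if r % 7 = 0 then 2 else 1)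

lemma tab_law3 : ∀ r < 56, r % 2 = 1 → tC.getD r 0 % 7 ≠ 0 ∧ tD.getD r 0 % 7 ≠ 0 ∧
    tD.getD r 0 % 7 = v7 r := by
  decide

lemma v7_cases {r x : ℕ} (hr : r % 2 = 1) (h : x = v7 r) :
    ((r % 8 = 1 ∨ r % 8 = 7) ∧ (r % 7 = 1 ∨ r % 7 = 6) ∧ x = 1) ∨
    ((r % 8 = 1 ∨ r % 8 = 7) ∧ (r % 7 = 2 ∨ r % 7 = 3 ∨ r % 7 = 4 ∨ r % 7 = 5) ∧ x = 2) ∨
    ((r % 8 = 1 ∨ r % 8 = 7) ∧ r % 7 = 0 ∧ x = 4) ∨
    ((r % 8 = 3 ∨ r % 8 = 5) ∧ (r % 7 = 1 ∨ r % 7 = 6) ∧ x = 4) ∨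
    ((r % 8 = 3 ∨ r % 8 = 5) ∧ (r % 7 = 2 ∨ r % 7 = 3 ∨ r % 7 = 4 ∨ r % 7 = 5) ∧ x = 1) ∨
    ((r % 8 = 3 ∨ r % 8 = 5) ∧ r % 7 = 0 ∧ x = 2) := by
  have h8 : r % 8 = 1 ∨ r % 8 = 3 ∨ r % 8 = 5 ∨ r % 8 = 7 := by omega
  have h7 : r % 7 = 0 ∨ r % 7 = 1 ∨ r % 7 = 2 ∨ r % 7 = 3 ∨ r % 7 = 4 ∨ r % 7 = 5 ∨ r % 7 = 6 := by
    omega
  rcases h8 with h8 | h8 | h8 | h8 <;> rcases h7 with h7 | h7 | h7 | h7 | h7 | h7 | h7 <;>
    (simp [v7, h8, h7] at h; subst h; simp [h8, h7])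

lemma d7_nat {x n : ℕ} {t : List ℕ} (h : ((x : ℕ) : ZMod 7) ^ 2 = ((t.getD (n % 56) 0 : ℕ) : ZMod 7)) :
    x ^ 2 % 7 = t.getD (n % 56) 0 % 7 := by
  have h1 : ((x ^ 2 : ℕ) : ZMod 7) = ((t.getD (n % 56) 0 : ℕ) : ZMod 7) := by
    rw [← h]; push_cast; rfl
  exact (ZMod.natCast_eq_natCast_iff' _ _ 7).1 h1

theorem lawL : LawL := by
  classical
  choose c d h using fr_all
  have e : ∀ n, n % 2 = 1 → ∃ hn : 0 < n, (if h : 0 < n then d n h else 1) = d n hn := by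
    intro n hn
    have h0 : 0 < n := by omega
    exact ⟨h0, dif_pos h0⟩
  refine ⟨fun n => if h : 0 < n then d n h else 1, ?_, ?_, ?_⟩
  · intro n hn
    obtain ⟨h0, e0⟩ := e n hn
    have hF := h n h0
    show ((if h : 0 < n then d n h else 1) % 8 = 3 ∨ (if h : 0 < n then d n h else 1) % 8 = 5) ↔ _
    rw [e0]
    rcases hF.ad with ⟨hm, u, -, -, hD⟩ | ⟨hm, u, -, -, hD⟩ | ⟨hm, u, -, -, hD⟩ | ⟨hm, -, hD⟩ |
      ⟨hm, -⟩ | ⟨hm, -⟩ | ⟨hm, -⟩ | ⟨hm, -⟩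
    · have := one_of hD; omega
    · have := one_of hD; omega
    · have := nine_of hD; omega
    · have := nine_of hD; omega
    all_goals (exfalso; omega)
  · intro n hn
    obtain ⟨h0, e0⟩ := e n hn
    have hF := h n h0
    have h7 := d7_nat hF.d7
    have ht := (tab_law3 (n % 56) (Nat.mod_lt _ (by norm_num)) (by omega)).2.2
    rw [← h7] at ht
    have ht := v7_cases (by omega) ht
    have e8 : n % 56 % 8 = n % 8 := by omega
    have e7 : n % 56 % 7 = n % 7 := by omega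
    rw [e8, e7] at ht
    show _ ∨ _ ∨ _ ∨ _ ∨ _ ∨ _
    simp only [e0]
    exact ht
  · intro n hn
    obtain ⟨h0, e0⟩ := e n hn
    have hF := h n h0
    have h7c := d7_nat hF.c7
    have h7d := d7_nat hF.d7
    have ht := tab_law3 (n % 56) (Nat.mod_lt _ (by norm_num)) (by omega)
    have h3c := hF.c3
    have h3d := hF.d3
    rw [if_pos hn] at h3d
    have k3 : ∀ x : ℕ, ((x : ℕ) : ZMod 3) ^ 2 = 1 → x % 3 ≠ 0 := by
      intro x hx hx0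
      have : ((x : ℕ) : ZMod 3) = 0 := (ZMod.natCast_eq_zero_iff x 3).2 (Nat.dvd_of_mod_eq_zero hx0)
      rw [this] at hx
      revert hx; decide
    have k7 : ∀ x : ℕ, x ^ 2 % 7 ≠ 0 → x % 7 ≠ 0 := by
      intro x hx hx0
      apply hx
      rw [Nat.pow_mod, hx0]
    simp only [e0]
    refine ⟨c n h0, hF.cop, ?_, k3 _ h3c, k3 _ h3d, k7 _ ?_, k7 _ ?_, ?_⟩
    · rcases hF.ad with ⟨hm, u, -, -, hD⟩ | ⟨hm, u, -, -, hD⟩ | ⟨hm, u, -, -, hD⟩ | ⟨hm, -, hD⟩ |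
        ⟨hm, -⟩ | ⟨hm, -⟩ | ⟨hm, -⟩ | ⟨hm, -⟩
      · have := one_of hD; omega
      · have := one_of hD; omega
      · have := nine_of hD; omega
      · have := nine_of hD; omega
      all_goals (exfalso; omega)
    · rw [h7c]; exact ht.1
    · rw [h7d]; exact ht.2.1
    · have hx := hF.x
      rw [if_pos hn] at hx
      rw [xc_of_hasX hx]
      ring

end Vale.Agent.P027.L
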