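import Vale.Agent.P027.L.Frm
import Vale.Agent.P027.L.OrdB

/-! The size of the set of the omitted primes: the iterated logarithm. -/

set_option linter.all false

namespace Vale.Agent.P027.L

open Filter Topology
open Vale.Agent.P027

lemma om_ge (a N i : ℕ) : 7 ^ (a + 1) * 3 ^ N ≤ Om a N i :=
  Nat.le_of_dvd (Nat.pos_of_ne_zero (om_ne a N i)) (om_dvd a N (Nat.zero_le i))

/-- the iterated logarithm -/
noncomputable def lst (n : ℕ) : ℕ := {k | tow k ≤ n}.ncard

lemma tow_strict : StrictMono tow := strictMono_nat_of_lt_succ (fun k => by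
  show tow k < 2 ^ tow k
  exact Nat.lt_two_pow_self)

lemma lst_fin (n : ℕ) : {k | tow k ≤ n}.Finite :=
  (Set.finite_Iio n).subset (fun k hk => lt_of_lt_of_le (lt_tow k) hk)

lemma lt_lst {k n : ℕ} (h : tow k ≤ n) : k < lst n := by
  have h1 : Set.Iio (k + 1) ⊆ {k | tow k ≤ n} := fun j hj =>
    le_trans (tow_strict.monotone (Nat.lt_succ_iff.1 hj)) h
  have h2 := Set.ncard_le_ncard h1 (lst_fin n)
  have h3 : (Set.Iio (k + 1)).ncard = k + 1 := by
    rw [← Finset.coe_Iio, Set.ncard_coe_finset, Nat.card_Iio]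
  rw [h3] at h2
  exact h2

lemma big_pow {n : ℕ} (hn : 2 ≤ n) : 8 * n + 100 < 2 ^ 2 ^ (n + 1) := by
  induction n, hn using Nat.le_induction with
  | base => norm_num
  | succ n hn ih =>
    have h1 : 2 ^ (n + 1 + 1) = 2 ^ (n + 1) + 2 ^ (n + 1) := by ring
    have h2 : 1 ≤ 2 ^ (n + 1) := Nat.one_le_two_pow
    have h3 : 2 ^ (2 ^ (n + 1) + 1) ≤ 2 ^ 2 ^ (n + 1 + 1) := by
      apply Nat.pow_le_pow_right (by norm_num)
      omega
    have h4 : 2 ^ (2 ^ (n + 1) + 1) = 2 * 2 ^ 2 ^ (n + 1) := by ring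
    omega

lemma lev_bound (hL : LawL) {a N i n : ℕ} (hN : 16 ≤ N) (hn : 2 ≤ n)
    (h : Om a N i ≤ 8 * n + 100) : i < lst n + 1 := by
  rcases Nat.eq_zero_or_pos i with h0 | h0
  · omega
  obtain ⟨j, rfl⟩ : ∃ j, i = j + 1 := ⟨i - 1, by omega⟩
  have h1 := (om_tower hL a N hN j).trans h
  have h2 : tow j ≤ n := by
    by_contra hcon
    push Not at hcon
    have h3 : 2 ^ 2 ^ (n + 1) ≤ tow (j + 2) := by
      show 2 ^ 2 ^ (n + 1) ≤ 2 ^ 2 ^ tow j
      exact Nat.pow_le_pow_right (by norm_num) (Nat.pow_le_pow_right (by norm_num) hcon)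
    have := big_pow hn
    omega
  have := lt_lst h2
  omega

/-- the bound by the number of pairs -/
theorem card_KT_le (hL : LawL) {Kl : ℕ → ℕ → ℕ → Prop} (hN : ∀ a N i, Kl a N i → 16 ≤ N)
    (huniq : ∀ a N i N' i', Kl a N i → Kl a N' i' → N = N') (n A : ℕ) (hn : 2 ≤ n)
    (hA : ∀ a N i, Kl a N i → Om a N i ≤ 8 * n + 100 → a < A) :
    (KT Kl ∩ Set.Iic n).ncard ≤ A * (lst n + 1) := by
  classical
  have hch : ∀ a, ∃ N, ∀ N' i, Kl a N' i → N' = N := by
    intro a
    by_cases h : ∃ N i, Kl a N i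
    · obtain ⟨N, i, h⟩ := h
      exact ⟨N, fun N' i' h' => huniq a N' i' N i h' h⟩
    · exact ⟨0, fun N' i h' => absurd ⟨N', i, h'⟩ h⟩
  choose Nf hNf using hch
  let f : ℕ × ℕ → ℕ := fun u =>
    if h : ∃ q : ℕ, q.Prime ∧ Ord q (Om u.1 (Nf u.1) u.2) then Nat.find h else 0
  let S : Finset (ℕ × ℕ) := Finset.range A ×ˢ Finset.range (lst n + 1)
  have hsub : KT Kl ∩ Set.Iic n ⊆ (S.image f : Set ℕ) := by
    rintro q ⟨⟨hq, a, N, i, hkl, ho, hm⟩, hqn⟩
    have hb := ord_le hq ho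
    have hqn' : q ≤ n := hqn
    have hOm : Om a N i ≤ 8 * n + 100 := by omega
    have hNa : N = Nf a := hNf a N i hkl
    rw [Finset.coe_image]
    refine ⟨⟨a, i⟩, ?_, ?_⟩
    · rw [Finset.mem_coe, Finset.mem_product, Finset.mem_range, Finset.mem_range]
      exact ⟨hA a N i hkl hOm, lev_bound hL (hN a N i hkl) hn hOm⟩
    · subst hNa
      have hex : ∃ q : ℕ, q.Prime ∧ Ord q (Om a (Nf a) i) := ⟨q, hq, ho⟩
      show (if h : ∃ q : ℕ, q.Prime ∧ Ord q (Om a (Nf a) i) then Nat.find h else 0) = q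
      rw [dif_pos hex]
      refine le_antisymm (Nat.find_min' hex ⟨hq, ho⟩) ?_
      by_contra hcon
      push Not at hcon
      obtain ⟨k1, k2⟩ := Nat.find_spec hex
      exact hm _ hcon k1 k2
  calc (KT Kl ∩ Set.Iic n).ncard ≤ ((S.image f : Finset ℕ) : Set ℕ).ncard :=
        Set.ncard_le_ncard hsub (Finset.finite_toSet _)
    _ = (S.image f).card := Set.ncard_coe_finset _
    _ ≤ S.card := Finset.card_image_le
    _ = A * (lst n + 1) := by
        simp only [S, Finset.card_product, Finset.card_range]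

theorem count (hL : LawL) {g : ℕ → ℕ} (hg : Monotone g) {Kl : ℕ → ℕ → ℕ → Prop}
    (hN : ∀ a N i, Kl a N i → 16 ≤ N ∧ ∃ m ≤ N, 8 * (a + 1) ≤ g m)
    (huniq : ∀ a N i N' i', Kl a N i → Kl a N' i' → N = N') : ∀ᶠ n : ℕ in atTop,
      (KT Kl ∩ Set.Iic n).ncard ≤ g n * lst n := by
  filter_upwards [eventually_ge_atTop 100] with n hn
  have h1 := card_KT_le hL (fun a N i h => (hN a N i h).1) huniq n (g n / 8) (by omega)
    (fun a N i hkl hOm => by
      obtain ⟨-, m, hmN, hgm⟩ := hN a N i hkl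
      have h1 := om_ge a N i
      have h3 : 9 * N < 3 ^ N + 100 := by
        clear * -
        induction N with
        | zero => norm_num
        | succ N ih =>
          rw [pow_succ]
          have : 3 ≤ N ∨ N < 3 := by omega
          rcases this with h | h
          · have h27 : 3 ^ 3 ≤ 3 ^ N := Nat.pow_le_pow_right (by norm_num) h
            omega
          · interval_cases N <;> norm_num
      have h7 : 7 ≤ 7 ^ (a + 1) := by
        calc 7 = 7 ^ 1 := by norm_num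
          _ ≤ 7 ^ (a + 1) := Nat.pow_le_pow_right (by norm_num) (by omega)
      have h4 : 7 * 3 ^ N ≤ 7 ^ (a + 1) * 3 ^ N := Nat.mul_le_mul_right _ h7
      have hmn : m ≤ n := by omega
      have h5 : g m ≤ g n := hg hmn
      omega)
  have h2 : 1 ≤ lst n := by
    have : tow 0 ≤ n := by
      show 1 ≤ n
      omega
    exact lt_lst this
  have h3 : g n / 8 * (lst n + 1) ≤ g n / 8 * (8 * lst n) := Nat.mul_le_mul_left _ (by omega)
  have h4 : g n / 8 * (8 * lst n) ≤ g n * lst n := by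
    rw [← mul_assoc]
    exact Nat.mul_le_mul_right _ (Nat.div_mul_le_self _ _)
  omega

end Vale.Agent.P027.L
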