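import Vale.Agent.P027.L.Frm
import Vale.Agent.P027.L.Pt
import Vale.Agent.P027.L.St3D
import Vale.Agent.P027.Q.Rd
import Vale.Agent.P027.R2.H250.IntP
import Vale.Agent.P027.R4.H788.Bridge

/-! The formula is positive existential. -/

set_option linter.all false

namespace Vale.Agent.P027.L

open MvPolynomial Vale.Agent.P345 Vale.Agent.P027 Vale.Agent.P027.D1
open Vale.Agent.P027.Q (rdio_denDvdQ)

variable {C : Set ℚ → Prop}

theorem dio_stpR {f g : (ℕ → ℚ) → ℚ} (hf : DioFn f) (hg : DioFn g) :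
    Dio (fun v => Stp (f v) (g v)) := by
  unfold Stp St2
  exact ((Q.dio_st hf hg).or (Q.dio_st ((lit_fn 2).mul hf) hg)).and (dio_st3 hf hg)

theorem rdio_frm (hC : ∀ R, C R → (0 : ℚ) ∈ R) :
    RDio C (fun R v => Frm R (v 0) (v 1)) := by
  unfold Frm
  have z : DioFn (fun _ => (0 : ℚ)) := by simpa using DioFn.int 0
  have ne : ∀ i : ℕ, Dio (fun v => v i ≠ 0) := fun i => Dio.ne (DioFn.var i) z
  have fng : ∀ {f : (ℕ → ℚ) → ℚ}, DioFn f → DioFn (fun v => -f v) := fun hf => by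
    simpa using z.sub hf
  refine (RDio.of_dio hC ((ne 0).and (ne 1))).and ?_
  apply exP_rdio hC
  apply exP_rdio hC
  apply RDio.ex hC
  apply RDio.ex hC
  apply RDio.ex hC
  -- variables: u = v 0, t = v 1, s = v 2, V = (v 3, v 4), W = (v 5, v 6), c = v 7, B = v 8
  have pV : DPt (fun v => dec (v 3) (v 4)) := DPt.dec (DioFn.var 3) (DioFn.var 4)
  have pW : DPt (fun v => dec (v 5) (v 6)) := DPt.dec (DioFn.var 5) (DioFn.var 6)
  have cs : DioFn (fun v => v 2) := DioFn.var 2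
  have ct : DioFn (fun v => v 1) := DioFn.var 1
  have cu : DioFn (fun v => v 0) := DioFn.var 0
  have cc : DioFn (fun v => v 7) := DioFn.var 7
  have cB : DioFn (fun v => v 8) := DioFn.var 8
  have i7 : ∀ {f : (ℕ → ℚ) → ℚ}, DioFn f → Dio (fun v => 0 ≤ padicValRat 7 (f v)) :=
    fun hf => T2.dio_intp (by norm_num) hf
  have i3 : ∀ {f : (ℕ → ℚ) → ℚ}, DioFn f → Dio (fun v => 0 ≤ padicValRat 3 (f v)) :=
    fun hf => T2.dio_intp Nat.prime_three hf
  have e7 : DioFn (fun v => 2401 * (v 7 ^ 2 * xc (8 • dec (v 5) (v 6)))) :=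
    (lit_fn 2401).mul ((cc.pow 2).mul (pW.nsmul 8).xc)
  have e9 : DioFn (fun v => 9 * (v 8 ^ 2 * xc (2 • dec (v 5) (v 6)))) :=
    (lit_fn 9).mul ((cB.pow 2).mul (pW.nsmul 2).xc)
  exact (RDio.of_dio hC ((ne 2).and ((ne 1).and (ne 0)))).and
    ((RDio.of_dio hC ((Dio.eq pW.xc (fng (ct.pow 2))).and ((Dio.eq pV.xc (fng (cu.pow 2))).and
      (Dio.eq (pW.nsmul 7).xc (fng (cs.pow 2)))))).and
    ((RDio.of_dio hC ((i7 e7).and (i7 (one_fn.div e7)))).and
    ((RDio.of_dio hC (i3 (one_fn.div e9))).and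
    ((RDio.of_dio hC (dio_stpR cs ((pV.nsmul 2).xc.div (pW.nsmul 14).xc))).and
      (rdio_denDvdQ hC (pW.nsmul 7).xc pV.xc pW.xc)))))

/-- the formula as a polynomial -/
theorem exists_poly : ∃ (m : ℕ) (G : MvPolynomial (Fin 2 ⊕ Fin m) ℤ), ∀ R : Set ℚ,
    (∀ z : ℤ, (z : ℚ) ∈ R) → ∀ (c B : ℚ),
    (Frm R c B ↔ ∃ x : Fin m → ℚ, (∀ i, x i ∈ R) ∧ aeval (Sum.elim ![c, B] x) G = 0) := by
  have hR : RDio (fun R => ∀ z : ℤ, (z : ℚ) ∈ R)
      (fun R v => Frm R (v 0) (v 1)) :=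
    rdio_frm (fun R hR => by simpa using hR 0)
  obtain ⟨m, r, F, hF⟩ := rowC2 (fun R => ∀ z : ℤ, (z : ℚ) ∈ R)
    (fun R hR => by simpa using hR 0) (k := 2)
    (S := fun R x => Frm R (x 0) (x 1)) hR
  let φ : Fin 2 ⊕ Fin m ⊕ Fin r → Fin 2 ⊕ Fin (m + r) :=
    Sum.elim Sum.inl (Sum.elim (fun i => Sum.inr (Fin.castAdd r i)) (fun j => Sum.inr (Fin.natAdd m j)))
  refine ⟨m + r, rename φ F, fun R hZ c B => ?_⟩
  have key : ∀ (u : Fin m → ℚ) (y : Fin r → ℚ) (x : Fin (m + r) → ℚ),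
      (∀ i, x (Fin.castAdd r i) = u i) → (∀ j, x (Fin.natAdd m j) = y j) →
      Sum.elim ![c, B] x ∘ φ = Sum.elim ![c, B] (Sum.elim u y) := by
    intro u y x hu hy
    funext i
    rcases i with i | i | j
    · rfl
    · exact hu i
    · exact hy j
  constructor
  · intro hfr
    obtain ⟨u, y, hu, hy, h⟩ := (hF R R hZ hZ ![c, B]).1 hfr
    refine ⟨Fin.append u y, ?_, ?_⟩
    · intro i
      refine Fin.addCases (fun i => ?_) (fun j => ?_) i
      · rw [Fin.append_left]; exact hu i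
      · rw [Fin.append_right]; exact hy j
    · rw [aeval_rename, key u y]
      · exact h
      · intro i
        rw [Fin.append_left]
      · intro j
        rw [Fin.append_right]
  · rintro ⟨x, hx, h⟩
    refine (hF R R hZ hZ ![c, B]).2 ⟨fun i => x (Fin.castAdd r i),
      fun j => x (Fin.natAdd m j), fun i => hx _, fun j => hx _, ?_⟩
    rw [aeval_rename, key _ _ x (fun i => rfl) (fun j => rfl)] at h
    exact h

end Vale.Agent.P027.L
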