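import Vale.Agent.P027.L.FrmC
import Vale.Agent.P027.L.Cnt
import Vale.Agent.P027.L.Rd
import Vale.Agent.P027.H123.Asm

/-! Assembly. -/

set_option linter.all false

namespace Vale.Agent.P027.L

open MvPolynomial Filter
open Vale.Agent.P345 Vale.Agent.P027 Vale.Agent.P027.D1 Vale.Agent.P027.R4.H297
open Vale.Agent.P027.Q (val_neg_iff)

/-- primes of exact order -/
def PrimLaw : Prop := ∃ N0 : ℕ, ∀ n : ℕ, Odd n → N0 < n → ∃ q : ℕ, q.Prime ∧ Ord q n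

/-- computability of the set of the omitted primes -/
def CompLaw : Prop := ∀ Kl : ℕ → ℕ → ℕ → Prop,
  PrimrecPred (fun u : ℕ × ℕ × ℕ => Kl u.1 u.2.1 u.2.2) → (∀ a N i, Kl a N i → 16 ≤ N) →
    ComputablePred (fun q => q ∈ KT Kl)

lemma kt_sub_dd {Kl : ℕ → ℕ → ℕ → Prop} : KT Kl ⊆ DD := by
  rintro q ⟨hq, a, N, i, -, ho, -⟩
  refine ⟨hq, Om a N i, Nat.odd_iff.1 (om_odd a N i), ?_⟩
  exact (val_neg_iff hq (xx_ne_zero (om_ne a N i))).1
    ((dv_xx (om_ne a N i)).1 ((ho.2 _).2 dvd_rfl))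

theorem part (hL : LawL) (hP : PrimLaw) (hC : CompLaw) {A : Set ℕ} (hA : REPred (fun a => a ∈ A))
    {g : ℕ → ℕ} (hg : Computable g) (hgm : Monotone g) (hgu : ∀ M, ∃ n, M ≤ g n) :
    ∃ (B : ℕ → ℕ) (T : Set ℕ), Computable B ∧ T ⊆ DD ∧ ComputablePred (fun q => q ∈ T) ∧
      (∀ᶠ n : ℕ in atTop,
        (T ∩ Set.Iic n).ncard ≤ g n * lst n) ∧
      ∀ R : Set ℚ, Rg T R → ∀ a : ℕ, (a ∈ A ↔ Frm R ((7 : ℚ) ^ a) (B a)) := by
  obtain ⟨Ra, hRa, hmono, hRA⟩ := H123.re_approx hA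
  obtain ⟨N0, hN0⟩ := hP
  obtain ⟨Ok, hOk, hOm, hOe, hOg⟩ := H123.fn_approx hg hgu
  -- admissible exponents
  let Ok' : ℕ → ℕ → Prop := fun a N => N0 + 16 ≤ N ∧ Ok (2 * a + 1) N
  have hOk' : PrimrecRel Ok' := by
    have h1 : PrimrecPred (fun u : ℕ × ℕ => N0 + 16 ≤ u.2) :=
      Primrec.nat_le.comp (Primrec.const (N0 + 16)) Primrec.snd
    have h2 : PrimrecPred (fun u : ℕ × ℕ => Ok (2 * u.1 + 1) u.2) :=
      PrimrecRel.comp hOk (Primrec.succ.comp (Primrec.nat_mul.comp (Primrec.const 2) Primrec.fst))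
        Primrec.snd
    exact h1.and h2
  let IsN : ℕ → ℕ → Prop := fun a N => Ok' a N ∧ ∀ N' < N, ¬ Ok' a N'
  have hIsN : PrimrecRel IsN := by
    have h1 : PrimrecPred (fun u : ℕ × ℕ => Ok' u.1 u.2) := hOk'
    have h2 : PrimrecPred (fun u : ℕ × ℕ => ∀ N' < u.2, ¬ Ok' u.1 N') := by
      apply all_lt (P := fun N' (u : ℕ × ℕ) => ¬ Ok' u.1 N') _ Primrec.snd
      have h3 : PrimrecPred (fun v : ℕ × (ℕ × ℕ) => Ok' v.2.1 v.1) :=
        PrimrecRel.comp hOk' (Primrec.fst.comp Primrec.snd) Primrec.fst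
      exact h3.not
    exact h1.and h2
  have hIex : ∀ a, ∃ N, IsN a N := by
    classical
    intro a
    have h : ∃ N, Ok' a N := by
      obtain ⟨i, hi⟩ := hOe (2 * a + 1)
      exact ⟨max i (N0 + 16), by omega, hOm _ i _ (le_max_left _ _) hi⟩
    exact ⟨Nat.find h, Nat.find_spec h, fun N' hN' => Nat.find_min h hN'⟩
  obtain ⟨I, hI, hIN⟩ := H123.computable_least hIsN hIex
  have hIu : ∀ a N, IsN a N → N = I a := by
    intro a N hN
    have h2 := hIN a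
    rcases lt_trichotomy N (I a) with h | h | h
    · exact absurd hN.1 (h2.2 N h)
    · exact h
    · exact absurd h2.1 (hN.2 (I a) h)
  let Kl : ℕ → ℕ → ℕ → Prop := fun a N i => IsN a N ∧ ¬ Ra a i
  have hKl : PrimrecPred (fun u : ℕ × ℕ × ℕ => Kl u.1 u.2.1 u.2.2) := by
    have h1 : PrimrecPred (fun u : ℕ × ℕ × ℕ => IsN u.1 u.2.1) :=
      PrimrecRel.comp hIsN Primrec.fst (Primrec.fst.comp Primrec.snd)
    have h2 : PrimrecPred (fun u : ℕ × ℕ × ℕ => Ra u.1 u.2.2) :=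
      PrimrecRel.comp hRa Primrec.fst (Primrec.snd.comp Primrec.snd)
    exact h1.and h2.not
  have hex : ∀ a N i, Kl a N i → ∃ q : ℕ, q.Prime ∧ Ord q (Om a N i) := by
    intro a N i hkl
    refine hN0 _ (om_odd a N i) ?_
    have h1 := om_ge a N i
    have h2 : N0 + 16 ≤ N := hkl.1.1.1
    have h3 : N < 3 ^ N := Nat.lt_pow_self (by norm_num)
    have h4 : 3 ^ N ≤ 7 ^ (a + 1) * 3 ^ N := Nat.le_mul_of_pos_left _ (by positivity)
    omega
  have hpow : Computable (fun a => 3 ^ (I a)) := by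
    have h1 : Primrec (fun i : ℕ => 3 ^ i) := pr_pow (Primrec.const 3) Primrec.id
    exact h1.to_comp.comp hI
  refine ⟨fun a => 3 ^ (I a), KT Kl, hpow, kt_sub_dd, hC Kl hKl (fun a N i h => ?_),
    count hL hgm (fun a N i h => ⟨?_, ?_⟩) (fun a N i N' i' h h' => ?_), fun R hR a => ?_⟩
  · have := h.1.1.1
    omega
  · have := h.1.1.1
    omega
  · obtain ⟨m, hm, hgm⟩ := hOg _ _ h.1.1.2
    exact ⟨m, hm, by omega⟩
  · rw [hIu a N h.1, hIu a N' h'.1]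
  have e : (((3 ^ (I a) : ℕ) : ℕ) : ℚ) = (3 : ℚ) ^ (I a) := by push_cast; ring
  have hIa : N0 + 16 ≤ I a := (hIN a).1.1
  show a ∈ A ↔ Frm R ((7 : ℚ) ^ a) (((3 ^ (I a) : ℕ) : ℕ) : ℚ)
  rw [e]
  constructor
  · intro ha
    obtain ⟨i₀, hi₀⟩ := (hRA a).1 ha
    refine frm_complete hL hR (i₀ := i₀) (by omega) (fun N' i h => ⟨hIu a N' h.1, ?_⟩)
    by_contra hcon
    push Not at hcon
    exact h.2 (hmono a i₀ i hcon.le hi₀)
  · intro hfr
    by_contra ha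
    exact frm_sound hL hex hR (by omega) (fun i => ⟨hIN a, fun h => ha ((hRA a).2 ⟨i, h⟩)⟩) hfr

end Vale.Agent.P027.L
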