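import Mathlib

/-! The curve `y^2 = x^3 + 105 x^2 + 2048 x` over the rationals and its point `(-64, 192)`. -/

set_option linter.all false

namespace Vale.Agent.P027.L

/-- the curve -/
def E : WeierstrassCurve.Affine ℚ := ⟨0, 105, 0, 2048, 0⟩

lemma e_equation_iff (x y : ℚ) : E.Equation x y ↔ y ^ 2 = x ^ 3 + 105 * x ^ 2 + 2048 * x := by
  rw [WeierstrassCurve.Affine.equation_iff]
  simp only [E]
  constructor <;> intro h <;> linarith

lemma e_nonsingular_iff (x y : ℚ) : E.Nonsingular x y ↔ y ^ 2 = x ^ 3 + 105 * x ^ 2 + 2048 * x := by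
  rw [WeierstrassCurve.Affine.nonsingular_iff, e_equation_iff]
  simp only [E]
  constructor
  · exact fun h => h.1
  · intro h
    refine ⟨h, ?_⟩
    by_contra hcon
    push Not at hcon
    obtain ⟨h1, h2⟩ := hcon
    have hy : y = 0 := by linarith
    have hx : 3 * x ^ 2 + 210 * x + 2048 = 0 := by linarith
    rw [hy] at h
    have h3 : x * (x ^ 2 + 105 * x + 2048) = 0 := by linarith
    rcases mul_eq_zero.1 h3 with h4 | h4
    · rw [h4] at hx; norm_num at hx
    · have h5 : x = -4096 / 105 := by linarith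
      rw [h5] at hx; norm_num at hx

/-- the point with coordinates x, y -/
def pt (x y : ℚ) (h : y ^ 2 = x ^ 3 + 105 * x ^ 2 + 2048 * x) : E.Point :=
  .some x y ((e_nonsingular_iff x y).2 h)

/-- the generator -/
def P0 : E.Point := pt (-64) 192 (by norm_num)

/-- the point of order two -/
def T0 : E.Point := pt 0 0 (by norm_num)

/-- the point is affine with first coordinate x -/
def HasX (V : E.Point) (x : ℚ) : Prop :=
  ∃ y, ∃ h : y ^ 2 = x ^ 3 + 105 * x ^ 2 + 2048 * x, V = pt x y h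

lemma negY_e (x y : ℚ) : E.negY x y = -y := by
  simp [WeierstrassCurve.Affine.negY, E]

lemma neg_pt (x y : ℚ) (h : y ^ 2 = x ^ 3 + 105 * x ^ 2 + 2048 * x) :
    -pt x y h = pt x (-y) (by rw [neg_sq]; exact h) := by
  unfold pt
  rw [WeierstrassCurve.Affine.Point.neg_some]
  congr 1
  exact negY_e x y

lemma pt_congr {x y x' y' : ℚ} {h : y ^ 2 = x ^ 3 + 105 * x ^ 2 + 2048 * x}
    {h' : y' ^ 2 = x' ^ 3 + 105 * x' ^ 2 + 2048 * x'}
    (hx : x = x') (hy : y = y') : pt x y h = pt x' y' h' := by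
  subst hx; subst hy; rfl

lemma HasX.neg {V : E.Point} {x : ℚ} (h : HasX V x) : HasX (-V) x := by
  obtain ⟨y, hy, rfl⟩ := h
  exact ⟨-y, _, neg_pt x y hy⟩

lemma HasX.eq_or_neg {V W : E.Point} {x : ℚ} (h : HasX V x) (h' : HasX W x) :
    V = W ∨ V = -W := by
  obtain ⟨y, hy, rfl⟩ := h
  obtain ⟨y', hy', rfl⟩ := h'
  have h2 : y ^ 2 = y' ^ 2 := by rw [hy, hy']
  rcases sq_eq_sq_iff_eq_or_eq_neg.1 h2 with h3 | h3
  · left; exact pt_congr rfl h3
  · right; rw [neg_pt]; exact pt_congr rfl h3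

lemma HasX.unique {V : E.Point} {x x' : ℚ} (h : HasX V x) (h' : HasX V x') : x = x' := by
  obtain ⟨y, hy, rfl⟩ := h
  obtain ⟨y', hy', h2⟩ := h'
  unfold pt at h2
  rw [WeierstrassCurve.Affine.Point.some.injEq] at h2
  exact h2.1

lemma HasX.ne_zero {V : E.Point} {x : ℚ} (h : HasX V x) : V ≠ 0 := by
  obtain ⟨y, hy, rfl⟩ := h
  exact WeierstrassCurve.Affine.Point.some_ne_zero _

lemma not_hasX_zero {x : ℚ} (h : HasX 0 x) : False := h.ne_zero rfl

lemma exists_hasX {V : E.Point} (h : V ≠ 0) : ∃ x, HasX V x := by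
  rcases V with _ | ⟨x, y, hxy⟩
  · exact absurd rfl h
  · exact ⟨x, y, (e_nonsingular_iff x y).1 hxy, rfl⟩

lemma hasX_P0 : HasX P0 (-64) := ⟨192, _, rfl⟩

lemma hasX_T0 : HasX T0 0 := ⟨0, _, rfl⟩

/-- duplication formula -/
lemma hasX_double {x y : ℚ} (h : y ^ 2 = x ^ 3 + 105 * x ^ 2 + 2048 * x) (hy : y ≠ 0) :
    HasX (pt x y h + pt x y h) (((x ^ 2 - 2048) / (2 * y)) ^ 2) := by
  have hne : y ≠ E.negY x y := by
    rw [negY_e]; intro h1; apply hy; linarith
  have hadd := WeierstrassCurve.Affine.Point.add_self_of_Y_ne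
    (h₁ := (e_nonsingular_iff x y).2 h) hne
  have hslope : E.slope x x y y = (3 * x ^ 2 + 210 * x + 2048) / (2 * y) := by
    rw [WeierstrassCurve.Affine.slope_of_Y_ne rfl hne, negY_e]
    simp only [E]
    congr 1 <;> ring
  have hX : E.addX x x (E.slope x x y y) = ((x ^ 2 - 2048) / (2 * y)) ^ 2 := by
    rw [hslope]
    simp only [WeierstrassCurve.Affine.addX, E]
    rw [div_pow, div_pow]
    have h4 : (2 * y) ^ 2 ≠ 0 := by positivity
    field_simp
    linear_combination (-8 * x - 420) * h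
  have hP : pt x y h + pt x y h = .some _ _ (WeierstrassCurve.Affine.nonsingular_add
      ((e_nonsingular_iff x y).2 h) ((e_nonsingular_iff x y).2 h) fun hxy => hne hxy.right) := hadd
  rw [hP]
  refine ⟨E.addY x x y (E.slope x x y y), ?_, ?_⟩
  · rw [← hX, ← e_nonsingular_iff]
    exact WeierstrassCurve.Affine.nonsingular_add
      ((e_nonsingular_iff x y).2 h) ((e_nonsingular_iff x y).2 h) fun hxy => hne hxy.right
  · unfold pt
    rw [WeierstrassCurve.Affine.Point.some.injEq]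
    exact ⟨hX, rfl⟩

/-- addition formula, different first coordinates -/
lemma hasX_add {x y x' y' : ℚ} (h : y ^ 2 = x ^ 3 + 105 * x ^ 2 + 2048 * x)
    (h' : y' ^ 2 = x' ^ 3 + 105 * x' ^ 2 + 2048 * x') (hne : x ≠ x') :
    HasX (pt x y h + pt x' y' h') (((y - y') / (x - x')) ^ 2 - 105 - x - x') := by
  have hadd := WeierstrassCurve.Affine.Point.add_of_X_ne
    (h₁ := (e_nonsingular_iff x y).2 h) (h₂ := (e_nonsingular_iff x' y').2 h') hne
  have hX : E.addX x x' (E.slope x x' y y') = ((y - y') / (x - x')) ^ 2 - 105 - x - x' := by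
    rw [WeierstrassCurve.Affine.slope_of_X_ne hne]
    simp only [WeierstrassCurve.Affine.addX, E]
    ring
  have hP : pt x y h + pt x' y' h' = .some _ _ (WeierstrassCurve.Affine.nonsingular_add
      ((e_nonsingular_iff x y).2 h) ((e_nonsingular_iff x' y').2 h')
      fun hxy => hne hxy.left) := hadd
  rw [hP]
  refine ⟨E.addY x x' y (E.slope x x' y y'), ?_, ?_⟩
  · rw [← hX, ← e_nonsingular_iff]
    exact WeierstrassCurve.Affine.nonsingular_add
      ((e_nonsingular_iff x y).2 h) ((e_nonsingular_iff x' y').2 h') fun hxy => hne hxy.left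
  · unfold pt
    rw [WeierstrassCurve.Affine.Point.some.injEq]
    exact ⟨hX, rfl⟩

/-- first coordinates of sum and difference -/
lemma hasX_add_sub {V W : E.Point} {a b : ℚ} (hV : HasX V a) (hW : HasX W b) (hne : a ≠ b) :
    ∃ s d : ℚ, HasX (V + W) s ∧ HasX (V - W) d ∧
      (s + d) * (a - b) ^ 2 = 2 * ((a * b + 2048) * (a + b) + 210 * (a * b)) ∧
      s * d * (a - b) ^ 2 = (a * b - 2048) ^ 2 := by
  obtain ⟨y, hy, rfl⟩ := hV
  obtain ⟨z, hz, rfl⟩ := hW
  have hab : a - b ≠ 0 := sub_ne_zero.2 hne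
  refine ⟨((y - z) / (a - b)) ^ 2 - 105 - a - b, ((y - (-z)) / (a - b)) ^ 2 - 105 - a - b,
    hasX_add hy hz hne, ?_, ?_, ?_⟩
  · rw [sub_eq_add_neg, neg_pt]
    exact hasX_add hy _ hne
  · field_simp
    linear_combination 2 * hy + 2 * hz
  · have h1 : ((y - z) / (a - b)) ^ 2 - 105 - a - b =
        ((y - z) ^ 2 - (105 + a + b) * (a - b) ^ 2) / (a - b) ^ 2 := by
      field_simp; ring
    have h2 : ((y - (-z)) / (a - b)) ^ 2 - 105 - a - b =
        ((y + z) ^ 2 - (105 + a + b) * (a - b) ^ 2) / (a - b) ^ 2 := by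
      field_simp; ring
    rw [h1, h2, div_mul_div_comm, div_mul_eq_mul_div, div_eq_iff (by positivity)]
    linear_combination (a - b) ^ 2 * ((y ^ 2 - z ^ 2 + (a ^ 3 + 105 * a ^ 2 + 2048 * a) -
      (b ^ 3 + 105 * b ^ 2 + 2048 * b)) - 2 * (105 + a + b) * (a - b) ^ 2) * hy +
      (a - b) ^ 2 * (-(y ^ 2 - z ^ 2 + (a ^ 3 + 105 * a ^ 2 + 2048 * a) -
      (b ^ 3 + 105 * b ^ 2 + 2048 * b)) - 2 * (105 + a + b) * (a - b) ^ 2) * hz

/-- the discriminant of the quadratic factor is not a rational square -/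
lemma not_sq_2833 {z : ℚ} (h : z ^ 2 = 2833) : False := by
  have h3 : IsSquare (2833 : ℚ) := ⟨z, by linear_combination -h⟩
  obtain ⟨n, hn⟩ : IsSquare (2833 : ℕ) :=
    Rat.isSquare_natCast_iff.1 (by exact_mod_cast h3 : IsSquare ((2833 : ℕ) : ℚ))
  have : n < 54 := by nlinarith only [hn]
  interval_cases n <;> omega

lemma cubic_ne {x : ℚ} (hx : x ≠ 0) : x ^ 3 + 105 * x ^ 2 + 2048 * x ≠ 0 := by
  intro h
  have h1 : x * (x ^ 2 + 105 * x + 2048) = 0 := by linear_combination h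
  rcases mul_eq_zero.1 h1 with h2 | h2
  · exact hx h2
  · exact not_sq_2833 (z := 2 * x + 105) (by linear_combination 4 * h2)

lemma hasX_two_smul {V : E.Point} {x : ℚ} (hV : HasX V x) (hx : x ≠ 0) :
    HasX (V + V) ((x ^ 2 - 2048) ^ 2 / (4 * (x ^ 3 + 105 * x ^ 2 + 2048 * x))) := by
  obtain ⟨y, hy, rfl⟩ := hV
  have hy0 : y ≠ 0 := by
    rintro rfl
    exact cubic_ne hx (by linear_combination -hy)
  have := hasX_double hy hy0
  have e : ((x ^ 2 - 2048) / (2 * y)) ^ 2 = (x ^ 2 - 2048) ^ 2 / (4 * (x ^ 3 + 105 * x ^ 2 + 2048 * x)) := by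
    rw [div_pow, mul_pow, hy]; norm_num
  rw [← e]; exact this

lemma two_T0 : T0 + T0 = 0 := by
  have h1 : -T0 = T0 := by
    unfold T0
    rw [neg_pt]
    exact pt_congr rfl (by norm_num)
  nth_rewrite 2 [← h1]
  exact add_neg_cancel T0

/-- translation by the point of order two -/
lemma hasX_add_T0 {V : E.Point} {x : ℚ} (hV : HasX V x) (hx : x ≠ 0) : HasX (V + T0) (2048 / x) := by
  obtain ⟨y, hy, rfl⟩ := hV
  have := hasX_add hy (show (0 : ℚ) ^ 2 = 0 ^ 3 + 105 * 0 ^ 2 + 2048 * 0 by norm_num) hx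
  have e : ((y - 0) / (x - 0)) ^ 2 - 105 - x - 0 = 2048 / x := by
    rw [sub_zero, sub_zero, sub_zero, div_pow, hy]
    field_simp
    ring
  rw [← e]
  exact this

end Vale.Agent.P027.L
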