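import Vale.Agent.P027.L.P3
import Vale.Agent.P011.ArP.Has4

/-! Algebra of the cubic check: the norm form of `L` and the Kummer norm form. -/

set_option linter.all false

namespace Vale.Agent.P027.L

open Polynomial Vale.Agent.P011.ArP

section ring
variable {R : Type*} [CommRing R]

lemma prod3 (z X A B D : R) (hz : z ^ 2 + z + 1 = 0) :
    (A + X * B + X ^ 2 * D) * (A + z * X * B + (z * X) ^ 2 * D) *
      (A + z ^ 2 * X * B + (z ^ 2 * X) ^ 2 * D) =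
    A ^ 3 + X ^ 3 * B ^ 3 + (X ^ 3) ^ 2 * D ^ 3 - 3 * X ^ 3 * A * B * D := by
  linear_combination ((1)*z^0*X^1*A^2*B^1*D^0 + (1)*z^0*X^2*A^2*B^0*D^1 + (-1)*z^0*X^3*A^0*B^3*D^0 + (3)*z^0*X^3*A^1*B^1*D^1 + (-1)*z^0*X^6*A^0*B^0*D^3 + (1)*z^1*X^2*A^1*B^2*D^0 + (-1)*z^1*X^2*A^2*B^0*D^1 + (1)*z^1*X^3*A^0*B^3*D^0 + (-2)*z^1*X^3*A^1*B^1*D^1 + (1)*z^1*X^6*A^0*B^0*D^3 + (1)*z^2*X^2*A^2*B^0*D^1 + (1)*z^2*X^3*A^1*B^1*D^1 + (1)*z^2*X^4*A^1*B^0*D^2 + (1)*z^3*X^3*A^1*B^1*D^1 + (1)*z^3*X^4*A^0*B^2*D^1 + (-1)*z^3*X^4*A^1*B^0*D^2 + (-1)*z^3*X^6*A^0*B^0*D^3 + (1)*z^4*X^4*A^1*B^0*D^2 + (1)*z^4*X^5*A^0*B^1*D^2 + (1)*z^4*X^6*A^0*B^0*D^3) * hz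

/-- the Kummer norm form in the basis of powers of `θ` -/
lemma N7_kum (w x0 x1 x2 : R) (hw : w ^ 2 + w + 1 = 0) :
    N7 (x0 + x1 * (-1 - 3 * w) + x2 * (-5 + 3 * w)) (x1 * (2 + w) + x2 * (5 + 4 * w))
      (x1 * (1 + 2 * w) + x2 * (4 - w)) =
    x0 ^ 3 + (14 + 21 * w) * x1 ^ 3 + (14 + 21 * w) ^ 2 * x2 ^ 3 -
      3 * (14 + 21 * w) * x0 * x1 * x2 := by
  unfold N7
  linear_combination ((-147)*w^0*x0^0*x1^0*x2^3 + (98)*w^0*x0^0*x1^1*x2^2 + (49)*w^0*x0^0*x1^2*x2^1 + (-7)*w^0*x0^0*x1^3*x2^0 + (-49)*w^0*x0^1*x1^0*x2^2 + (7)*w^0*x0^1*x1^1*x2^1 + (-7)*w^0*x0^1*x1^2*x2^0 + (-49)*w^1*x0^0*x1^0*x2^3 + (147)*w^1*x0^0*x1^1*x2^2 + (-7)*w^1*x0^0*x1^3*x2^0) * hw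

/-- coordinates of a product -/
def m0 (x0 x1 x2 y0 y1 y2 : R) : R :=
  x0 * y0 + (x1 * y2 + x2 * y1) - x2 * y2
def m1 (x0 x1 x2 y0 y1 y2 : R) : R :=
  (x0 * y1 + x1 * y0) + 2 * (x1 * y2 + x2 * y1) - x2 * y2
def m2 (x0 x1 x2 y0 y1 y2 : R) : R :=
  (x0 * y2 + x1 * y1 + x2 * y0) - (x1 * y2 + x2 * y1) + 3 * (x2 * y2)

lemma N7_comp (x0 x1 x2 y0 y1 y2 : R) :
    N7 (m0 x0 x1 x2 y0 y1 y2) (m1 x0 x1 x2 y0 y1 y2) (m2 x0 x1 x2 y0 y1 y2) =
      N7 x0 x1 x2 * N7 y0 y1 y2 := by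
  unfold N7 m0 m1 m2
  ring

lemma N7_smul (c x y z : R) : N7 (c * x) (c * y) (c * z) = c ^ 3 * N7 x y z := by
  unfold N7
  ring

lemma N7_hom {S : Type*} [CommRing S] (f : R →+* S) (x y z : R) :
    f (N7 x y z) = N7 (f x) (f y) (f z) := by
  unfold N7
  simp only [map_add, map_sub, map_mul, map_pow, map_ofNat]

end ring

section
variable {F : Type} [Field F]

/-- decomposition of a polynomial by exponents modulo three -/
lemma decomp3 (h : F[X]) : ∃ a b c : F[X],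
    h = expand F 3 a + X * expand F 3 b + X ^ 2 * expand F 3 c := by
  induction h using Polynomial.induction_on' with
  | add f g hf hg =>
    obtain ⟨a, b, c, h1⟩ := hf
    obtain ⟨a', b', c', h2⟩ := hg
    exact ⟨a + a', b + b', c + c', by rw [h1, h2]; simp only [map_add]; ring⟩
  | monomial n r =>
    have hn : n = 3 * (n / 3) + n % 3 := (Nat.div_add_mod n 3).symm
    have h3 : n % 3 = 0 ∨ n % 3 = 1 ∨ n % 3 = 2 := by omega
    have e : monomial n r = C r * X ^ n := (C_mul_X_pow_eq_monomial).symm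
    rcases h3 with h | h | h
    · refine ⟨C r * X ^ (n / 3), 0, 0, ?_⟩
      rw [e]
      conv_lhs => rw [hn, h]
      simp only [map_mul, expand_C, map_pow, expand_X, map_zero]
      ring
    · refine ⟨0, C r * X ^ (n / 3), 0, ?_⟩
      rw [e]
      conv_lhs => rw [hn, h]
      simp only [map_mul, expand_C, map_pow, expand_X, map_zero]
      ring
    · refine ⟨0, 0, C r * X ^ (n / 3), ?_⟩
      rw [e]
      conv_lhs => rw [hn, h]
      simp only [map_mul, expand_C, map_pow, expand_X, map_zero]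
      ring

lemma zeta_eq (M : Mu 3 F) : M.ζ ^ 2 + M.ζ + 1 = 0 := by
  have h1 : M.ζ ^ 3 = 1 := M.prim.pow_eq_one
  have h2 : M.ζ ≠ 1 := M.prim.ne_one (by norm_num)
  have h3 : (M.ζ - 1) * (M.ζ ^ 2 + M.ζ + 1) = 0 := by linear_combination h1
  rcases mul_eq_zero.1 h3 with h | h
  · exact absurd (sub_eq_zero.1 h) h2
  · exact h

/-- the Kummer norm form for cubic extensions -/
lemma nf3 (M : Mu 3 F) (a b c : F[X]) :
    M.nf (expand F 3 a + X * expand F 3 b + X ^ 2 * expand F 3 c) =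
      a ^ 3 + X * b ^ 3 + X ^ 2 * c ^ 3 - 3 * X * a * b * c := by
  apply M.nf_eq
  have hz := zeta_eq M
  have hz3 : M.ζ ^ 3 = 1 := M.prim.pow_eq_one
  have key : ∀ (f : F[X]) (i : ℕ), (expand F 3 f).comp (C (M.ζ ^ i) * X) = expand F 3 f := by
    intro f i
    rw [expand_eq_comp_X_pow, comp_assoc, pow_comp, X_comp, mul_pow, ← C_pow, ← pow_mul, mul_comm i 3,
      pow_mul, hz3, one_pow, C_1, one_mul]
  have hzC : (C M.ζ : F[X]) ^ 2 + C M.ζ + 1 = 0 := by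
    rw [← C_pow, ← C_1, ← C_add, ← C_add, hz, C_0]
  have e3 : (expand F 3 (3 : F[X])) = 3 := map_ofNat (expand F 3) 3
  have key2 : ∀ i : ℕ, (expand F 3 a + X * expand F 3 b + X ^ 2 * expand F 3 c).comp
      (C (M.ζ ^ i) * X) = expand F 3 a + (C (M.ζ ^ i) * X) * expand F 3 b +
        (C (M.ζ ^ i) * X) ^ 2 * expand F 3 c := by
    intro i
    rw [add_comp, add_comp, mul_comp, mul_comp, key, key, key, X_comp, pow_comp, X_comp]
  rw [Mu.cj, Finset.prod_congr rfl (fun i _ => key2 i)]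
  simp only [Finset.prod_range_succ, Finset.prod_range_zero, one_mul, map_add, map_sub, map_mul,
    map_pow, expand_X, e3, pow_zero, C_1, pow_one]
  rw [prod3 (C M.ζ) X _ _ _ hzC]

lemma a7_ne (M : Mu 3 F) [CharZero F] : (14 + 21 * M.ζ : F) ≠ 0 := by
  intro h
  have hz := zeta_eq M
  have : (343 : F) = 0 := by
    linear_combination (14 + 21 * M.ζ ^ 2) * h + (147 - 441 * M.ζ) * hz
  norm_num at this

/-- the Kummer generator of `L(ω)` -/
noncomputable def a7 (M : Mu 3 F) [CharZero F] : Fˣ := Units.mk0 (14 + 21 * M.ζ) (a7_ne M)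

theorem norm_of_NF (M : Mu 3 F) [CharZero F] {b : Fˣ} (h : b ∈ NF M (a7 M)) :
    ∃ x y z : F, N7 x y z = (b : F) := by
  obtain ⟨g, hg⟩ := mem_NF.1 h
  obtain ⟨A, B, D, rfl⟩ := decomp3 g
  rw [nf3] at hg
  refine ⟨_, _, _, (N7_kum M.ζ (A.eval (a7 M : F)) (B.eval (a7 M : F)) (D.eval (a7 M : F))
    (zeta_eq M)).trans ?_⟩
  rw [hg]
  simp only [eval_add, eval_sub, eval_mul, eval_pow, eval_X, eval_ofNat]
  simp only [a7, Units.val_mk0]

end

section descent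
variable {K : Type} [Field K]

lemma quad_repr (f : K[X]) (hf : f = X ^ 2 + X + 1) (x : AdjoinRoot f) :
    ∃ u v : K, x = AdjoinRoot.of f u + AdjoinRoot.of f v * AdjoinRoot.root f := by
  obtain ⟨p, rfl⟩ := AdjoinRoot.mk_surjective x
  have hm : f.Monic := by rw [hf]; monicity!
  have hd : f.natDegree = 2 := by rw [hf]; compute_degree!
  have h1 := modByMonic_add_div p f
  have hlt : (p %ₘ f).natDegree ≤ 1 := by
    have := natDegree_modByMonic_lt p hm (by intro h; rw [h] at hd; simp at hd)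
    omega
  obtain ⟨v, u, huv⟩ := exists_eq_X_add_C_of_natDegree_le_one hlt
  refine ⟨u, v, ?_⟩
  rw [← h1, map_add, map_mul, AdjoinRoot.mk_self, zero_mul, add_zero, huv, map_add, map_mul,
    AdjoinRoot.mk_X, AdjoinRoot.mk_C, AdjoinRoot.mk_C]
  ring

theorem descend (f : K[X]) (hf : f = X ^ 2 + X + 1) [Fact (Irreducible f)] {b : K} (hb : b ≠ 0)
    (h : ∃ x y z : AdjoinRoot f, N7 x y z = AdjoinRoot.of f b) : ∃ x y z : K, N7 x y z = b := by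
  obtain ⟨x, y, z, h⟩ := h
  have hr : (AdjoinRoot.root f) ^ 2 + AdjoinRoot.root f + 1 = 0 := by
    have h1 : eval₂ (AdjoinRoot.of f) (AdjoinRoot.root f) f = 0 := AdjoinRoot.eval₂_root f
    conv_lhs at h1 => arg 3; rw [hf]
    simpa only [eval₂_add, eval₂_pow, eval₂_X, eval₂_one] using h1
  set r := AdjoinRoot.root f with hrdef
  set i := AdjoinRoot.of f with hi
  let σ : AdjoinRoot f →+* AdjoinRoot f := AdjoinRoot.lift i (-1 - r) (by
    conv_lhs => arg 3; rw [hf]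
    simp only [eval₂_add, eval₂_pow, eval₂_X, eval₂_one]
    linear_combination hr)
  have hσ0 : ∀ k : K, σ (i k) = i k := fun k => AdjoinRoot.lift_of _
  have hσr : σ r = -1 - r := AdjoinRoot.lift_root _
  obtain ⟨x0, x1, rfl⟩ := quad_repr f hf x
  obtain ⟨y0, y1, rfl⟩ := quad_repr f hf y
  obtain ⟨z0, z1, rfl⟩ := quad_repr f hf z
  rw [← hrdef, ← hi] at h
  have h' := congrArg σ h
  rw [N7_hom, hσ0] at h'
  simp only [map_add, map_mul, hσ0, hσr] at h'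
  have hprod := N7_comp (i x0 + i x1 * r) (i y0 + i y1 * r) (i z0 + i z1 * r)
    (i x0 + i x1 * (-1 - r)) (i y0 + i y1 * (-1 - r)) (i z0 + i z1 * (-1 - r))
  rw [h, h'] at hprod
  -- the products
  have pr : ∀ u v u' v' : K, (i u + i v * r) * (i u' + i v' * (-1 - r)) +
      (i u' + i v' * r) * (i u + i v * (-1 - r)) =
      i (2 * u * u' - u * v' - v * u' + 2 * v * v') := by
    intro u v u' v'
    simp only [map_add, map_sub, map_mul, map_ofNat]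
    linear_combination (-2 * i v * i v') * hr
  have ps : ∀ u v : K, (i u + i v * r) * (i u + i v * (-1 - r)) = i (u * u - u * v + v * v) := by
    intro u v
    simp only [map_add, map_sub, map_mul]
    linear_combination (-i v * i v) * hr
  obtain ⟨k0, hk0⟩ : ∃ k0 : K, m0 (i x0 + i x1 * r) (i y0 + i y1 * r) (i z0 + i z1 * r)
      (i x0 + i x1 * (-1 - r)) (i y0 + i y1 * (-1 - r)) (i z0 + i z1 * (-1 - r)) = i k0 := by
    refine ⟨(x0 * x0 - x0 * x1 + x1 * x1) + (2 * y0 * z0 - y0 * z1 - y1 * z0 + 2 * y1 * z1) -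
      (z0 * z0 - z0 * z1 + z1 * z1), ?_⟩
    rw [map_sub, map_add, ← pr, ← ps, ← ps]
    unfold m0
    ring
  obtain ⟨k1, hk1⟩ : ∃ k1 : K, m1 (i x0 + i x1 * r) (i y0 + i y1 * r) (i z0 + i z1 * r)
      (i x0 + i x1 * (-1 - r)) (i y0 + i y1 * (-1 - r)) (i z0 + i z1 * (-1 - r)) = i k1 := by
    refine ⟨(2 * x0 * y0 - x0 * y1 - x1 * y0 + 2 * x1 * y1) +
      2 * (2 * y0 * z0 - y0 * z1 - y1 * z0 + 2 * y1 * z1) -
      (z0 * z0 - z0 * z1 + z1 * z1), ?_⟩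
    rw [map_sub, map_add, map_mul, map_ofNat, ← pr, ← pr, ← ps]
    unfold m1
    ring
  obtain ⟨k2, hk2⟩ : ∃ k2 : K, m2 (i x0 + i x1 * r) (i y0 + i y1 * r) (i z0 + i z1 * r)
      (i x0 + i x1 * (-1 - r)) (i y0 + i y1 * (-1 - r)) (i z0 + i z1 * (-1 - r)) = i k2 := by
    refine ⟨((2 * x0 * z0 - x0 * z1 - x1 * z0 + 2 * x1 * z1) + (y0 * y0 - y0 * y1 + y1 * y1)) -
      (2 * y0 * z0 - y0 * z1 - y1 * z0 + 2 * y1 * z1) +
      3 * (z0 * z0 - z0 * z1 + z1 * z1), ?_⟩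
    rw [map_add, map_sub, map_add, map_mul, map_ofNat, ← pr, ← pr, ← ps, ← ps]
    unfold m2
    ring
  rw [hk0, hk1, hk2, ← N7_hom, ← map_mul] at hprod
  have hK : N7 k0 k1 k2 = b * b := i.injective hprod
  refine ⟨b⁻¹ * m0 k0 k1 k2 k0 k1 k2, b⁻¹ * m1 k0 k1 k2 k0 k1 k2, b⁻¹ * m2 k0 k1 k2 k0 k1 k2, ?_⟩
  rw [N7_smul, N7_comp, hK]
  field_simp

end descent

end Vale.Agent.P027.L
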