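import Vale.Agent.P027.L.C1

/-! Local analysis of the cubic check. -/

set_option linter.all false

namespace Vale.Agent.P027.L

open Polynomial NumberField IsDedekindDomain Vale.Agent.P011.ArP
open Vale.Agent.P011.Arith (Z0 exists_residue finite_residue mk_eq_zero_iff)

lemma mul_lt_one_of_le_of_lt' {a b : Z0} (ha : a ≤ 1) (hb : b < 1) : a * b < 1 := by
  calc a * b ≤ 1 * b := mul_le_mul_left ha _
    _ = b := one_mul b
    _ < 1 := hb

lemma mul_lt_one_of_lt_of_le' {a b : Z0} (ha : a < 1) (hb : b ≤ 1) : a * b < 1 := by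
  rw [mul_comm]; exact mul_lt_one_of_le_of_lt' hb ha

section place
variable {F : Type} [Field F] [NumberField F] (v : HeightOneSpectrum (𝓞 F))

lemma exists_char : ∃ q : ℕ, q.Prime ∧ v.valuation F (q : F) < 1 := by
  have : v.asIdeal.IsMaximal := v.isMaximal
  have : Finite (𝓞 F ⧸ v.asIdeal) := finite_residue v
  let _ : Field (𝓞 F ⧸ v.asIdeal) := Ideal.Quotient.field v.asIdeal
  obtain ⟨q, hq⟩ := CharP.exists (𝓞 F ⧸ v.asIdeal)
  have hp : q.Prime := CharP.char_is_prime (𝓞 F ⧸ v.asIdeal) q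
  refine ⟨q, hp, ?_⟩
  have h1 : Ideal.Quotient.mk v.asIdeal (q : 𝓞 F) = 0 := by
    rw [map_natCast]
    exact CharP.cast_eq_zero _ q
  rw [mk_eq_zero_iff, map_natCast] at h1
  exact h1

variable {v} {q : ℕ}

lemma w_int_le (a : ℤ) : v.valuation F (a : F) ≤ 1 := by
  have := v.valuation_le_one (K := F) (a : 𝓞 F)
  have e : algebraMap (𝓞 F) F (a : 𝓞 F) = (a : F) := map_intCast _ a
  rw [← e]
  exact this

lemma w_int (hq : q.Prime) (hv : v.valuation F (q : F) < 1) {a : ℤ} (ha : ¬ (q : ℤ) ∣ a) :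
    v.valuation F (a : F) = 1 := by
  refine le_antisymm (w_int_le a) ?_
  by_contra hcon
  push Not at hcon
  have hcop : IsCoprime (q : ℤ) a :=
    (Prime.coprime_iff_not_dvd (Nat.prime_iff_prime_int.1 hq)).2 ha
  obtain ⟨x, y, hxy⟩ := hcop
  have h1 : (1 : F) = (x : F) * (q : F) + (y : F) * (a : F) := by
    have := congrArg (fun z : ℤ => (z : F)) hxy
    push_cast at this
    exact this.symm
  have h2 : v.valuation F (1 : F) < 1 := by
    rw [h1]
    refine (v.valuation F).map_add_lt ?_ ?_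
    · rw [map_mul]
      exact mul_lt_one_of_le_of_lt' (w_int_le x) hv
    · rw [map_mul]
      exact mul_lt_one_of_le_of_lt' (w_int_le y) hcon
  rw [map_one] at h2
  exact lt_irrefl _ h2

lemma w_int_eq (hq : q.Prime) (hv : v.valuation F (q : F) < 1) {a : ℤ} (ha : a ≠ 0) :
    v.valuation F (a : F) = v.valuation F (q : F) ^ (padicValInt q a) := by
  have := Fact.mk hq
  obtain ⟨m, hm⟩ : (q : ℤ) ^ padicValInt q a ∣ a := padicValInt_dvd a
  have hnd : ¬ (q : ℤ) ∣ m := by
    rintro ⟨k, rfl⟩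
    have h1 : (q : ℤ) ^ (padicValInt q a + 1) ∣ a := ⟨k, by rw [pow_succ]; linarith⟩
    rcases (padicValInt_dvd_iff (p := q) _ a).1 h1 with h | h
    · exact ha h
    · omega
  conv_lhs => rw [hm]
  push_cast
  rw [map_mul, map_pow, w_int hq hv hnd, mul_one]

lemma w_rat (hq : q.Prime) (hv : v.valuation F (q : F) < 1) {r : ℚ} (hr : r ≠ 0) :
    v.valuation F (r : F) = v.valuation F (q : F) ^ (padicValRat q r) := by
  have hq0 : v.valuation F (q : F) ≠ 0 :=
    (Valuation.ne_zero_iff _).2 (by exact_mod_cast hq.ne_zero)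
  have h1 : (r : F) = ((r.num : ℤ) : F) / ((r.den : ℤ) : F) := by
    conv_lhs => rw [← Rat.num_div_den r]
    push_cast
    rfl
  rw [h1, map_div₀, w_int_eq hq hv (Rat.num_ne_zero.2 hr),
    w_int_eq hq hv (by exact_mod_cast r.den_ne_zero), padicValRat, zpow_sub₀ hq0]
  simp only [zpow_natCast, padicValInt.of_nat]

lemma w_lt_of (hq : q.Prime) (hv : v.valuation F (q : F) < 1) {m n : ℤ} (h : m < n) :
    v.valuation F (q : F) ^ n < v.valuation F (q : F) ^ m := by
  have hq0 : v.valuation F (q : F) ≠ 0 :=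
    (Valuation.ne_zero_iff _).2 (by exact_mod_cast hq.ne_zero)
  exact zpow_lt_zpow_right_of_lt_one₀ (zero_lt_iff.2 hq0) hv h

end place

section loc
variable {F : Type} [Field F] [NumberField F]

lemma near_cube (M : Mu 3 F) (w : Valuation F Z0) {b κ X : F} (hb : b ≠ 0)
    (hX : X ^ 3 = κ * X ^ 2 + b) (h : w κ ^ 3 < w b * w (M.l ^ 3) ^ 3) :
    Units.mk0 b hb ∈ LS M w := by
  have hl1 : w (M.l ^ 3) ≤ 1 := M.val_lp_le w
  have hl0 : w (M.l ^ 3) ≠ 0 := M.val_lp_ne w
  have hb0 : w b ≠ 0 := (Valuation.ne_zero_iff w).2 hb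
  have h1 : w κ ^ 3 < w b := h.trans_le (by
    calc w b * w (M.l ^ 3) ^ 3 ≤ w b * 1 := mul_le_mul_right (pow_le_one' hl1 3) _
      _ = w b := mul_one _)
  have hX3 : w X ^ 3 = w b := by
    rcases lt_trichotomy (w X ^ 3) (w b) with h2 | h2 | h2
    · exfalso
      have e1 : b = X ^ 3 - κ * X ^ 2 := by linear_combination -hX
      have h3 : w b = w κ * w X ^ 2 := by
        have e2 : κ * X ^ 2 = -b + X ^ 3 := by linear_combination -hX
        have h4 : w (κ * X ^ 2) = w b := by
          rw [e2, Valuation.map_add_eq_of_lt_left]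
          · rw [Valuation.map_neg]
          · rw [map_pow, Valuation.map_neg]; exact h2
        rw [← h4, map_mul, map_pow]
      have h5 : w b ^ 3 < w b ^ 3 := by
        calc w b ^ 3 = w κ ^ 3 * (w X ^ 3) ^ 2 := by
              rw [h3, mul_pow, ← pow_mul, ← pow_mul]
          _ ≤ w κ ^ 3 * (w b) ^ 2 := mul_le_mul_right (pow_le_pow_left₀ zero_le' h2.le 2) _
          _ < w b * w b ^ 2 := mul_lt_mul_of_pos_right h1 (zero_lt_iff.2 (pow_ne_zero _ hb0))
          _ = w b ^ 3 := (pow_succ' _ _).symm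
      exact lt_irrefl _ h5
    · exact h2
    · exfalso
      have hX0 : w X ≠ 0 := by
        intro h3
        rw [h3] at h2
        simp at h2
      have h3 : w X ^ 3 = w κ * w X ^ 2 := by
        have e2 : κ * X ^ 2 = X ^ 3 + -b := by linear_combination -hX
        have h4 : w (κ * X ^ 2) = w (X ^ 3) := by
          rw [e2, Valuation.map_add_eq_of_lt_left]
          rw [map_pow, Valuation.map_neg]; exact h2
        rw [← map_pow, ← h4, map_mul, map_pow]
      have h5 : w X = w κ := by
        have h6 : w X * w X ^ 2 = w κ * w X ^ 2 := by rw [← h3, ← pow_succ']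
        exact mul_right_cancel₀ (pow_ne_zero 2 hX0) h6
      rw [h5] at h2
      exact lt_irrefl _ (h1.trans h2)
  have hX0 : X ≠ 0 := by
    rintro rfl
    rw [map_zero, zero_pow (by norm_num)] at hX3
    exact hb0 hX3.symm
  refine mem_LS.2 ⟨Units.mk0 X hX0, ?_⟩
  rw [Units.val_mk0, Units.val_mk0]
  have e : b / X ^ 3 - 1 = -(κ / X) := by
    field_simp
    linear_combination -hX
  rw [e, Valuation.map_neg, map_div₀]
  have hwX : w X ≠ 0 := (Valuation.ne_zero_iff w).2 hX0
  refine lt_of_pow_lt_pow_left₀ 3 zero_le' ?_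
  rw [div_pow, hX3, div_lt_iff₀ (zero_lt_iff.2 hb0)]
  rw [mul_comm]
  exact h

lemma w_zeta_le (M : Mu 3 F) (w : Valuation F Z0) : w M.ζ ≤ 1 := (M.val_zeta w).le

lemma w_a7 (M : Mu 3 F) (v : HeightOneSpectrum (𝓞 F)) (h7 : v.valuation F (7 : F) = 1) :
    v.valuation F (a7 M : F) = 1 := by
  set w := v.valuation F with hw
  have hz := zeta_eq M
  have hint : ∀ (a b : ℤ) (z : F), w z ≤ 1 → w ((a : F) + (b : F) * z) ≤ 1 := by
    intro a b z hz1
    refine w.map_add_le (w_int_le a) ?_
    rw [map_mul]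
    exact mul_le_one' (w_int_le b) hz1
  have h1 : w (14 + 21 * M.ζ) ≤ 1 := by
    have := hint 14 21 M.ζ (w_zeta_le M w)
    push_cast at this
    exact this
  have h2 : w (14 + 21 * M.ζ ^ 2) ≤ 1 := by
    have := hint 14 21 (M.ζ ^ 2) (by rw [map_pow]; exact pow_le_one' (w_zeta_le M w) 2)
    push_cast at this
    exact this
  have h3 : (14 + 21 * M.ζ) * (14 + 21 * M.ζ ^ 2) = 7 ^ 3 := by
    linear_combination (-147 + 441 * M.ζ) * hz
  have h4 : w (14 + 21 * M.ζ) * w (14 + 21 * M.ζ ^ 2) = 1 := by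
    rw [← map_mul, h3, map_pow, h7, one_pow]
  change w (14 + 21 * M.ζ) = 1
  refine le_antisymm h1 ?_
  calc (1 : Z0) = w (14 + 21 * M.ζ) * w (14 + 21 * M.ζ ^ 2) := h4.symm
    _ ≤ w (14 + 21 * M.ζ) * 1 := mul_le_mul_right h2 _
    _ = _ := mul_one _

/-- the local conditions -/
def Cond (q : ℕ) (b κ : ℚ) : Prop :=
  (q ≠ 2 → q ≠ 3 → q ≠ 7 → Inert7 q → ¬ (3 : ℤ) ∣ padicValRat q b →
    κ = 0 ∨ padicValRat q b < 3 * padicValRat q κ) ∧
  ((q = 2 ∨ q = 3 ∨ q = 7) → κ = 0 ∨ padicValRat q b + 5 < 3 * padicValRat q κ)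

lemma alpha_id {R : Type*} [CommRing R] (w n : R) (hw : w ^ 2 + w + 1 = 0) :
    (14 + 21 * w) - ((-1 - 3 * w) + (2 + w) * n + (1 + 2 * w) * n ^ 2) ^ 3 =
      (n ^ 3 + n ^ 2 - 2 * n - 1) * ((-15 - 9 * n + 15 * n ^ 2 + 3 * n ^ 3) +
        (-3 - 27 * n + 3 * n ^ 2 + 6 * n ^ 3) * w) := by
  linear_combination ((-45)*w^0*n^1 + (21)*w^0*n^2 + (61)*w^0*n^3 + (-9)*w^0*n^4 + (-24)*w^0*n^5 + (-4)*w^0*n^6 + (27)*w^1*n^0 + (-27)*w^1*n^1 + (-45)*w^1*n^2 + (35)*w^1*n^3 + (30)*w^1*n^4 + (-12)*w^1*n^5 + (-8)*w^1*n^6) * hw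

theorem loc (M : Mu 3 F) {b κ : ℚ} (hb : b ≠ 0) {X : F} (hX : X ^ 3 = (κ : F) * X ^ 2 + (b : F))
    (hbF : (b : F) ≠ 0) (hC : ∀ q : ℕ, q.Prime → Cond q b κ) (v : HeightOneSpectrum (𝓞 F)) :
    Units.mk0 (b : F) hbF ∈ NF M (a7 M) ⊔ LS M (v.valuation F) := by
  obtain ⟨q, hq, hv⟩ := exists_char v
  have hq0 : v.valuation F (q : F) ≠ 0 :=
    (Valuation.ne_zero_iff _).2 (by exact_mod_cast hq.ne_zero)
  have hwb : v.valuation F (b : F) = v.valuation F (q : F) ^ padicValRat q b := w_rat hq hv hb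
  have hwb0 : v.valuation F (b : F) ≠ 0 := (Valuation.ne_zero_iff _).2 hbF
  have hl0 : v.valuation F (M.l ^ 3) ≠ 0 := M.val_lp_ne _
  have hprime : ∀ p : ℕ, p.Prime → q ≠ p → v.valuation F (p : F) = 1 := by
    intro p hp hqp
    have h1 : ¬ (q : ℤ) ∣ (p : ℤ) := by
      intro h
      exact hqp ((Nat.prime_dvd_prime_iff_eq hq hp).1 (by exact_mod_cast h))
    have := w_int hq hv h1
    push_cast at this
    exact this
  by_cases hbad : q = 2 ∨ q = 3 ∨ q = 7
  · -- near the bad primes `b` is a local cube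
    apply Subgroup.mem_sup_right
    apply near_cube M _ hbF hX
    rcases (hC q hq).2 hbad with h | h
    · rw [h, Rat.cast_zero, map_zero, zero_pow (by norm_num)]
      exact zero_lt_iff.2 (mul_ne_zero hwb0 (pow_ne_zero _ hl0))
    · by_cases hκ : κ = 0
      · rw [hκ, Rat.cast_zero, map_zero, zero_pow (by norm_num)]
        exact zero_lt_iff.2 (mul_ne_zero hwb0 (pow_ne_zero _ hl0))
      · rw [w_rat hq hv hκ, hwb]
        have h3 : v.valuation F (q : F) ≤ v.valuation F (3 : F) := by
          by_cases h3 : q = 3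
          · rw [h3]; norm_num
          · have := hprime 3 Nat.prime_three h3
            push_cast at this
            rw [this]; exact hv.le
        have hl2 : v.valuation F (3 : F) = v.valuation F M.l ^ 2 := by
          have := M.val_p (v.valuation F)
          push_cast at this
          exact this
        have hl1 : v.valuation F M.l ≤ 1 := M.val_l_le _
        have h5 : v.valuation F (q : F) ^ (5 : ℤ) ≤ v.valuation F (M.l ^ 3) ^ 3 := by
          calc v.valuation F (q : F) ^ (5 : ℤ) = v.valuation F (q : F) ^ 5 := by norm_cast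
            _ ≤ v.valuation F (3 : F) ^ 5 := pow_le_pow_left₀ zero_le' h3 5
            _ = v.valuation F M.l ^ 9 * v.valuation F M.l := by
                rw [hl2, ← pow_mul, ← pow_succ]
            _ ≤ v.valuation F M.l ^ 9 * 1 := mul_le_mul_right hl1 _
            _ = v.valuation F (M.l ^ 3) ^ 3 := by rw [map_pow, mul_one, ← pow_mul]
        calc (v.valuation F (q : F) ^ padicValRat q κ) ^ 3
            = v.valuation F (q : F) ^ (3 * padicValRat q κ) := by
              rw [← zpow_natCast, ← zpow_mul]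
              congr 1
              push_cast
              ring
          _ < v.valuation F (q : F) ^ (padicValRat q b + 5) := w_lt_of hq hv h
          _ = v.valuation F (q : F) ^ padicValRat q b * v.valuation F (q : F) ^ (5 : ℤ) :=
              zpow_add₀ hq0 _ _
          _ ≤ v.valuation F (q : F) ^ padicValRat q b * v.valuation F (M.l ^ 3) ^ 3 :=
              mul_le_mul_right h5 _
  · push Not at hbad
    obtain ⟨hq2, hq3, hq7⟩ := hbad
    have h3 : v.valuation F ((3 : ℕ) : F) = 1 := hprime 3 Nat.prime_three hq3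
    have h7 : v.valuation F (7 : F) = 1 := by
      have := hprime 7 (by norm_num) hq7
      push_cast at this
      exact this
    have ha7 := w_a7 M v h7
    by_cases hdiv : (3 : ℤ) ∣ padicValRat q b
    · obtain ⟨m, hm⟩ := hdiv
      have hu0 : b / ((q : ℚ) ^ m) ^ 3 ≠ 0 :=
        div_ne_zero hb (pow_ne_zero _ (zpow_ne_zero _ (by exact_mod_cast hq.ne_zero)))
      have hqF : ((q : F) ^ m) ≠ 0 := zpow_ne_zero _ (by exact_mod_cast hq.ne_zero)
      have hu1 : (b : F) / ((q : F) ^ m) ^ 3 ≠ 0 := div_ne_zero hbF (pow_ne_zero _ hqF)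
      have hwu : v.valuation F ((b : F) / ((q : F) ^ m) ^ 3) = 1 := by
        rw [map_div₀, hwb, hm, map_pow, map_zpow₀, ← zpow_natCast, ← zpow_mul]
        have e : m * ((3 : ℕ) : ℤ) = 3 * m := by push_cast; ring
        rw [e, div_self]
        exact zpow_ne_zero _ hq0
      have h4 := unit_norm (M := M) v h3 (a7 M) (Units.mk0 _ hu1) ha7
        (by rw [Units.val_mk0]; exact hwu)
      have h5 : (Units.mk0 _ hqF) ^ 3 ∈ LS M (v.valuation F) := pow_mem_LS _
      have e : Units.mk0 (b : F) hbF = Units.mk0 _ hu1 * (Units.mk0 _ hqF) ^ 3 := by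
        ext
        rw [Units.val_mul, Units.val_pow_eq_pow_val, Units.val_mk0, Units.val_mk0, Units.val_mk0]
        rw [div_mul_cancel₀ _ (pow_ne_zero _ hqF)]
      rw [e]
      exact Subgroup.mul_mem _ h4 (Subgroup.mem_sup_right h5)
    · by_cases hin : Inert7 q
      · apply Subgroup.mem_sup_right
        apply near_cube M _ hbF hX
        have hl1 : v.valuation F (M.l ^ 3) = 1 := val_lp_eq_one M h3
        rw [hl1, one_pow, mul_one]
        rcases (hC q hq).1 hq2 hq3 hq7 hin hdiv with h | h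
        · rw [h, Rat.cast_zero, map_zero, zero_pow (by norm_num)]
          exact zero_lt_iff.2 hwb0
        · by_cases hκ : κ = 0
          · rw [hκ, Rat.cast_zero, map_zero, zero_pow (by norm_num)]
            exact zero_lt_iff.2 hwb0
          · rw [w_rat hq hv hκ, hwb, ← zpow_natCast, ← zpow_mul]
            apply w_lt_of hq hv
            push_cast
            linarith
      · -- `q` splits
        have hsplit : ∃ t : ZMod q, t ^ 3 + t ^ 2 - 2 * t - 1 = 0 := by
          by_contra hcon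
          push Not at hcon
          exact hin ⟨hq, hcon⟩
        obtain ⟨t, ht⟩ := hsplit
        have := Fact.mk hq
        obtain ⟨n, rfl⟩ : ∃ n : ℤ, (n : ZMod q) = t := ⟨t.val, by
          push_cast
          exact ZMod.natCast_zmod_val t⟩
        have hn : (q : ℤ) ∣ n ^ 3 + n ^ 2 - 2 * n - 1 := by
          rw [← ZMod.intCast_zmod_eq_zero_iff_dvd]
          push_cast
          exact ht
        have hnw : v.valuation F ((n : F) ^ 3 + (n : F) ^ 2 - 2 * (n : F) - 1) < 1 := by
          obtain ⟨k, hk⟩ := hn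
          have e : (n : F) ^ 3 + (n : F) ^ 2 - 2 * (n : F) - 1 = (q : F) * (k : F) := by
            have := congrArg (fun z : ℤ => (z : F)) hk
            push_cast at this
            exact this
          rw [e, map_mul]
          exact mul_lt_one_of_lt_of_le' hv (w_int_le k)
        have hLS : a7 M ∈ LS M (v.valuation F) := by
          set w := v.valuation F with hw
          have hz := zeta_eq M
          have hzle : w M.ζ ≤ 1 := w_zeta_le M w
          have hint : ∀ (a b : ℤ), w ((a : F) + (b : F) * M.ζ) ≤ 1 := by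
            intro a b
            refine w.map_add_le (w_int_le a) ?_
            rw [map_mul]
            exact mul_le_one' (w_int_le b) hzle
          set α : F := (-1 - 3 * M.ζ) + (2 + M.ζ) * (n : F) + (1 + 2 * M.ζ) * (n : F) ^ 2 with hα
          have hαle : w α ≤ 1 := by
            have e : α = (((-1 + 2 * n + n ^ 2 : ℤ) : F) + ((-3 + n + 2 * n ^ 2 : ℤ) : F) * M.ζ) := by
              rw [hα]; push_cast; ring
            rw [e]
            exact hint _ _
          obtain ⟨G, hG1, hG⟩ : ∃ G : F, w G ≤ 1 ∧ (a7 M : F) - α ^ 3 =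
              ((n : F) ^ 3 + (n : F) ^ 2 - 2 * (n : F) - 1) * G := by
            refine ⟨_, ?_, alpha_id M.ζ (n : F) hz⟩
            have := hint (-15 - 9 * n + 15 * n ^ 2 + 3 * n ^ 3) (-3 - 27 * n + 3 * n ^ 2 + 6 * n ^ 3)
            push_cast at this
            exact this
          obtain ⟨s, hs⟩ := exists_residue v hαle
          refine LS_of_residue h3 ha7 (s := s) ?_
          have e : (a7 M : F) - algebraMap (𝓞 F) F s ^ 3 =
              ((a7 M : F) - α ^ 3) + -(algebraMap (𝓞 F) F s ^ 3 - α ^ 3) := by ring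
          rw [e]
          refine w.map_add_lt ?_ ?_
          · rw [hG, map_mul]
            exact mul_lt_one_of_lt_of_le' hnw hG1
          · rw [Valuation.map_neg]
            exact pow_diff_lt (v.valuation_le_one s) hαle hs 3
        rw [NF_sup_of_mem hLS]
        exact Subgroup.mem_top _

end loc

end Vale.Agent.P027.L
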