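import Vale.Agent.P027.L.C2

/-! The cubic check: local conditions imply the existence of a global solution. -/

set_option linter.all false

namespace Vale.Agent.P027.L

open Polynomial NumberField IsDedekindDomain Vale.Agent.P011.ArP
open Vale.Agent.P011.Arith (Z0)

/-- solutions over a number field containing the cube roots of unity -/
lemma glob_F {F : Type} [Field F] [NumberField F] (M : Mu 3 F) {b κ : ℚ} (hb : b ≠ 0) {t : F}
    (hX : t ^ 3 = (κ : F) * t ^ 2 + (b : F)) (hC : ∀ q : ℕ, q.Prime → Cond q b κ) :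
    ∃ x y z : F, N7 x y z = (b : F) := by
  have hbF : (b : F) ≠ 0 := by exact_mod_cast hb
  exact norm_of_NF M (hasse_norm M (a7 M) (Units.mk0 (b : F) hbF) (loc M hb hX hbF hC))

lemma mu_of {F : Type} [Field F] [CharZero F] {z : F} (hz : z ^ 2 + z + 1 = 0) : Nonempty (Mu 3 F) := by
  have h3 : z ^ 3 = 1 := by linear_combination (z - 1) * hz
  have h1 : z ≠ 1 := by
    rintro rfl
    norm_num at hz
  have := Fact.mk Nat.prime_three
  have h4 : orderOf z = 3 := orderOf_eq_prime h3 h1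
  exact ⟨⟨z, h4 ▸ IsPrimitiveRoot.orderOf z, Nat.prime_three, by norm_num⟩⟩

/-- solutions over an arbitrary number field -/
lemma glob_K {K : Type} [Field K] [NumberField K] {b κ : ℚ} (hb : b ≠ 0) {t : K}
    (hX : t ^ 3 = (κ : K) * t ^ 2 + (b : K)) (hC : ∀ q : ℕ, q.Prime → Cond q b κ) :
    ∃ x y z : K, N7 x y z = (b : K) := by
  by_cases h : ∃ z : K, z ^ 2 + z + 1 = 0
  · obtain ⟨z, hz⟩ := h
    obtain ⟨M⟩ := mu_of hz
    exact glob_F M hb hX hC
  · push Not at h
    set f : K[X] := X ^ 2 + X + 1 with hf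
    have hm : f.Monic := by rw [hf]; monicity!
    have hd : f.natDegree = 2 := by rw [hf]; compute_degree!
    have hirr : Irreducible f := by
      rw [Polynomial.irreducible_iff_roots_eq_zero_of_degree_le_three (by omega) (by omega)]
      rw [Multiset.eq_zero_iff_forall_notMem]
      intro z hz
      rw [mem_roots hm.ne_zero, IsRoot, hf] at hz
      simp only [eval_add, eval_pow, eval_X, eval_one] at hz
      exact h z hz
    have : Fact (Irreducible f) := ⟨hirr⟩
    have : CharZero (AdjoinRoot f) := charZero_of_injective_algebraMap (R := K) (algebraMap K (AdjoinRoot f)).injective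
    have hfd : FiniteDimensional K (AdjoinRoot f) := (AdjoinRoot.powerBasis hirr.ne_zero).finite
    have : FiniteDimensional ℚ (AdjoinRoot f) := FiniteDimensional.trans ℚ K (AdjoinRoot f)
    have : NumberField (AdjoinRoot f) := ⟨⟩
    have hr : (AdjoinRoot.root f) ^ 2 + AdjoinRoot.root f + 1 = 0 := by
      have h1 : eval₂ (AdjoinRoot.of f) (AdjoinRoot.root f) f = 0 := AdjoinRoot.eval₂_root f
      conv_lhs at h1 => arg 3; rw [hf]
      simpa only [eval₂_add, eval₂_pow, eval₂_X, eval₂_one] using h1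
    obtain ⟨M⟩ := mu_of hr
    have hX' : (AdjoinRoot.of f t) ^ 3 = (κ : AdjoinRoot f) * (AdjoinRoot.of f t) ^ 2 +
        (b : AdjoinRoot f) := by
      have := congrArg (AdjoinRoot.of f) hX
      simpa only [map_pow, map_add, map_mul, map_ratCast] using this
    obtain ⟨x, y, z, hxyz⟩ := glob_F M hb hX' hC
    refine descend f hf (b := (b : K)) (by exact_mod_cast hb) ⟨x, y, z, ?_⟩
    rw [hxyz, map_ratCast]

/-- solutions modulo an irreducible factor -/
lemma mod_irr {b κ : ℚ} (hb : b ≠ 0) (hC : ∀ q : ℕ, q.Prime → Cond q b κ) {g : ℚ[X]}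
    (hg : Irreducible g) (hd : g ∣ X ^ 3 - C κ * X ^ 2 - C b) :
    ∃ x y z : ℚ[X], g ∣ N7 x y z - C b := by
  have : Fact (Irreducible g) := ⟨hg⟩
  have : CharZero (AdjoinRoot g) := charZero_of_injective_algebraMap (R := ℚ) (algebraMap ℚ (AdjoinRoot g)).injective
  have hfd : FiniteDimensional ℚ (AdjoinRoot g) := (AdjoinRoot.powerBasis hg.ne_zero).finite
  have : NumberField (AdjoinRoot g) := ⟨⟩
  obtain ⟨h, hh⟩ := hd
  have e : ∀ r : ℚ, (AdjoinRoot.mk g (C r)) = (r : AdjoinRoot g) := by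
    intro r
    rw [AdjoinRoot.mk_C]
    exact map_ratCast _ r
  have hX : (AdjoinRoot.root g) ^ 3 = (κ : AdjoinRoot g) * (AdjoinRoot.root g) ^ 2 + (b : AdjoinRoot g) := by
    have h1 := congrArg (AdjoinRoot.mk g) hh
    rw [map_mul, AdjoinRoot.mk_self, zero_mul] at h1
    simp only [map_sub, map_pow, map_mul, AdjoinRoot.mk_X, e] at h1
    linear_combination h1
  obtain ⟨x, y, z, hxyz⟩ := glob_K hb hX hC
  obtain ⟨x, rfl⟩ := AdjoinRoot.mk_surjective x
  obtain ⟨y, rfl⟩ := AdjoinRoot.mk_surjective y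
  obtain ⟨z, rfl⟩ := AdjoinRoot.mk_surjective z
  refine ⟨x, y, z, ?_⟩
  rw [← AdjoinRoot.mk_eq_zero, map_sub, N7_hom, hxyz, e, sub_self]

/-- solutions modulo a squarefree divisor -/
lemma mod_sqf {b κ : ℚ} (hb : b ≠ 0) (hC : ∀ q : ℕ, q.Prime → Cond q b κ) (n : ℕ) :
    ∀ g : ℚ[X], g.natDegree ≤ n → Squarefree g → g ∣ X ^ 3 - C κ * X ^ 2 - C b →
      ∃ x y z : ℚ[X], g ∣ N7 x y z - C b := by
  induction n with
  | zero =>
    intro g hg hs hd
    have hg0 : g ≠ 0 := hs.ne_zero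
    refine ⟨0, 0, 0, ?_⟩
    have h1 := eq_C_of_natDegree_eq_zero (Nat.le_zero.1 hg)
    have h2 : g.coeff 0 ≠ 0 := by
      intro h
      rw [h, C_0] at h1
      exact hg0 h1
    rw [h1]
    exact (isUnit_C.2 (isUnit_iff_ne_zero.2 h2)).dvd
  | succ n ih =>
    intro g hg hs hd
    have hg0 : g ≠ 0 := hs.ne_zero
    by_cases hu : IsUnit g
    · exact ⟨0, 0, 0, hu.dvd⟩
    obtain ⟨p, hp, h, rfl⟩ := WfDvdMonoid.exists_irreducible_factor hu hg0
    have hp0 := hp.ne_zero
    have hh0 : h ≠ 0 := right_ne_zero_of_mul hg0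
    have hpd : 1 ≤ p.natDegree := by
      by_contra hcon
      have h1 := eq_C_of_natDegree_eq_zero (by omega : p.natDegree = 0)
      have h2 : p.coeff 0 ≠ 0 := by
        intro h
        rw [h, C_0] at h1
        exact hp0 h1
      apply hp.not_isUnit
      rw [h1]
      exact isUnit_C.2 (isUnit_iff_ne_zero.2 h2)
    have hhd : h.natDegree ≤ n := by
      rw [natDegree_mul hp0 hh0] at hg
      omega
    have hcop : IsCoprime p h := (squarefree_mul_iff.1 hs).1.isCoprime
    obtain ⟨x, y, z, h1⟩ := mod_irr hb hC hp ((dvd_mul_right p h).trans hd)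
    obtain ⟨x', y', z', h2⟩ := ih h hhd (hs.squarefree_of_dvd (dvd_mul_left h p))
      ((dvd_mul_left h p).trans hd)
    obtain ⟨u, v, huv⟩ := hcop
    -- `u p + v h = 1`
    have crt : ∀ s t : ℚ[X], ∃ r : ℚ[X], p ∣ r - s ∧ h ∣ r - t := by
      intro s t
      refine ⟨s * (v * h) + t * (u * p), ⟨(t - s) * u, ?_⟩, ⟨(s - t) * v, ?_⟩⟩
      · linear_combination s * huv
      · linear_combination t * huv
    obtain ⟨X1, hx1, hx2⟩ := crt x x'
    obtain ⟨Y1, hy1, hy2⟩ := crt y y'
    obtain ⟨Z1, hz1, hz2⟩ := crt z z'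
    have cong : ∀ (m a b c a' b' c' : ℚ[X]), m ∣ a - a' → m ∣ b - b' → m ∣ c - c' →
        m ∣ N7 a b c - N7 a' b' c' := by
      intro m a b c a' b' c' ha hb hc
      have ea : (Ideal.Quotient.mk (Ideal.span {m})) a = Ideal.Quotient.mk _ a' := by
        rw [Ideal.Quotient.eq, Ideal.mem_span_singleton]; exact ha
      have eb : (Ideal.Quotient.mk (Ideal.span {m})) b = Ideal.Quotient.mk _ b' := by
        rw [Ideal.Quotient.eq, Ideal.mem_span_singleton]; exact hb
      have ec : (Ideal.Quotient.mk (Ideal.span {m})) c = Ideal.Quotient.mk _ c' := by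
        rw [Ideal.Quotient.eq, Ideal.mem_span_singleton]; exact hc
      rw [← Ideal.mem_span_singleton, ← Ideal.Quotient.eq, N7_hom, N7_hom, ea, eb, ec]
    refine ⟨X1, Y1, Z1, ?_⟩
    have hp' : p ∣ N7 X1 Y1 Z1 - C b := by
      have := dvd_add (cong p X1 Y1 Z1 x y z hx1 hy1 hz1) h1
      rwa [sub_add_sub_cancel] at this
    have hh' : h ∣ N7 X1 Y1 Z1 - C b := by
      have := dvd_add (cong h X1 Y1 Z1 x' y' z' hx2 hy2 hz2) h2
      rwa [sub_add_sub_cancel] at this
    exact IsCoprime.mul_dvd ⟨u, v, huv⟩ hp' hh'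

/-- the cubic has no double root when the condition at three holds -/
lemma sqf_cubic {b κ : ℚ} (hb : b ≠ 0) (h : 27 * b + 4 * κ ^ 3 ≠ 0) :
    Squarefree (X ^ 3 - C κ * X ^ 2 - C b : ℚ[X]) := by
  apply Polynomial.Separable.squarefree
  rw [Polynomial.Separable]
  -- Bezout identity
  have hd : derivative (X ^ 3 - C κ * X ^ 2 - C b : ℚ[X]) = 3 * X ^ 2 - 2 * C κ * X := by
    simp only [derivative_sub, derivative_X_pow, derivative_C_mul, derivative_C, derivative_mul]
    simp only [Nat.cast_ofNat, map_ofNat, C_ofNat]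
    ring
  rw [hd]
  have hc : -(b * (4 * κ ^ 3 + 27 * b)) ≠ 0 :=
    neg_ne_zero.2 (mul_ne_zero hb (by rw [add_comm]; exact h))
  set c := -(b * (4 * κ ^ 3 + 27 * b)) with hcdef
  have hcC : C c⁻¹ * C c = (1 : ℚ[X]) := by
    rw [← C_mul, inv_mul_cancel₀ hc, C_1]
  have hcC2 : (C c : ℚ[X]) = -(C b * (4 * C κ ^ 3 + 27 * C b)) := by
    rw [hcdef]
    simp only [C_neg, C_mul, C_add, C_pow, C_ofNat]
  refine ⟨C c⁻¹ * (4 * C κ ^ 3 + 27 * C b - 6 * C κ ^ 2 * X),
    -(C c⁻¹ * (-2 * C κ ^ 2 * X ^ 2 + (2 * C κ ^ 3 + 9 * C b) * X - 3 * C b * C κ)), ?_⟩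
  rw [← hcC, hcC2]
  ring

theorem p3_of_cond {b κ : ℚ} (hb : b ≠ 0) (hC : ∀ q : ℕ, q.Prime → Cond q b κ) : P3 b κ := by
  have := Fact.mk Nat.prime_three
  have hne : 27 * b + 4 * κ ^ 3 ≠ 0 := by
    intro h0
    by_cases hκ : κ = 0
    · rw [hκ] at h0
      apply hb
      linarith
    rcases (hC 3 Nat.prime_three).2 (by norm_num) with h | h
    · exact hκ h
    · have e : 27 * b = -4 * κ ^ 3 := by linarith
      have h1 := congrArg (padicValRat 3) e
      rw [padicValRat.mul (by norm_num) hb, padicValRat.mul (by norm_num) (pow_ne_zero _ hκ),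
        padicValRat.pow] at h1
      have h27 : padicValRat 3 (27 : ℚ) = 3 := by
        have : (27 : ℚ) = ((3 : ℕ) : ℚ) ^ 3 := by norm_num
        rw [this, padicValRat.pow, padicValRat.self (by norm_num)]
        norm_num
      have h4 : padicValRat 3 (-4 : ℚ) = 0 := by
        rw [padicValRat.neg]
        have := padicValRat.of_nat (p := 3) (n := 4)
        rw [padicValNat.eq_zero_of_not_dvd (by norm_num)] at this
        exact_mod_cast this
      rw [h27, h4] at h1
      push_cast at h1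
      linarith
  obtain ⟨x, y, z, h⟩ := mod_sqf hb hC _ _ le_rfl (sqf_cubic hb hne) dvd_rfl
  obtain ⟨g, hg⟩ := h
  exact ⟨x, y, z, g, by rw [← hg]; ring⟩

end Vale.Agent.P027.L
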