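import Vale.Agent.P027.L.C3

/-! Completeness of the cubic check. -/

set_option linter.all false

namespace Vale.Agent.P027.L

open Polynomial

/-- removing cubes from an integer -/
lemma cubefree_nat (N : ℕ) : ∀ n : ℕ, n ≠ 0 → n ≤ N → ∃ m t : ℕ, n = m * t ^ 3 ∧ t ≠ 0 ∧ m ≠ 0 ∧
    ∀ q : ℕ, q.Prime → ¬ q ^ 3 ∣ m := by
  induction N with
  | zero => intro n h0 h1; omega
  | succ N ih =>
    intro n h0 h1
    by_cases h : ∃ q : ℕ, q.Prime ∧ q ^ 3 ∣ n
    · obtain ⟨q, hq, n', rfl⟩ := h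
      have hn' : n' ≠ 0 := right_ne_zero_of_mul h0
      have h2 : 2 ≤ q := hq.two_le
      have h3 : n' ≤ N := by
        have : 2 * n' ≤ q ^ 3 * n' := Nat.mul_le_mul_right _ (by nlinarith [pow_pos hq.pos 2, sq_nonneg q])
        omega
      obtain ⟨m, t, hmt, ht, hm, hmq⟩ := ih n' hn' h3
      exact ⟨m, q * t, by rw [hmt]; ring, mul_ne_zero hq.ne_zero ht, hm, hmq⟩
    · push Not at h
      exact ⟨n, 1, by simp, one_ne_zero, h0, h⟩

lemma cubefree_rat {r : ℚ} (hr : r ≠ 0) : ∃ m : ℤ, ∃ t : ℚ, m ≠ 0 ∧ t ≠ 0 ∧ r = m * t ^ 3 ∧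
    ∀ q : ℕ, q.Prime → padicValRat q (m : ℚ) = 0 ∨ padicValRat q (m : ℚ) = 1 ∨
      padicValRat q (m : ℚ) = 2 := by
  have hd : (r.den : ℚ) ≠ 0 := by exact_mod_cast r.den_ne_zero
  have hN0 : (r.num * (r.den : ℤ) ^ 2).natAbs ≠ 0 :=
    Int.natAbs_ne_zero.2 (mul_ne_zero (Rat.num_ne_zero.2 hr)
      (pow_ne_zero _ (by exact_mod_cast r.den_ne_zero)))
  obtain ⟨m, t, hmt, ht, hm, hmq⟩ := cubefree_nat _ _ hN0 le_rfl
  obtain ⟨ε, hε, hεe⟩ : ∃ ε : ℤ, (ε = 1 ∨ ε = -1) ∧
      r.num * (r.den : ℤ) ^ 2 = ε * ((r.num * (r.den : ℤ) ^ 2).natAbs : ℤ) := by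
    rcases Int.natAbs_eq (r.num * (r.den : ℤ) ^ 2) with h | h
    · exact ⟨1, Or.inl rfl, by rw [one_mul]; exact h⟩
    · exact ⟨-1, Or.inr rfl, by rw [neg_one_mul]; exact h⟩
  refine ⟨ε * m, (t : ℚ) / r.den, ?_, div_ne_zero (by exact_mod_cast ht) hd, ?_, ?_⟩
  · rcases hε with h | h <;> rw [h] <;> simpa using hm
  · have h1 : r = (r.num * (r.den : ℤ) ^ 2 : ℤ) / (r.den : ℚ) ^ 3 := by
      push_cast
      rw [eq_div_iff (pow_ne_zero _ hd)]
      have := Rat.mul_den_eq_num r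
      linear_combination (r.den : ℚ) ^ 2 * this
    have h2 : ((r.num * (r.den : ℤ) ^ 2 : ℤ) : ℚ) = ε * (m * t ^ 3 : ℚ) := by
      rw [hεe, hmt]
      push_cast
      ring
    conv_lhs => rw [h1]
    rw [h2]
    push_cast
    field_simp
  · intro q hq
    have := Fact.mk hq
    have e : padicValRat q ((ε * m : ℤ) : ℚ) = (padicValNat q m : ℤ) := by
      rcases hε with h | h <;> rw [h] <;> push_cast
      · rw [one_mul, padicValRat.of_nat]
      · rw [neg_one_mul, padicValRat.neg, padicValRat.of_nat]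
    rw [e]
    have h3 : ¬ 3 ≤ padicValNat q m := by
      intro h3
      exact hmq q hq ((padicValNat_dvd_iff_le hm).2 h3)
    omega

lemma c3_ne : c3 ≠ 0 := by unfold c3; norm_num

lemma val_c3_of_not {q : ℕ} (hq : q.Prime) (h2 : q ≠ 2) (h3 : q ≠ 3) (h7 : q ≠ 7) :
    padicValRat q c3 = 0 := by
  have := Fact.mk hq
  unfold c3
  have e : (42 : ℚ) = ((42 : ℕ) : ℚ) := by norm_num
  rw [padicValRat.pow, e, padicValRat.of_nat, padicValNat.eq_zero_of_not_dvd]
  · simp
  · intro h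
    have h6 : q ∣ 2 * 3 * 7 := h
    rcases (Nat.Prime.dvd_mul hq).1 h6 with h | h
    · rcases (Nat.Prime.dvd_mul hq).1 h with h | h
      · exact h2 ((Nat.prime_dvd_prime_iff_eq hq Nat.prime_two).1 h)
      · exact h3 ((Nat.prime_dvd_prime_iff_eq hq Nat.prime_three).1 h)
    · exact h7 ((Nat.prime_dvd_prime_iff_eq hq (by norm_num)).1 h)

lemma val_c3_of {q : ℕ} (h : q = 2 ∨ q = 3 ∨ q = 7) : 20 ≤ padicValRat q c3 := by
  have hq : q.Prime := by rcases h with h | h | h <;> rw [h] <;> norm_num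
  have := Fact.mk hq
  unfold c3
  have e : (42 : ℚ) = ((42 : ℕ) : ℚ) := by norm_num
  rw [padicValRat.pow, e, padicValRat.of_nat]
  have h1 : 1 ≤ padicValNat q 42 := by
    apply one_le_padicValNat_of_dvd (by norm_num)
    rcases h with h | h | h <;> rw [h] <;> norm_num
  have h2 : (1 : ℤ) ≤ (padicValNat q 42 : ℤ) := by exact_mod_cast h1
  push_cast
  linarith

theorem st3_complete {s κ : ℚ} (hs : s ≠ 0)
    (hb : ∀ q : ℕ, q = 2 ∨ q = 3 ∨ q = 7 → κ = 0 ∨ -17 ≤ padicValRat q κ)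
    (h : ∀ q : ℕ, Inert7 q → q ≠ 2 → q ≠ 3 → ¬ (3 : ℤ) ∣ padicValRat q s →
      κ = 0 ∨ 1 ≤ padicValRat q κ) : St3 s κ := by
  obtain ⟨m, t, hm, ht, hr, hmv⟩ := cubefree_rat (inv_ne_zero hs)
  have hmq : (m : ℚ) ≠ 0 := by exact_mod_cast hm
  have e : s * t ^ 3 = (m : ℚ)⁻¹ := by
    have h1 : s * s⁻¹ = 1 := mul_inv_cancel₀ hs
    rw [hr] at h1
    apply eq_inv_of_mul_eq_one_left
    linear_combination h1
  have hvs : ∀ q : ℕ, q.Prime → padicValRat q s = -padicValRat q (m : ℚ) - 3 * padicValRat q t := by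
    intro q hq
    have := Fact.mk hq
    have h1 := congrArg (padicValRat q) e
    rw [padicValRat.mul hs (pow_ne_zero _ ht), padicValRat.pow, padicValRat.inv] at h1
    push_cast at h1
    linarith
  refine ⟨t, ht, ?_, ?_⟩
  · rw [e]
    refine p3_of_cond (inv_ne_zero hmq) (fun q hq => ⟨?_, ?_⟩)
    · intro h2 h3 h7 hin hnd
      right
      have := Fact.mk hq
      rw [padicValRat.inv] at hnd ⊢
      rw [val_c3_of_not hq h2 h3 h7]
      rcases hmv q hq with h | h | h <;> rw [h] at hnd ⊢ <;> revert hnd <;> norm_num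
    · intro hbad
      right
      have := Fact.mk hq
      have h1 := val_c3_of hbad
      rw [padicValRat.inv]
      rcases hmv q hq with h | h | h <;> rw [h] <;> linarith
  · rw [e, inv_inv]
    refine p3_of_cond hmq (fun q hq => ⟨?_, ?_⟩)
    · intro h2 h3 h7 hin hnd
      have := Fact.mk hq
      have hnd' : ¬ (3 : ℤ) ∣ padicValRat q s := by
        rw [hvs q hq]
        rintro ⟨k, hk⟩
        exact hnd ⟨-k - padicValRat q t, by linarith⟩
      rcases h q hin h2 h3 hnd' with h | h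
      · left; rw [h, mul_zero]
      · by_cases hκ : κ = 0
        · left; rw [hκ, mul_zero]
        · right
          rw [padicValRat.mul c3_ne hκ, val_c3_of_not hq h2 h3 h7]
          rcases hmv q hq with h' | h' | h' <;> rw [h'] <;> linarith
    · intro hbad
      have := Fact.mk hq
      by_cases hκ : κ = 0
      · left; rw [hκ, mul_zero]
      · right
        rcases hb q hbad with h | h
        · exact absurd h hκ
        · rw [padicValRat.mul c3_ne hκ]
          have h1 := val_c3_of hbad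
          rcases hmv q hq with h' | h' | h' <;> rw [h'] <;> linarith

end Vale.Agent.P027.L
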