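import Vale.Agent.P027.L.P3

/-! Soundness of the cubic check, and the inert primes. -/

set_option linter.all false

namespace Vale.Agent.P027.L

open Polynomial

/-! ### The norm form is anisotropic -/

theorem N7_mul {R : Type*} [CommRing R] (w x y z : R) :
    N7 (w * x) (w * y) (w * z) = w ^ 3 * N7 x y z := by
  unfold N7
  ring

theorem N7_map {R S : Type*} [CommRing R] [CommRing S] (φ : R →+* S) (x y z : R) :
    φ (N7 x y z) = N7 (φ x) (φ y) (φ z) := by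
  unfold N7
  simp only [map_add, map_sub, map_mul, map_pow, map_ofNat]

theorem N7_aniso {k : Type*} [Field k] (h : ∀ t : k, t ^ 3 + t ^ 2 - 2 * t - 1 ≠ 0) {x y z : k}
    (h0 : N7 x y z = 0) : x = 0 ∧ y = 0 ∧ z = 0 := by
  by_cases hz : z = 0
  · subst hz
    by_cases hy : y = 0
    · subst hy
      unfold N7 at h0
      have : x ^ 3 = 0 := by linear_combination h0
      exact ⟨pow_eq_zero_iff (by norm_num) |>.1 this, rfl, rfl⟩
    · exfalso
      apply h (-(x / y))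
      unfold N7 at h0
      have h1 : y ^ 3 * ((-(x / y)) ^ 3 + (-(x / y)) ^ 2 - 2 * (-(x / y)) - 1) = 0 := by
        have e : y * (x / y) = x := mul_div_cancel₀ x hy
        have e2 : y ^ 3 * ((-(x / y)) ^ 3 + (-(x / y)) ^ 2 - 2 * (-(x / y)) - 1) =
            -(y * (x / y)) ^ 3 + (y * (x / y)) ^ 2 * y + 2 * (y * (x / y)) * y ^ 2 - y ^ 3 := by
          ring
        rw [e2, e]
        linear_combination -h0
      exact (mul_eq_zero.1 h1).resolve_left (pow_ne_zero _ hy)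
  · exfalso
    -- scale to z = 1
    set a := x / z with ha
    set b := y / z with hb
    have ex : x = z * a := (mul_div_cancel₀ x hz).symm
    have ey : y = z * b := (mul_div_cancel₀ y hz).symm
    have ez : z = z * 1 := (mul_one z).symm
    have h1 : N7 a b 1 = 0 := by
      rw [ex, ey] at h0
      nth_rw 3 [ez] at h0
      rw [N7_mul] at h0
      exact (mul_eq_zero.1 h0).resolve_left (pow_ne_zero _ hz)
    set r1 := b ^ 2 - b - a - 2 with hr1
    set r0 := a * b - a - 1 with hr0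
    have h2 : r0 ^ 2 - b * r0 * r1 + a * r1 ^ 2 = 0 := by
      rw [← h1, hr0, hr1]
      unfold N7
      ring
    -- division of the cubic polynomial by the quadratic one
    have hdiv : ∀ t : k, t ^ 3 + t ^ 2 - 2 * t - 1 = (t ^ 2 + b * t + a) * (t + (1 - b)) +
        (r1 * t + r0) := by
      intro t
      rw [hr1, hr0]
      ring
    by_cases hr : r1 = 0
    · have h3 : r0 = 0 := by
        rw [hr] at h2
        have : r0 ^ 2 = 0 := by linear_combination h2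
        exact pow_eq_zero_iff (by norm_num) |>.1 this
      apply h (b - 1)
      rw [hdiv, hr, h3]
      ring
    · apply h (-(r0 / r1))
      rw [hdiv]
      have e : r1 * (r0 / r1) = r0 := mul_div_cancel₀ r0 hr
      have e1 : r1 * -(r0 / r1) + r0 = 0 := by linear_combination -e
      have e2 : (-(r0 / r1)) ^ 2 + b * (-(r0 / r1)) + a = 0 := by
        have e3 : r1 ^ 2 * ((-(r0 / r1)) ^ 2 + b * (-(r0 / r1)) + a) = 0 := by
          have : r1 ^ 2 * ((-(r0 / r1)) ^ 2 + b * (-(r0 / r1)) + a) =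
            (r1 * (r0 / r1)) ^ 2 - b * (r1 * (r0 / r1)) * r1 + a * r1 ^ 2 := by ring
          rw [this, e, h2]
        exact (mul_eq_zero.1 e3).resolve_left (pow_ne_zero _ hr)
      rw [e1, e2]
      ring

/-! ### Norms over the `q`-adic numbers -/

section Padic

variable {q : ℕ} [hq : Fact q.Prime]

theorem norm_N7_int (h : ∀ t : ZMod q, t ^ 3 + t ^ 2 - 2 * t - 1 ≠ 0) {x y z : ℤ_[q]}
    (h1 : x = 1 ∨ y = 1 ∨ z = 1) : ‖N7 x y z‖ = 1 := by
  by_contra hne
  have hlt : ‖N7 x y z‖ < 1 := lt_of_le_of_ne (PadicInt.norm_le_one _) hne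
  have h0 : (PadicInt.toZMod (N7 x y z) : ZMod q) = 0 := by
    rw [← RingHom.mem_ker, PadicInt.ker_toZMod]
    rw [IsLocalRing.mem_maximalIdeal, PadicInt.mem_nonunits]
    exact hlt
  rw [N7_map] at h0
  obtain ⟨a, b, c⟩ := N7_aniso h h0
  rcases h1 with rfl | rfl | rfl
  · rw [map_one] at a
    exact one_ne_zero a
  · rw [map_one] at b
    exact one_ne_zero b
  · rw [map_one] at c
    exact one_ne_zero c

/-- the norm of a value of the norm form is a cube -/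
theorem norm_N7 (h : ∀ t : ZMod q, t ^ 3 + t ^ 2 - 2 * t - 1 ≠ 0) (x y z : ℚ_[q]) :
    ∃ w : ℚ_[q], ‖N7 x y z‖ = ‖w‖ ^ 3 := by
  have key : ∀ w : ℚ_[q], w ≠ 0 → ‖x‖ ≤ ‖w‖ → ‖y‖ ≤ ‖w‖ → ‖z‖ ≤ ‖w‖ → (w = x ∨ w = y ∨ w = z) →
      ‖N7 x y z‖ = ‖w‖ ^ 3 := by
    intro w hw hx hy hz h1
    have hw' : 0 < ‖w‖ := norm_pos_iff.2 hw
    have hi : ∀ v : ℚ_[q], ‖v‖ ≤ ‖w‖ → ‖v / w‖ ≤ 1 := fun v hv => by
      rw [norm_div]
      exact (div_le_one hw').2 hv
    have h2 := norm_N7_int h (x := ⟨x / w, hi x hx⟩) (y := ⟨y / w, hi y hy⟩)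
      (z := ⟨z / w, hi z hz⟩) (by
        rcases h1 with rfl | rfl | rfl
        · exact Or.inl (Subtype.ext (div_self hw))
        · exact Or.inr (Or.inl (Subtype.ext (div_self hw)))
        · exact Or.inr (Or.inr (Subtype.ext (div_self hw))))
    rw [PadicInt.norm_def] at h2
    have h3 : ((N7 (⟨x / w, hi x hx⟩ : ℤ_[q]) ⟨y / w, hi y hy⟩ ⟨z / w, hi z hz⟩ : ℤ_[q]) : ℚ_[q]) =
        N7 (x / w) (y / w) (z / w) := by
      have := N7_map (PadicInt.Coe.ringHom (p := q)) (⟨x / w, hi x hx⟩ : ℤ_[q]) ⟨y / w, hi y hy⟩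
        ⟨z / w, hi z hz⟩
      exact this
    rw [h3] at h2
    have h4 := N7_mul w (x / w) (y / w) (z / w)
    rw [mul_div_cancel₀ x hw, mul_div_cancel₀ y hw, mul_div_cancel₀ z hw] at h4
    rw [h4, norm_mul, norm_pow, h2, mul_one]
  -- the coordinate of the largest norm
  obtain ⟨w, hw1, hx, hy, hz⟩ : ∃ w : ℚ_[q], (w = x ∨ w = y ∨ w = z) ∧ ‖x‖ ≤ ‖w‖ ∧ ‖y‖ ≤ ‖w‖ ∧
      ‖z‖ ≤ ‖w‖ := by
    rcases le_total ‖x‖ ‖y‖ with h1 | h1
    · rcases le_total ‖y‖ ‖z‖ with h2 | h2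
      · exact ⟨z, Or.inr (Or.inr rfl), h1.trans h2, h2, le_rfl⟩
      · exact ⟨y, Or.inr (Or.inl rfl), h1, le_rfl, h2⟩
    · rcases le_total ‖x‖ ‖z‖ with h2 | h2
      · exact ⟨z, Or.inr (Or.inr rfl), h2, h1.trans h2, le_rfl⟩
      · exact ⟨x, Or.inl rfl, le_rfl, h1, h2⟩
  by_cases hw : w = 0
  · refine ⟨0, ?_⟩
    have hx0 : x = 0 := by rw [hw, norm_zero] at hx; exact norm_le_zero_iff.1 hx
    have hy0 : y = 0 := by rw [hw, norm_zero] at hy; exact norm_le_zero_iff.1 hy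
    have hz0 : z = 0 := by rw [hw, norm_zero] at hz; exact norm_le_zero_iff.1 hz
    rw [hx0, hy0, hz0]
    simp [N7]
  · exact ⟨w, key w hw hx hy hz hw1⟩

/-- a simple root -/
theorem exists_root {κ b : ℚ} (hκ : κ ≠ 0) (hb : b ≠ 0)
    (hv : 3 * padicValRat q κ < padicValRat q b) :
    ∃ X : ℚ_[q], X ^ 3 - κ * X ^ 2 - b = 0 := by
  set β : ℚ := b / κ ^ 3 with hβ
  have hvβ : 0 < padicValRat q β := by
    rw [hβ, padicValRat.div hb (pow_ne_zero _ hκ), padicValRat.pow]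
    push_cast
    omega
  have hβ0 : β ≠ 0 := div_ne_zero hb (pow_ne_zero _ hκ)
  have hnβ : ‖(β : ℚ_[q])‖ < 1 := by
    rw [Padic.norm_eq_zpow_neg_valuation (by exact_mod_cast hβ0), Padic.valuation_ratCast]
    exact zpow_lt_one_of_neg₀ (by exact_mod_cast hq.1.one_lt) (by omega)
  let βi : ℤ_[q] := ⟨β, hnβ.le⟩
  let F : ℤ_[q][X] := X ^ 3 - X ^ 2 - C βi
  have hF : ∀ u : ℤ_[q], F.aeval u = u ^ 3 - u ^ 2 - βi := fun u => by
    simp only [F, map_sub, map_pow, aeval_X, aeval_C]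
    rfl
  have hF' : ∀ u : ℤ_[q], F.derivative.aeval u = 3 * u ^ 2 - 2 * u := fun u => by
    simp only [F, derivative_sub, derivative_X_pow, derivative_C, map_sub, map_mul, map_pow,
      aeval_X, aeval_C, Nat.cast_ofNat, map_ofNat, sub_zero]
    norm_num
  obtain ⟨u, hu, -⟩ := hensels_lemma (F := F) (a := 1) (by
    rw [hF, hF']
    norm_num
    exact hnβ)
  rw [hF] at hu
  refine ⟨κ * (u : ℚ_[q]), ?_⟩
  have hu' : (u : ℚ_[q]) ^ 3 - (u : ℚ_[q]) ^ 2 - (β : ℚ_[q]) = 0 := by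
    have := congrArg (fun v : ℤ_[q] => (v : ℚ_[q])) hu
    push_cast at this
    exact this
  have hb' : (b : ℚ_[q]) = κ ^ 3 * β := by
    have : b = κ ^ 3 * β := by
      rw [hβ]
      field_simp
    exact_mod_cast this
  rw [hb']
  linear_combination (κ : ℚ_[q]) ^ 3 * hu'

end Padic

/-- **soundness of the cubic check** -/
theorem p3_sound {q : ℕ} (hq : Inert7 q) {b κ : ℚ} (hb : b ≠ 0) (h3 : ¬ (3 : ℤ) ∣ padicValRat q b)
    (h : P3 b κ) : κ = 0 ∨ padicValRat q b < 3 * padicValRat q κ := by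
  have := Fact.mk hq.1
  by_contra hcon
  push Not at hcon
  obtain ⟨hκ, hle⟩ := hcon
  have hlt : 3 * padicValRat q κ < padicValRat q b :=
    lt_of_le_of_ne hle fun h => h3 ⟨_, h.symm⟩
  obtain ⟨X0, hX0⟩ := exists_root (q := q) hκ hb hlt
  obtain ⟨x, y, z, g, he⟩ := h
  have h1 := congrArg (Polynomial.eval₂RingHom (algebraMap ℚ ℚ_[q]) X0) he
  rw [N7_map] at h1
  simp only [map_add, map_sub, map_mul, map_pow, coe_eval₂RingHom, eval₂_C, eval₂_X] at h1
  have e : ∀ c : ℚ, (algebraMap ℚ ℚ_[q]) c = (c : ℚ_[q]) := fun c => rfl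
  rw [e, e, hX0, zero_mul, add_zero] at h1
  obtain ⟨w, hw⟩ := norm_N7 (q := q) hq.2 (eval₂ (algebraMap ℚ ℚ_[q]) X0 x)
    (eval₂ (algebraMap ℚ ℚ_[q]) X0 y) (eval₂ (algebraMap ℚ ℚ_[q]) X0 z)
  rw [h1] at hw
  have hb' : (b : ℚ_[q]) ≠ 0 := by exact_mod_cast hb
  have hw0 : w ≠ 0 := by
    rintro rfl
    rw [norm_zero] at hw
    exact hb' (norm_eq_zero.1 (hw.trans (by norm_num)))
  rw [Padic.norm_eq_zpow_neg_valuation hb', Padic.norm_eq_zpow_neg_valuation hw0,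
    Padic.valuation_ratCast, ← zpow_natCast, ← zpow_mul] at hw
  have hq1 : (1 : ℝ) < q := by exact_mod_cast hq.1.one_lt
  have h4 := zpow_right_injective₀ (by linarith) hq1.ne' hw
  exact h3 ⟨w.valuation, by push_cast at h4; linarith⟩

/-- **soundness of the check for all inert primes** -/
theorem st3_sound {s κ : ℚ} (hs : s ≠ 0) (h : St3 s κ) {q : ℕ} (hq : Inert7 q) (hq2 : ¬ q ∣ 42)
    (h3 : ¬ (3 : ℤ) ∣ padicValRat q s) : κ = 0 ∨ 1 ≤ padicValRat q κ := by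
  have := Fact.mk hq.1
  obtain ⟨w, hw, h1, h2⟩ := h
  have hw3 : w ^ 3 ≠ 0 := pow_ne_zero _ hw
  have hb : s * w ^ 3 ≠ 0 := mul_ne_zero hs hw3
  have hc : padicValRat q c3 = 0 := by
    unfold c3
    rw [padicValRat.pow, show (42 : ℚ) = ((42 : ℕ) : ℚ) by norm_num, padicValRat.of_nat,
      padicValNat.eq_zero_of_not_dvd hq2]
    norm_num
  have hc0 : c3 ≠ 0 := by unfold c3; norm_num
  have hv : padicValRat q (s * w ^ 3) = padicValRat q s + 3 * padicValRat q w := by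
    rw [padicValRat.mul hs hw3, padicValRat.pow]
    push_cast
    ring
  have hn : ¬ (3 : ℤ) ∣ padicValRat q (s * w ^ 3) := by
    rw [hv]
    rintro ⟨k, hk⟩
    exact h3 ⟨k - padicValRat q w, by linarith⟩
  rcases p3_sound hq hb hn h1 with h4 | h4
  · exact absurd h4 hc0
  rw [hc, mul_zero] at h4
  have hinv : padicValRat q (s * w ^ 3)⁻¹ = -padicValRat q (s * w ^ 3) := padicValRat.inv _
  have hn' : ¬ (3 : ℤ) ∣ padicValRat q (s * w ^ 3)⁻¹ := by
    rw [hinv]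
    rintro ⟨k, hk⟩
    exact hn ⟨-k, by linarith⟩
  rcases p3_sound hq (inv_ne_zero hb) hn' h2 with h5 | h5
  · exact Or.inl ((mul_eq_zero.1 h5).resolve_left hc0)
  · by_cases hκ : κ = 0
    · exact Or.inl hκ
    · right
      rw [padicValRat.mul hc0 hκ, hc, zero_add, hinv] at h5
      omega

end Vale.Agent.P027.L
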