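import Vale.Agent.P027.L.Ord
import Vale.Agent.P027.L.Spec
import Vale.Agent.P027.L.In7
import Vale.Agent.P027.L.P3s
import Vale.Agent.P027.Q.St

/-! Visible primes of the multiples of `P0` and the next index. -/

set_option linter.all false

namespace Vale.Agent.P027.L

open Vale.Agent.P027

/-- the first coordinate of `n P0` -/
noncomputable def xx (n : ℕ) : ℚ := xc ((n : ℤ) • P0)

lemma xx_ne_zero {n : ℕ} (hn : n ≠ 0) : xx n ≠ 0 := xc_ne_zero (by exact_mod_cast hn)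

lemma hasX_xx {n : ℕ} (hn : n ≠ 0) : HasX ((n : ℤ) • P0) (xx n) := hasX_n (by exact_mod_cast hn)

lemma dv_xx {q n : ℕ} (hn : n ≠ 0) : Dv q n ↔ padicValRat q (xx n) < 0 := by
  unfold Dv xx
  constructor
  · rintro (h | h)
    · exact absurd (by exact_mod_cast h) hn
    · exact h
  · exact fun h => Or.inr h

lemma v_mul_neg {q : ℕ} (hq : q.Prime) {m k : ℕ} (hm : m ≠ 0) (hk : k ≠ 0)
    (h : padicValRat q (xx m) < 0) :
    padicValRat q (xx (m * k)) = padicValRat q (xx m) - 2 * (padicValNat q k : ℤ) := by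
  have := Fact.mk hq
  have h1 := val_smul_int q (m₀ := (m : ℤ)) (k := (k : ℤ)) (by exact_mod_cast hm)
    (norm_gt_of_val_neg q (xx_ne_zero hm) h) (by exact_mod_cast hk)
  rw [padicValInt.of_nat, ← Nat.cast_mul] at h1
  exact h1

lemma odd_smul_T0 {k : ℕ} (hk : Odd k) : k • T0 = T0 := by
  obtain ⟨j, rfl⟩ := hk
  rw [add_nsmul, one_nsmul, mul_nsmul, two_nsmul, two_T0, nsmul_zero, zero_add]

lemma hasX_T {n : ℕ} (hn : n ≠ 0) : HasX ((n : ℤ) • P0 + T0) (2048 / xx n) :=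
  hasX_add_T0 (hasX_xx hn) (xx_ne_zero hn)

lemma v2048 {q : ℕ} (hq : q.Prime) (hq2 : q ≠ 2) : padicValRat q (2048 : ℚ) = 0 := by
  have := Fact.mk hq
  have h2 : padicValRat q (2 : ℚ) = 0 := by
    have := vprime (p := q) (q := 2) hq Nat.prime_two hq2
    exact_mod_cast this
  rw [show (2048 : ℚ) = 2 ^ 11 by norm_num, padicValRat.pow, h2, mul_zero]

lemma val_T {q : ℕ} (hq : q.Prime) (hq2 : q ≠ 2) {x : ℚ} (hx : x ≠ 0) :
    padicValRat q (2048 / x) = -padicValRat q x := by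
  have := Fact.mk hq
  rw [padicValRat.div (by norm_num) hx, v2048 hq hq2]
  ring

lemma v_mul_pos {q : ℕ} (hq : q.Prime) (hq2 : q ≠ 2) {m k : ℕ} (hm : m ≠ 0) (hk : Odd k)
    (h : 0 < padicValRat q (xx m)) :
    padicValRat q (xx (m * k)) = padicValRat q (xx m) + 2 * (padicValNat q k : ℤ) := by
  have := Fact.mk hq
  have hk0 : k ≠ 0 := by rintro rfl; simp at hk
  have hmk : m * k ≠ 0 := mul_ne_zero hm hk0
  set V := (m : ℤ) • P0 + T0 with hV
  have hX : HasX V (2048 / xx m) := hasX_T hm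
  have hx0 : 2048 / xx m ≠ 0 := div_ne_zero (by norm_num) (xx_ne_zero hm)
  have hn1 : 1 < padicNorm q (2048 / xx m) := by
    apply norm_gt_of_val_neg q hx0
    rw [val_T hq hq2 (xx_ne_zero hm)]
    omega
  have hne : ∀ j : ℕ, 1 ≤ j → j • V ≠ 0 := by
    intro j hj h0
    have e : (2 : ℕ) • (j • V) = ((2 * j * m : ℕ) : ℤ) • P0 := by
      rw [hV, nsmul_add, nsmul_add]
      have e1 : (2 : ℕ) • (j • T0) = 0 := by
        rw [← mul_nsmul', mul_comm, mul_nsmul', two_nsmul, two_T0, nsmul_zero]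
      rw [e1, add_zero, ← mul_nsmul', ← natCast_zsmul, ← mul_zsmul]
      congr 1
    rw [h0, nsmul_zero] at e
    refine zsmul_P0_ne_zero (k := ((2 * j * m : ℕ) : ℤ)) ?_ e.symm
    have : 2 * j * m ≠ 0 := mul_ne_zero (by omega) hm
    exact_mod_cast this
  have h1 := norm_smul_nat q (V := V) hne (by rw [xc_of_hasX hX]; exact hn1) k hk0
  have e2 : k • V = ((m * k : ℕ) : ℤ) • P0 + T0 := by
    rw [hV, nsmul_add, odd_smul_T0 hk]
    congr 1
    rw [← natCast_zsmul, ← mul_zsmul]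
    congr 1
    push_cast
    ring
  rw [e2, xc_of_hasX hX, xc_of_hasX (hasX_T hmk)] at h1
  have hx1 : 2048 / xx (m * k) ≠ 0 := div_ne_zero (by norm_num) (xx_ne_zero hmk)
  have hkq : (k : ℚ) ≠ 0 := by exact_mod_cast hk0
  have hq0 : (q : ℚ) ≠ 0 := by exact_mod_cast hq.ne_zero
  have hq1 : (1 : ℚ) < q := by exact_mod_cast hq.one_lt
  rw [norm_eq_zpow q hx1, norm_eq_zpow q hx0, norm_eq_zpow q hkq, ← zpow_natCast, ← zpow_mul,
    ← zpow_add₀ hq0] at h1
  have h2 := zpow_right_injective₀ (by linarith) hq1.ne' h1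
  rw [padicValRat.of_nat, val_T hq hq2 (xx_ne_zero hm), val_T hq hq2 (xx_ne_zero hmk)] at h2
  simp only [Nat.cast_ofNat] at h2
  linarith

/-- the multiplicity of `q` in the numerator or denominator of the root of `-x (n P0)` -/
noncomputable def wt (q n : ℕ) : ℕ := (padicValRat q (xx n)).natAbs / 2

lemma wt_mul {q : ℕ} (hq : q.Prime) (hq2 : q ≠ 2) {m k : ℕ} (hm : m ≠ 0) (hk : Odd k)
    (h : wt q m ≠ 0) : wt q (m * k) = wt q m + padicValNat q k := by
  unfold wt at h ⊢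
  have hk0 : k ≠ 0 := by rintro rfl; simp at hk
  rcases lt_trichotomy (padicValRat q (xx m)) 0 with h1 | h1 | h1
  · rw [v_mul_neg hq hm hk0 h1]
    omega
  · rw [h1] at h
    simp at h
  · rw [v_mul_pos hq hq2 hm hk h1]
    omega

lemma wt_eq {q : ℕ} (hq : q.Prime) {n : ℕ} {s : ℚ} (hs : s ≠ 0) (h : xx n = -s ^ 2) :
    padicValRat q (xx n) = 2 * padicValRat q s ∧ wt q n = (padicValRat q s).natAbs := by
  have := Fact.mk hq
  have h1 : padicValRat q (xx n) = 2 * padicValRat q s := by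
    rw [h, padicValRat.neg, padicValRat.pow]
    push_cast
    ring
  refine ⟨h1, ?_⟩
  unfold wt
  rw [h1]
  omega

lemma Vz.prime {q w : ℕ} (h : Vz q w) : q.Prime := by
  rcases h with ⟨h, -⟩ | ⟨h, -⟩
  · exact h.1
  · exact h.1

lemma Vz.ne_two {q w : ℕ} (h : Vz q w) : q ≠ 2 := by
  rcases h with ⟨h, -⟩ | ⟨h, -⟩
  · rintro rfl
    rcases h.2.1 with h | h <;> norm_num at h
  · exact h.2.2.1

lemma Vz.ne_three {q w : ℕ} (h : Vz q w) : q ≠ 3 := by
  rcases h with ⟨h, -⟩ | ⟨h, -⟩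
  · exact h.2.2
  · exact h.2.2.2

lemma Vz.ne_seven {q w : ℕ} (h : Vz q w) : q ≠ 7 := by
  rcases h with ⟨h, -⟩ | ⟨h, -⟩
  · rintro rfl
    rcases h.2.1 with h | h <;> norm_num at h
  · rintro rfl
    rcases h.2.1 with h | h | h | h <;> norm_num at h

lemma Vz.ne_zero {q w : ℕ} (h : Vz q w) : w ≠ 0 := by
  rintro rfl
  rcases h with ⟨-, h⟩ | ⟨-, h⟩ <;> norm_num at h

open Classical in
/-- the visible primes of the index `n` -/
noncomputable def Vs (n : ℕ) : Finset ℕ :=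
  ((xx n).num.natAbs * (xx n).den).primeFactors.filter (fun q => Vz q (wt q n))

lemma mem_Vs {q n : ℕ} (hn : n ≠ 0) : q ∈ Vs n ↔ Vz q (wt q n) := by
  classical
  unfold Vs
  rw [Finset.mem_filter, Nat.mem_primeFactors]
  have h0 : (xx n).num.natAbs * (xx n).den ≠ 0 :=
    mul_ne_zero (Int.natAbs_ne_zero.2 (Rat.num_ne_zero.2 (xx_ne_zero hn))) (xx n).den_ne_zero
  constructor
  · rintro ⟨-, h⟩
    exact h
  · intro h
    refine ⟨⟨h.prime, ?_, h0⟩, h⟩
    by_contra hcon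
    have hnum : ¬ q ∣ (xx n).num.natAbs := fun h => hcon (h.mul_right _)
    have hden : ¬ q ∣ (xx n).den := fun h => hcon (h.mul_left _)
    have : wt q n = 0 := by
      unfold wt
      rw [padicValRat, padicValInt, padicValNat.eq_zero_of_not_dvd hnum,
        padicValNat.eq_zero_of_not_dvd hden]
      norm_num
    exact h.ne_zero this

/-- the next index -/
noncomputable def nxt (n : ℕ) : ℕ := n * ∏ q ∈ Vs n, q

lemma prod_Vs_odd {n : ℕ} (hn : n ≠ 0) : Odd (∏ q ∈ Vs n, q) := by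
  refine Finset.prod_induction _ Odd (fun a b => Odd.mul) odd_one ?_
  intro q hq
  have h1 := (mem_Vs hn).1 hq
  exact h1.prime.odd_of_ne_two h1.ne_two

lemma nxt_odd {n : ℕ} (hn : Odd n) : Odd (nxt n) :=
  hn.mul (prod_Vs_odd (by rintro rfl; simp at hn))

lemma dvd_nxt (n : ℕ) : n ∣ nxt n := dvd_mul_right _ _

lemma val_prod_primes (S : Finset ℕ) (hS : ∀ q ∈ S, q.Prime) {p : ℕ} (hp : p.Prime) :
    padicValNat p (∏ q ∈ S, q) = if p ∈ S then 1 else 0 := by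
  classical
  have := Fact.mk hp
  induction S using Finset.induction_on with
  | empty => simp
  | insert a S ha ih =>
    have hap := hS a (Finset.mem_insert_self _ _)
    have hS' : ∀ q ∈ S, q.Prime := fun q hq => hS q (Finset.mem_insert_of_mem hq)
    have h0 : ∏ q ∈ S, q ≠ 0 := Finset.prod_ne_zero_iff.2 (fun q hq => (hS' q hq).ne_zero)
    rw [Finset.prod_insert ha, padicValNat.mul hap.ne_zero h0, ih hS']
    by_cases hpa : p = a
    · subst hpa
      rw [padicValNat_self, if_neg ha, if_pos (Finset.mem_insert_self _ _)]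
    · have h1 : padicValNat p a = 0 := by
        apply padicValNat.eq_zero_of_not_dvd
        intro h
        exact hpa ((Nat.prime_dvd_prime_iff_eq hp hap).1 h)
      rw [h1, zero_add]
      congr 1
      simp [hpa]

lemma Vs_prime {n : ℕ} (hn : n ≠ 0) : ∀ q ∈ Vs n, q.Prime := fun q hq => ((mem_Vs hn).1 hq).prime

lemma prod_Vs_ne {n : ℕ} (hn : n ≠ 0) : ∏ q ∈ Vs n, q ≠ 0 :=
  Finset.prod_ne_zero_iff.2 (fun q hq => (Vs_prime hn q hq).ne_zero)

lemma nxt_ne {n : ℕ} (hn : n ≠ 0) : nxt n ≠ 0 := mul_ne_zero hn (prod_Vs_ne hn)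

lemma val_nxt {n : ℕ} (hn : n ≠ 0) {p : ℕ} (hp : p.Prime) :
    padicValNat p (nxt n) = padicValNat p n + if p ∈ Vs n then 1 else 0 := by
  have := Fact.mk hp
  unfold nxt
  rw [padicValNat.mul hn (prod_Vs_ne hn), val_prod_primes _ (Vs_prime hn) hp]

/-- the check for the primes of type two -/
def St2 (s κ : ℚ) : Prop := Q.St s κ ∨ Q.St (2 * s) κ

/-- the check -/
def Stp (s κ : ℚ) : Prop := St2 s κ ∧ St3 s κ

theorem st2_sound {s κ : ℚ} (hs : s ≠ 0) (h : St2 s κ) {q : ℕ} (hq : Ty2 q)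
    (ho : Odd (padicValRat q s)) : κ = 0 ∨ 1 ≤ padicValRat q κ := by
  have hin : Inert q := ⟨hq.1, hq.2.1⟩
  rcases h with h | h
  · exact Q.st_sound hs h hin hq.2.2 ho
  · have := Fact.mk hq.1
    refine Q.st_sound (mul_ne_zero two_ne_zero hs) h hin hq.2.2 ?_
    have h2 : padicValRat q (2 : ℚ) = 0 := by
      have := vprime (p := q) (q := 2) hq.1 Nat.prime_two hin.ne_two
      exact_mod_cast this
    rw [padicValRat.mul two_ne_zero hs, h2, zero_add]
    exact ho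

theorem stp_sound {s κ : ℚ} (hs : s ≠ 0) (h : Stp s κ) {q : ℕ}
    (hv : Vz q (padicValRat q s).natAbs) : κ = 0 ∨ 1 ≤ padicValRat q κ := by
  rcases hv with ⟨h2, ho⟩ | ⟨h3, ho⟩
  · exact st2_sound hs h.1 h2 (Int.natAbs_odd.1 (Nat.odd_iff.2 ho))
  · refine st3_sound hs h.2 ((inert7_iff h3.1).2 ?_) ?_ ?_
    · have := h3.2.1
      omega
    · intro hd
      have e : (42 : ℕ) = 2 * 3 * 7 := by norm_num
      rw [e] at hd
      rcases (h3.1.dvd_mul).1 hd with hd | hd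
      · rcases (h3.1.dvd_mul).1 hd with hd | hd
        · exact h3.2.2.1 ((Nat.prime_dvd_prime_iff_eq h3.1 Nat.prime_two).1 hd)
        · exact h3.2.2.2 ((Nat.prime_dvd_prime_iff_eq h3.1 Nat.prime_three).1 hd)
      · have := (Nat.prime_dvd_prime_iff_eq h3.1 (by norm_num : Nat.Prime 7)).1 hd
        have h7 := h3.2.1
        omega
    · intro hd
      apply ho
      have := Int.natAbs_dvd_natAbs.2 hd
      exact Nat.mod_eq_zero_of_dvd this

/-- the group of the points reducing to the origin, and doubling -/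
lemma two_mul_neg {q : ℕ} (hq : q.Prime) (hq2 : q ≠ 2) {Ω : ℕ} (hΩ : Ω ≠ 0)
    (hv : padicValRat q (xx Ω) ≠ 0) : padicValRat q (xx (2 * Ω)) < 0 := by
  have := Fact.mk hq
  rcases lt_or_gt_of_ne hv with h3 | h3
  · rw [mul_comm, v_mul_neg hq hΩ two_ne_zero h3]
    omega
  · obtain ⟨G, hG⟩ := exists_group q hq
    have h4 : (Ω : ℤ) • P0 + T0 ∈ G := by
      rw [hG _ _ (hasX_T hΩ), val_T hq hq2 (xx_ne_zero hΩ)]
      omega
    have h5 : ((2 * Ω : ℕ) : ℤ) • P0 ∈ G := by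
      have h6 := G.add_mem h4 h4
      have e : (Ω : ℤ) • P0 + T0 + ((Ω : ℤ) • P0 + T0) = ((2 * Ω : ℕ) : ℤ) • P0 := by
        have e1 : (Ω : ℤ) • P0 + T0 + ((Ω : ℤ) • P0 + T0) =
            ((Ω : ℤ) • P0 + (Ω : ℤ) • P0) + (T0 + T0) := by abel
        rw [e1, two_T0, add_zero, ← add_zsmul]
        congr 1
        push_cast
        ring
      rwa [e] at h6
    rwa [hG _ _ (hasX_xx (mul_ne_zero two_ne_zero hΩ))] at h5

/-- soundness of the step relation -/
theorem step_sound {Ω X₀ X₁ : ℕ} (h0 : Ω ∣ X₀) (h1 : Ω ∣ X₁) (hX0 : X₀ ≠ 0) (hX1 : Odd X₁)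
    {s : ℚ} (hs0 : s ≠ 0) (hs : xx X₁ = -s ^ 2) (hSt : Stp s (xx (2 * X₀) / xx (2 * X₁))) :
    nxt Ω ∣ X₁ := by
  obtain ⟨k₀, rfl⟩ := h0
  obtain ⟨k₁, rfl⟩ := h1
  have hΩ : Ω ≠ 0 := left_ne_zero_of_mul hX0
  have hk0 : k₀ ≠ 0 := right_ne_zero_of_mul hX0
  have hk1 : Odd k₁ := (Nat.odd_mul.1 hX1).2
  have hk10 : k₁ ≠ 0 := by rintro rfl; simp at hk1
  unfold nxt
  apply mul_dvd_mul_left
  refine Finset.prod_primes_dvd (s := Vs Ω) k₁ (fun q hq => (Vs_prime hΩ q hq).prime) ?_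
  intro q hq
  have hvz := (mem_Vs hΩ).1 hq
  have hqp := hvz.prime
  have := Fact.mk hqp
  have hq2 := hvz.ne_two
  by_contra hndvd
  have hk1v : padicValNat q k₁ = 0 := padicValNat.eq_zero_of_not_dvd hndvd
  have hwt : wt q Ω ≠ 0 := hvz.ne_zero
  have hw1 : wt q (Ω * k₁) = wt q Ω := by rw [wt_mul hqp hq2 hΩ hk1 hwt, hk1v, add_zero]
  have hso : Vz q (padicValRat q s).natAbs := by
    rw [← (wt_eq hqp hs0 hs).2, hw1]
    exact hvz
  -- the valuation at `2 Ω`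
  have h2Ω : padicValRat q (xx (2 * Ω)) < 0 := by
    refine two_mul_neg hqp hq2 hΩ ?_
    intro h
    apply hwt
    unfold wt
    rw [h]
    norm_num
  have e0 : 2 * (Ω * k₀) = (2 * Ω) * k₀ := by ring
  have e1 : 2 * (Ω * k₁) = (2 * Ω) * k₁ := by ring
  have h2Ω0 : 2 * Ω ≠ 0 := mul_ne_zero two_ne_zero hΩ
  have hn0 : xx (2 * (Ω * k₀)) ≠ 0 := xx_ne_zero (mul_ne_zero two_ne_zero (mul_ne_zero hΩ hk0))
  have hn1 : xx (2 * (Ω * k₁)) ≠ 0 := xx_ne_zero (mul_ne_zero two_ne_zero (mul_ne_zero hΩ hk10))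
  rcases stp_sound hs0 hSt hso with h3 | h3
  · exact div_ne_zero hn0 hn1 h3
  · rw [padicValRat.div hn0 hn1, e0, e1, v_mul_neg hqp h2Ω0 hk0 h2Ω,
      v_mul_neg hqp h2Ω0 hk10 h2Ω, hk1v, Nat.cast_zero] at h3
    have := Int.natCast_nonneg (padicValNat q k₀)
    linarith

end Vale.Agent.P027.L
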