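import Vale.Agent.P027.H362.Comp1
import Vale.Agent.P027.L.Vis

/-! Primitive recursive computation of the first coordinates of the multiples of `P0`. -/

set_option linter.all false

namespace Vale.Agent.P027.L

open Vale.Agent.P027
open Vale.Agent.P027.H362 (ex_lt all_lt pp_imp pp_dvd pr_pow pp_prime gf gf_eq pr_gf reduce ad
  ad_sq pr_ad pp_even)

/-! ### the recurrence -/

lemma xx_one : xx 1 = -64 := by
  unfold xx
  exact xc_of_hasX (by exact_mod_cast hasX_1)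

lemma xx_two : xx 2 = 256 / 9 := by
  unfold xx
  exact xc_of_hasX (by exact_mod_cast hasX_2)

lemma xx_ne_first {n : ℕ} (hn : 2 ≤ n) : xx n ≠ -64 := by
  intro h
  have h1 := hasX_xx (n := n) (by omega)
  rw [h] at h1
  rcases h1.eq_or_neg hasX_1 with h2 | h2
  · have := zsmul_inj h2; omega
  · rw [← neg_zsmul] at h2
    have := zsmul_inj h2; omega

lemma xx_rec {n : ℕ} (hn : 2 ≤ n) :
    xx (n + 1) * xx (n - 1) * (xx n + 64) ^ 2 = (64 * (xx n + 32)) ^ 2 := by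
  obtain ⟨s, d, hs, hd, -, hp⟩ := L.hasX_add_sub (hasX_xx (n := n) (by omega)) hasX_1
    (xx_ne_first hn)
  rw [← add_zsmul] at hs
  rw [sub_eq_add_neg, ← sub_zsmul] at hd
  have e1 : s = xx (n + 1) := by
    rw [← L.xc_of_hasX hs]
    unfold xx
    push_cast
    rfl
  have e2 : d = xx (n - 1) := by
    rw [← L.xc_of_hasX hd]
    unfold xx
    congr 2
    omega
  rw [e1, e2] at hp
  linear_combination hp

lemma xx_prod_pos {n : ℕ} (hn : 2 ≤ n) : 0 < xx (n + 1) * xx (n - 1) := by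
  have h := xx_rec hn
  have h1 : xx n + 64 ≠ 0 := by
    intro h1
    exact xx_ne_first hn (by linarith)
  have h2 : 0 < (xx n + 64) ^ 2 := by positivity
  have h3 : xx (n + 1) * xx (n - 1) ≠ 0 :=
    mul_ne_zero (xx_ne_zero (by omega)) (xx_ne_zero (by omega))
  have h4 : 0 ≤ (64 * (xx n + 32)) ^ 2 := sq_nonneg _
  rw [← h] at h4
  exact lt_of_le_of_ne (nonneg_of_mul_nonneg_left h4 h2) (Ne.symm h3)

/-- the signs of the first coordinates -/
lemma xx_sign (n : ℕ) : (xx (2 * n + 1) < 0) ∧ (0 < xx (2 * n + 2)) := by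
  induction n with
  | zero => rw [show 2 * 0 + 1 = 1 by norm_num, show 2 * 0 + 2 = 2 by norm_num, xx_one, xx_two]; norm_num
  | succ n ih =>
    obtain ⟨h1, h2⟩ := ih
    have p1 := xx_prod_pos (n := 2 * n + 2) (by omega)
    have p2 := xx_prod_pos (n := 2 * n + 3) (by omega)
    rw [show 2 * n + 2 - 1 = 2 * n + 1 by omega] at p1
    rw [show 2 * n + 3 - 1 = 2 * n + 2 by omega] at p2
    constructor
    · show xx (2 * n + 2 + 1) < 0
      exact neg_of_mul_pos_left p1 h1.le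
    · show 0 < xx (2 * n + 3 + 1)
      exact pos_of_mul_pos_left p2 h2.le

/-- the absolute value of the numerator -/
noncomputable def nu (n : ℕ) : ℕ := (xx n).num.natAbs

/-- the denominator -/
noncomputable def de (n : ℕ) : ℕ := (xx n).den

lemma de_pos (n : ℕ) : 0 < de n := (xx n).den_pos

lemma nu_pos {n : ℕ} (hn : n ≠ 0) : 0 < nu n :=
  Int.natAbs_pos.2 (Rat.num_ne_zero.2 (xx_ne_zero hn))

lemma xx_odd {n : ℕ} (hn : n % 2 = 1) : xx n = -((nu n : ℚ) / de n) := by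
  obtain ⟨m, rfl⟩ : ∃ m, n = 2 * m + 1 := ⟨n / 2, by omega⟩
  have h := (xx_sign m).1
  have h1 : (xx (2 * m + 1)).num < 0 := Rat.num_neg.2 h
  have h2 : (nu (2 * m + 1) : ℤ) = -(xx (2 * m + 1)).num := by unfold nu; omega
  have h3 : (nu (2 * m + 1) : ℚ) = -(xx (2 * m + 1)).num := by exact_mod_cast h2
  rw [h3, neg_div, neg_neg]
  exact (Rat.num_div_den _).symm

lemma xx_even {n : ℕ} (hn : n % 2 = 0) (h0 : n ≠ 0) : xx n = (nu n : ℚ) / de n := by
  obtain ⟨m, rfl⟩ : ∃ m, n = 2 * m + 2 := ⟨n / 2 - 1, by omega⟩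
  have h := (xx_sign m).2
  have h1 : 0 < (xx (2 * m + 2)).num := Rat.num_pos.2 h
  have h2 : (nu (2 * m + 2) : ℤ) = (xx (2 * m + 2)).num := by unfold nu; omega
  have h3 : (nu (2 * m + 2) : ℚ) = (xx (2 * m + 2)).num := by exact_mod_cast h2
  rw [h3]
  exact (Rat.num_div_den _).symm

/-- the first factor -/
def fP (n a b : ℕ) : ℕ := if n % 2 = 0 then 64 * (a + 32 * b) else 64 * ad (32 * b) a

/-- the second factor -/
def fQ (n a b : ℕ) : ℕ := if n % 2 = 0 then a + 64 * b else ad (64 * b) a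

lemma abs_xx {n : ℕ} (h0 : n ≠ 0) : |xx n| = (nu n : ℚ) / de n := by
  rcases Nat.mod_two_eq_zero_or_one n with h | h
  · rw [xx_even h h0, abs_of_nonneg (by positivity)]
  · rw [xx_odd h, abs_neg, abs_of_nonneg (by positivity)]

lemma rec_nat {n : ℕ} (hn : 2 ≤ n) :
    nu (n + 1) * nu (n - 1) * fQ n (nu n) (de n) ^ 2 =
      fP n (nu n) (de n) ^ 2 * (de (n + 1) * de (n - 1)) := by
  have h := xx_rec hn
  have h1 : |xx (n + 1)| * |xx (n - 1)| * (xx n + 64) ^ 2 = (64 * (xx n + 32)) ^ 2 := by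
    rw [← abs_mul, abs_of_pos (xx_prod_pos hn), h]
  rw [abs_xx (by omega), abs_xx (by omega)] at h1
  have d0 : (de n : ℚ) ≠ 0 := by exact_mod_cast (de_pos n).ne'
  have d1 : (de (n + 1) : ℚ) ≠ 0 := by exact_mod_cast (de_pos _).ne'
  have d2 : (de (n - 1) : ℚ) ≠ 0 := by exact_mod_cast (de_pos _).ne'
  have hQ : ((fQ n (nu n) (de n) : ℕ) : ℚ) ^ 2 = (de n : ℚ) ^ 2 * (xx n + 64) ^ 2 := by
    unfold fQ
    rcases Nat.mod_two_eq_zero_or_one n with h | h
    · rw [if_pos h, xx_even h (by omega)]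
      push_cast
      field_simp
    · rw [if_neg (by omega), ad_sq, xx_odd h]
      push_cast
      field_simp
      ring
  have hP : ((fP n (nu n) (de n) : ℕ) : ℚ) ^ 2 = (de n : ℚ) ^ 2 * (64 * (xx n + 32)) ^ 2 := by
    unfold fP
    rcases Nat.mod_two_eq_zero_or_one n with h | h
    · rw [if_pos h, xx_even h (by omega)]
      push_cast
      field_simp
    · rw [if_neg (by omega), Nat.cast_mul, mul_pow, ad_sq, xx_odd h]
      push_cast
      field_simp
      ring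
  have key : ((nu (n + 1) * nu (n - 1) * fQ n (nu n) (de n) ^ 2 : ℕ) : ℚ) =
      ((fP n (nu n) (de n) ^ 2 * (de (n + 1) * de (n - 1)) : ℕ) : ℚ) := by
    push_cast
    rw [hQ, hP, ← h1]
    field_simp
  exact_mod_cast key

/-- one step of the computation -/
def stp (u : ℕ × (ℕ × ℕ) × (ℕ × ℕ)) : ℕ × (ℕ × ℕ) × (ℕ × ℕ) :=
  let A := fP u.1 u.2.2.1 u.2.2.2 ^ 2 * u.2.1.2
  let B := fQ u.1 u.2.2.1 u.2.2.2 ^ 2 * u.2.1.1
  (u.1 + 1, u.2.2, (A / gf A B, B / gf A B))

/-- the computation -/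
def sts (k : ℕ) : ℕ × (ℕ × ℕ) × (ℕ × ℕ) := stp^[k] (2, (64, 1), (256, 9))

lemma nd_two : nu 2 = 256 ∧ de 2 = 9 := by
  unfold nu de
  rw [xx_two]
  have e : (256 / 9 : ℚ) = (256 : ℤ) / ((9 : ℕ) : ℤ) := by norm_num
  constructor
  · norm_num
  · norm_num

lemma sts_eq (k : ℕ) : sts k = (k + 2, (nu (k + 1), de (k + 1)), (nu (k + 2), de (k + 2))) := by
  induction k with
  | zero =>
    show (2, (64, 1), (256, 9)) = _
    rw [show 0 + 2 = 2 by norm_num, nd_two.1, nd_two.2]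
    unfold nu de
    rw [show 0 + 1 = 1 by norm_num, xx_one]
    rfl
  | succ k ih =>
    have e : sts (k + 1) = stp (sts k) := Function.iterate_succ_apply' _ _ _
    rw [e, ih]
    unfold stp
    simp only
    have h := rec_nat (n := k + 2) (by omega)
    rw [show k + 2 - 1 = k + 1 by omega] at h
    have hcop : Nat.Coprime (nu (k + 2 + 1)) (de (k + 2 + 1)) := (xx (k + 2 + 1)).reduced
    have hPpos : 0 < fP (k + 2) (nu (k + 2)) (de (k + 2)) := by
      refine Nat.pos_of_ne_zero (fun h0 => ?_)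
      rw [h0] at h
      have hq : fQ (k + 2) (nu (k + 2)) (de (k + 2)) ≠ 0 := by
        intro hq
        unfold fP at h0
        unfold fQ at hq
        have := de_pos (k + 2)
        have := nu_pos (n := k + 2) (by omega)
        unfold ad at h0 hq
        split_ifs at h0 hq <;> omega
      have h5 : nu (k + 2 + 1) * nu (k + 1) * fQ (k + 2) (nu (k + 2)) (de (k + 2)) ^ 2 ≠ 0 :=
        mul_ne_zero (mul_ne_zero (nu_pos (by omega)).ne' (nu_pos (by omega)).ne')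
          (pow_ne_zero _ hq)
      apply h5
      rw [h]
      ring
    obtain ⟨r1, r2⟩ := reduce (A := fP (k + 2) (nu (k + 2)) (de (k + 2)) ^ 2 * de (k + 1))
      (B := fQ (k + 2) (nu (k + 2)) (de (k + 2)) ^ 2 * nu (k + 1))
      (Nat.mul_pos (pow_pos hPpos _) (de_pos _)) hcop (de_pos _)
      (by rw [← mul_assoc, mul_right_comm _ _ (nu (k + 1)), h]; ring)
    rw [r1, r2]

lemma pr_stp : Primrec stp := by
  have n0 : Primrec fun u : ℕ × (ℕ × ℕ) × (ℕ × ℕ) => u.1 := Primrec.fst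
  have a' : Primrec fun u : ℕ × (ℕ × ℕ) × (ℕ × ℕ) => u.2.1.1 :=
    Primrec.fst.comp (Primrec.fst.comp Primrec.snd)
  have b' : Primrec fun u : ℕ × (ℕ × ℕ) × (ℕ × ℕ) => u.2.1.2 :=
    Primrec.snd.comp (Primrec.fst.comp Primrec.snd)
  have a : Primrec fun u : ℕ × (ℕ × ℕ) × (ℕ × ℕ) => u.2.2.1 :=
    Primrec.fst.comp (Primrec.snd.comp Primrec.snd)
  have b : Primrec fun u : ℕ × (ℕ × ℕ) × (ℕ × ℕ) => u.2.2.2 :=
    Primrec.snd.comp (Primrec.snd.comp Primrec.snd)
  have b32 : Primrec fun u : ℕ × (ℕ × ℕ) × (ℕ × ℕ) => 32 * u.2.2.2 :=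
    Primrec.nat_mul.comp (Primrec.const 32) b
  have b64 : Primrec fun u : ℕ × (ℕ × ℕ) × (ℕ × ℕ) => 64 * u.2.2.2 :=
    Primrec.nat_mul.comp (Primrec.const 64) b
  have hP : Primrec fun u : ℕ × (ℕ × ℕ) × (ℕ × ℕ) => fP u.1 u.2.2.1 u.2.2.2 := by
    unfold fP
    exact Primrec.ite (pp_even n0) (Primrec.nat_mul.comp (Primrec.const 64)
      (Primrec.nat_add.comp a b32)) (Primrec.nat_mul.comp (Primrec.const 64) (pr_ad b32 a))
  have hQ : Primrec fun u : ℕ × (ℕ × ℕ) × (ℕ × ℕ) => fQ u.1 u.2.2.1 u.2.2.2 := by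
    unfold fQ
    exact Primrec.ite (pp_even n0) (Primrec.nat_add.comp a b64) (pr_ad b64 a)
  have hA : Primrec fun u : ℕ × (ℕ × ℕ) × (ℕ × ℕ) =>
      fP u.1 u.2.2.1 u.2.2.2 ^ 2 * u.2.1.2 :=
    Primrec.nat_mul.comp (pr_pow hP (Primrec.const 2)) b'
  have hB : Primrec fun u : ℕ × (ℕ × ℕ) × (ℕ × ℕ) =>
      fQ u.1 u.2.2.1 u.2.2.2 ^ 2 * u.2.1.1 :=
    Primrec.nat_mul.comp (pr_pow hQ (Primrec.const 2)) a'
  have hg := pr_gf hA hB
  exact Primrec.pair (Primrec.succ.comp n0) (Primrec.pair (Primrec.snd.comp Primrec.snd)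
    (Primrec.pair (Primrec.nat_div.comp hA hg) (Primrec.nat_div.comp hB hg)))

lemma pr_sts : Primrec sts := by
  have : Primrec fun k : ℕ => stp^[k] ((fun _ : ℕ => (2, (64, 1), (256, 9))) k) :=
    Primrec.nat_iterate Primrec.id (Primrec.const _) (pr_stp.comp Primrec.snd)
  exact this

/-- numerators and denominators are primitive recursive -/
theorem exists_nd : ∃ N D : ℕ → ℕ, Primrec N ∧ Primrec D ∧
    ∀ n : ℕ, n ≠ 0 → N n = (xx n).num.natAbs ∧ D n = (xx n).den := by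
  refine ⟨fun n => (sts (n - 1)).2.1.1, fun n => (sts (n - 1)).2.1.2, ?_, ?_, fun n hn => ?_⟩
  · exact Primrec.fst.comp (Primrec.fst.comp (Primrec.snd.comp
      (pr_sts.comp (Primrec.nat_sub.comp Primrec.id (Primrec.const 1)))))
  · exact Primrec.snd.comp (Primrec.fst.comp (Primrec.snd.comp
      (pr_sts.comp (Primrec.nat_sub.comp Primrec.id (Primrec.const 1)))))
  · obtain ⟨m, rfl⟩ : ∃ m, n = m + 1 := ⟨n - 1, by omega⟩
    simp only [Nat.add_sub_cancel]
    rw [sts_eq]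
    exact ⟨rfl, rfl⟩

end Vale.Agent.P027.L
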