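import Vale.Agent.P027.L.Vis2

/-! The denominators of the odd multiples satisfy the hypotheses of the growth theorem. -/

set_option linter.all false

namespace Vale.Agent.P027.L

open Vale.Agent.P027

lemma not_ord_one {q : ℕ} (hq : q.Prime) : ¬ Ord q 1 := by
  intro h
  have := Fact.mk hq
  have h1 : Dv q 1 := (h.2 1).2 (by norm_num)
  rcases h1 with h1 | h1
  · norm_num at h1
  · rw [xc_of_hasX hasX_1] at h1
    have e : padicValRat q (-64 : ℚ) = (padicValNat q 64 : ℤ) := by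
      rw [padicValRat.neg]
      exact_mod_cast padicValRat.of_nat (p := q) (n := 64)
    rw [e] at h1
    have := Int.natCast_nonneg (padicValNat q 64)
    omega

/-- valuations of a negative square with reduced root -/
lemma val_of_root {q : ℕ} (hq : q.Prime) {x : ℚ} {c d : ℕ} (hc : c ≠ 0) (hd : d ≠ 0)
    (hcop : c.Coprime d) (hx : x = -((c : ℚ) / d) ^ 2) :
    (padicValRat q x < 0 ↔ q ∣ d) ∧
      (q ∣ d → padicValRat q x = -2 * (padicValNat q d : ℤ)) := by
  have := Fact.mk hq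
  have hc0 : (c : ℚ) ≠ 0 := by exact_mod_cast hc
  have hd0 : (d : ℚ) ≠ 0 := by exact_mod_cast hd
  have e : padicValRat q x = 2 * (padicValNat q c : ℤ) - 2 * (padicValNat q d : ℤ) := by
    rw [hx, padicValRat.neg, padicValRat.pow, padicValRat.div hc0 hd0, padicValRat.of_nat,
      padicValRat.of_nat]
    push_cast
    ring
  have hex : q ∣ d → padicValNat q c = 0 := by
    intro h
    apply padicValNat.eq_zero_of_not_dvd
    intro h1
    have h5 := Nat.dvd_gcd h1 h
    rw [hcop] at h5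
    exact hq.one_lt.ne' (Nat.dvd_one.1 h5)
  refine ⟨⟨fun h => ?_, fun h => ?_⟩, fun h => ?_⟩
  · by_contra hcon
    rw [e, padicValNat.eq_zero_of_not_dvd hcon] at h
    have := Int.natCast_nonneg (padicValNat q c)
    simp only [Nat.cast_zero] at h
    omega
  · have h1 : 1 ≤ padicValNat q d := one_le_padicValNat_of_dvd hd h
    rw [e, hex h]
    simp only [Nat.cast_zero]
    omega
  · rw [e, hex h]
    simp only [Nat.cast_zero]
    ring

/-- the denominators satisfy the hypotheses of the growth theorem -/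
theorem dat (hL : LawL) : ∃ d : ℕ → ℕ, Dat d (fun q m => q.Prime ∧ Ord q m) ∧
    ∀ n, n % 2 = 1 → ∀ q, q.Prime → (padicValNat q (d n) ≠ 0 →
      wt q n = padicValNat q (d n) ∧ padicValRat q (xx n) < 0) := by
  obtain ⟨d, h2, h3, hd⟩ := hL
  -- the valuations
  have key : ∀ n, n % 2 = 1 → ∀ q, q.Prime → (padicValRat q (xx n) < 0 ↔ q ∣ d n) ∧
      (q ∣ d n → padicValRat q (xx n) = -2 * (padicValNat q (d n) : ℤ)) := by
    intro n hn q hq
    obtain ⟨c, hcop, hd2, hc3, hd3, hc7, hd7, hx⟩ := hd n hn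
    exact val_of_root hq (by omega) (by omega) hcop hx
  have hd0 : ∀ n, n % 2 = 1 → d n ≠ 0 := by
    intro n hn
    obtain ⟨c, hcop, hd2, hc3, hd3, hc7, hd7, hx⟩ := hd n hn
    omega
  refine ⟨d, ⟨?_, ?_, ?_, ?_, ?_, ?_, ?_, h2, h3⟩, ?_⟩
  · intro n hn
    obtain ⟨c, hcop, hd2, hc3, hd3, hc7, hd7, hx⟩ := hd n hn
    exact hd2
  · intro n hn
    obtain ⟨c, hcop, hd2, hc3, hd3, hc7, hd7, hx⟩ := hd n hn
    exact hd3
  · intro n hn
    obtain ⟨c, hcop, hd2, hc3, hd3, hc7, hd7, hx⟩ := hd n hn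
    exact hd7
  · rintro q ⟨hq, h⟩
    exact not_ord_one hq h
  · rintro q m m' ⟨-, h⟩ ⟨-, h'⟩
    exact h.unique h'
  · intro q n hq hn hqd
    have hn0 : n ≠ 0 := by omega
    have h1 : Dv q n := (dv_xx hn0).2 ((key n hn q hq).1.2 hqd)
    obtain ⟨m, hm⟩ := exists_Ord hq (k := (n : ℤ)) (by exact_mod_cast hn0) h1
    exact ⟨m, ⟨hq, hm⟩, by exact_mod_cast (hm.2 _).1 h1⟩
  · rintro q m n hq ⟨-, hm⟩ ⟨k, rfl⟩ hn
    have := Fact.mk hq
    have hm0 : m ≠ 0 := hm.1.ne'
    have hmk : m * k ≠ 0 := by omega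
    have hk0 : k ≠ 0 := right_ne_zero_of_mul hmk
    have hm2 : m % 2 = 1 := by
      rcases Nat.even_or_odd m with h | h
      · obtain ⟨j, rfl⟩ := h
        have : (j + j) * k = 2 * (j * k) := by ring
        omega
      · exact Nat.odd_iff.1 h
    have h1 : padicValRat q (xx m) < 0 := (dv_xx hm0).1 ((hm.2 _).2 dvd_rfl)
    have h2 := v_mul_neg hq hm0 hk0 h1
    have h3 : q ∣ d m := (key m hm2 q hq).1.1 h1
    have h4 := (key m hm2 q hq).2 h3
    have h5 : padicValRat q (xx (m * k)) < 0 := by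
      rw [h2]
      have := Int.natCast_nonneg (padicValNat q k)
      omega
    have h6 := (key (m * k) hn q hq).2 ((key (m * k) hn q hq).1.1 h5)
    refine ⟨h3, ?_⟩
    rw [Nat.mul_div_cancel_left k (Nat.pos_of_ne_zero hm0)]
    rw [h6, h4] at h2
    omega
  · intro n hn q hq hv
    have hqd : q ∣ d n := by
      by_contra hcon
      exact hv (padicValNat.eq_zero_of_not_dvd hcon)
    obtain ⟨h1, h2⟩ := key n hn q hq
    have h3 := h2 hqd
    refine ⟨?_, h1.2 hqd⟩
    unfold wt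
    rw [h3]
    omega

end Vale.Agent.P027.L
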