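import Vale.Agent.P027.L.Base

/-! Two-descent for `r^4 + 105 r^2 w^2 + 2048 w^4 = s^2`. -/

set_option linter.all false

namespace Vale.Agent.P027.L

theorem split_aux {p : ℕ} (hp : p.Prime) {X Y z j : ℕ} (hco : Nat.Coprime X Y)
    (h : X * Y = p ^ j * z ^ 4)
    (hY : Nat.Coprime p Y) : ∃ e o : ℕ, z = e * o ∧ X = p ^ j * e ^ 4 ∧ Y = o ^ 4 := by
  have hd : p ^ j ∣ X := by
    have h1 : p ^ j ∣ X * Y := ⟨_, h⟩
    exact (Nat.Coprime.pow_left j hY).dvd_of_dvd_mul_right h1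
  obtain ⟨X', rfl⟩ := hd
  have hp0 : 0 < p ^ j := pow_pos hp.pos j
  have h2 : X' * Y = z ^ 4 := by
    have h3 : p ^ j * (X' * Y) = p ^ j * z ^ 4 := by rw [← h]; ring
    exact Nat.eq_of_mul_eq_mul_left hp0 h3
  have hco' : Nat.Coprime X' Y := Nat.Coprime.coprime_dvd_left (Dvd.intro_left _ rfl) hco
  obtain ⟨e, he⟩ := exists_eq_pow_of_mul_eq_pow (a := X') (b := Y) (c := z) (k := 4)
    (by rw [show gcd X' Y = 1 from hco']; exact isUnit_one) h2
  obtain ⟨o, ho⟩ := exists_eq_pow_of_mul_eq_pow (a := Y) (b := X') (c := z) (k := 4)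
    (by rw [show gcd Y X' = 1 from hco'.symm]; exact isUnit_one) (by rw [mul_comm]; exact h2)
  refine ⟨e, o, ?_, by rw [he], ho⟩
  have : z ^ 4 = (e * o) ^ 4 := by rw [← h2, he, ho]; ring
  exact Nat.pow_left_injective (by norm_num : (4 : ℕ) ≠ 0) this

theorem split4 {p : ℕ} (hp : p.Prime) {X Y z : ℕ} (j : ℕ) (hco : Nat.Coprime X Y)
    (h : X * Y = p ^ j * z ^ 4) :
    ∃ e o : ℕ, z = e * o ∧ ((X = p ^ j * e ^ 4 ∧ Y = o ^ 4) ∨ (X = o ^ 4 ∧ Y = p ^ j * e ^ 4)) := by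
  by_cases hY : Nat.Coprime p Y
  · obtain ⟨e, o, h1, h2, h3⟩ := split_aux hp hco h hY
    exact ⟨e, o, h1, Or.inl ⟨h2, h3⟩⟩
  · have hY2 : p ∣ Y := by
      by_contra hn
      exact hY ((Nat.Prime.coprime_iff_not_dvd hp).mpr hn)
    have hX : Nat.Coprime p X := Nat.Coprime.coprime_dvd_left hY2 hco.symm
    obtain ⟨e, o, h1, h2, h3⟩ := split_aux hp hco.symm (by rw [mul_comm]; exact h) hX
    exact ⟨e, o, h1, Or.inr ⟨h3, h2⟩⟩

lemma cop_split {p X Y e o j : ℕ} (hco : Nat.Coprime X Y)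
    (h : (X = p ^ j * e ^ 4 ∧ Y = o ^ 4) ∨ (X = o ^ 4 ∧ Y = p ^ j * e ^ 4)) :
    Nat.Coprime (p ^ j * e ^ 4) (o ^ 4) := by
  rcases h with ⟨h1, h2⟩ | ⟨h1, h2⟩
  · rw [← h1, ← h2]; exact hco
  · rw [← h1, ← h2]; exact hco.symm

lemma prime_2833 : Nat.Prime 2833 := by norm_num

/-- odd common divisors of the two factors -/
lemma cop2 {u v e o K j : ℕ} (heo : Nat.Coprime e o) (huv : u * v = 2 ^ j * e ^ 4)
    (hN : (2 ^ K : ℤ) * (u + v) = (o : ℤ) ^ 2 - 105 * (e : ℤ) ^ 2 ∨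
      (2 ^ K : ℤ) * (u + v) = 105 * (e : ℤ) ^ 2 - (o : ℤ) ^ 2)
    (hodd : ¬ (2 ∣ u ∧ 2 ∣ v)) : Nat.Coprime u v := by
  refine Nat.coprime_of_dvd fun k hk hku hkv ↦ ?_
  have hk2 : k ≠ 2 := by
    rintro rfl
    exact hodd ⟨hku, hkv⟩
  have h2 : k ∣ 2 ^ j * e ^ 4 := by rw [← huv]; exact hku.mul_right _
  have h3 : k ∣ e := by
    rcases (Nat.Prime.dvd_mul hk).1 h2 with h4 | h4
    · exact absurd ((Nat.prime_dvd_prime_iff_eq hk Nat.prime_two).1 (hk.dvd_of_dvd_pow h4)) hk2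
    · exact hk.dvd_of_dvd_pow h4
  have h3' : (k : ℤ) ∣ 105 * (e : ℤ) ^ 2 :=
    ((Dvd.dvd.pow (by exact_mod_cast h3) (by norm_num))).mul_left _
  have h4 : (k : ℤ) ∣ (2 ^ K : ℤ) * (u + v) :=
    (dvd_add (by exact_mod_cast hku) (by exact_mod_cast hkv)).mul_left _
  have h5 : (k : ℤ) ∣ (o : ℤ) ^ 2 := by
    rcases hN with h | h
    · have e1 : (o : ℤ) ^ 2 = (2 ^ K : ℤ) * (u + v) + 105 * (e : ℤ) ^ 2 := by linarith
      rw [e1]; exact dvd_add h4 h3'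
    · have e1 : (o : ℤ) ^ 2 = 105 * (e : ℤ) ^ 2 - (2 ^ K : ℤ) * (u + v) := by linarith
      rw [e1]; exact dvd_sub h3' h4
  have h6 : k ∣ o := by
    have : k ∣ o ^ 2 := by exact_mod_cast h5
    exact hk.dvd_of_dvd_pow this
  exact Nat.Prime.not_coprime_iff_dvd.mpr ⟨k, hk, h3, h6⟩ heo

/-- the splitting of the two factors -/
lemma split_uv {u v e o K j : ℕ} (hj : 0 < j) (heo : Nat.Coprime e o) (huv : u * v = 2 ^ j * e ^ 4)
    (hN : (2 ^ K : ℤ) * (u + v) = (o : ℤ) ^ 2 - 105 * (e : ℤ) ^ 2 ∨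
      (2 ^ K : ℤ) * (u + v) = 105 * (e : ℤ) ^ 2 - (o : ℤ) ^ 2)
    (hodd : ¬ (2 ∣ u ∧ 2 ∣ v)) :
    ∃ a b : ℕ, e = a * b ∧ b % 2 = 1 ∧ Nat.Coprime a b ∧ (u : ℤ) + v = 2 ^ j * a ^ 4 + b ^ 4 ∧
      ((v : ℤ) - u = b ^ 4 - 2 ^ j * a ^ 4 ∨ (v : ℤ) - u = 2 ^ j * a ^ 4 - b ^ 4) := by
  have hco := cop2 heo huv hN hodd
  obtain ⟨a, b, hab, hcase⟩ := split4 Nat.prime_two j hco huv
  have h1 := cop_split hco hcase
  have h2 : Nat.Coprime (a ^ 4) (b ^ 4) :=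
    Nat.Coprime.coprime_dvd_left (Dvd.intro_left _ rfl) h1
  have h3 : Nat.Coprime a b := (Nat.coprime_pow_left_iff (by norm_num) _ _).mp
    ((Nat.coprime_pow_right_iff (by norm_num) _ _).mp h2)
  have h4 : Nat.Coprime (2 ^ j) (b ^ 4) :=
    Nat.Coprime.coprime_dvd_left (Dvd.intro _ rfl) h1
  have h5 : Nat.Coprime 2 b := (Nat.coprime_pow_left_iff hj _ _).mp
    ((Nat.coprime_pow_right_iff (by norm_num) _ _).mp h4)
  have h6 : b % 2 = 1 := by
    have h7 : ¬ 2 ∣ b := (Nat.Prime.coprime_iff_not_dvd Nat.prime_two).1 h5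
    omega
  refine ⟨a, b, hab, h6, h3, ?_, ?_⟩
  · rcases hcase with ⟨h7, h8⟩ | ⟨h7, h8⟩ <;> rw [h7, h8] <;> push_cast <;> ring
  · rcases hcase with ⟨h7, h8⟩ | ⟨h7, h8⟩
    · left; rw [h7, h8]; push_cast; ring
    · right; rw [h7, h8]; push_cast; ring

lemma cop2833 {A B w : ℕ} (h : A * B = 2833 * w ^ 4)
    (hk : ∀ k : ℕ, k.Prime → k ∣ A → k ∣ B → k ∣ w → False) : Nat.Coprime A B := by
  refine Nat.coprime_of_dvd fun k hkp hkA hkB ↦ ?_
  refine hk k hkp hkA hkB ?_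
  by_contra hkw
  have h2 : k ^ 2 ∣ 2833 * w ^ 4 := by rw [← h, sq]; exact mul_dvd_mul hkA hkB
  have h3 : Nat.Coprime (k ^ 2) (w ^ 4) :=
    Nat.Coprime.pow _ _ ((Nat.Prime.coprime_iff_not_dvd hkp).2 hkw)
  have h4 : k ^ 2 ∣ 2833 := h3.dvd_of_dvd_mul_right h2
  have h5 : k ∣ 2833 := dvd_trans (Dvd.intro _ (sq k).symm) h4
  have h6 := (Nat.prime_dvd_prime_iff_eq hkp prime_2833).1 h5
  rw [h6] at h4
  have := Nat.le_of_dvd (by norm_num) h4
  norm_num at this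

/-- the first step of the descent -/
lemma first {r w s : ℕ} (hc : Nat.Coprime r w) (hr0 : 0 < r) (hw0 : 0 < w)
    (h : s ^ 2 = r ^ 4 + 105 * r ^ 2 * w ^ 2 + 2048 * w ^ 4) :
    ∃ e o : ℕ, Nat.Coprime e o ∧
      ((w = e * o ∧ w % 2 = 1 ∧
        4 * (r : ℤ) ^ 2 = 2833 * (e : ℤ) ^ 4 - 210 * (e : ℤ) ^ 2 * (o : ℤ) ^ 2 + (o : ℤ) ^ 4) ∨
      (w = 2 * (e * o) ∧ r % 2 = 1 ∧
        (r : ℤ) ^ 2 = 2833 * (e : ℤ) ^ 4 - 210 * (e : ℤ) ^ 2 * (o : ℤ) ^ 2 + (o : ℤ) ^ 4)) := by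
  have hZ : (s : ℤ) ^ 2 = (r : ℤ) ^ 4 + 105 * (r : ℤ) ^ 2 * (w : ℤ) ^ 2 + 2048 * (w : ℤ) ^ 4 := by
    exact_mod_cast h
  have hfac : (2 * (r : ℤ) ^ 2 + 105 * (w : ℤ) ^ 2 - 2 * s) *
      (2 * (r : ℤ) ^ 2 + 105 * (w : ℤ) ^ 2 + 2 * s) = 2833 * (w : ℤ) ^ 4 := by
    linear_combination -4 * hZ
  have hB0 : 0 < 2 * (r : ℤ) ^ 2 + 105 * (w : ℤ) ^ 2 + 2 * s := by positivity
  have hw4 : (0 : ℤ) < 2833 * (w : ℤ) ^ 4 := by positivity
  have hA0 : 0 < 2 * (r : ℤ) ^ 2 + 105 * (w : ℤ) ^ 2 - 2 * s := by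
    by_contra hcon
    push Not at hcon
    have := mul_nonpos_of_nonpos_of_nonneg hcon hB0.le
    linarith
  rcases Nat.even_or_odd' w with ⟨w1, hw1 | hw1⟩
  · -- `w` even
    have hr1 : r % 2 = 1 := by
      by_contra hcon
      have : 2 ∣ Nat.gcd r w := Nat.dvd_gcd (by omega) (by omega)
      rw [Nat.Coprime] at hc; omega
    have hr2 : (r : ℤ) ^ 2 % 2 = 1 := by
      have : (r : ℤ) % 2 = 1 := by omega
      rw [sq, Int.mul_emod, this]; norm_num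
    have hs1 : (s : ℤ) % 2 = 1 := by
      by_contra hcon
      have h0 : (s : ℤ) % 2 = 0 := by omega
      have h1 : (s : ℤ) ^ 2 % 2 = 0 := by rw [sq, Int.mul_emod, h0]; norm_num
      have h2 : (r : ℤ) ^ 4 % 2 = 1 := by
        have : (r : ℤ) ^ 4 = (r : ℤ) ^ 2 * (r : ℤ) ^ 2 := by ring
        rw [this, Int.mul_emod, hr2]; norm_num
      have h3 : (s : ℤ) ^ 2 = (r : ℤ) ^ 4 + 2 * (210 * (r : ℤ) ^ 2 * (w1 : ℤ) ^ 2 +
          16384 * (w1 : ℤ) ^ 4) := by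
        rw [hZ, hw1]; push_cast; ring
      omega
    obtain ⟨α, hα⟩ : ∃ α, (r : ℤ) ^ 2 - s = 2 * α := ⟨((r : ℤ) ^ 2 - s) / 2, by omega⟩
    obtain ⟨β, hβ⟩ : ∃ β, (r : ℤ) ^ 2 + s = 2 * β := ⟨((r : ℤ) ^ 2 + s) / 2, by omega⟩
    have hwq : (w : ℤ) = 2 * w1 := by rw [hw1]; push_cast; ring
    have eA : 2 * (r : ℤ) ^ 2 + 105 * (w : ℤ) ^ 2 - 2 * s = 4 * (α + 105 * (w1 : ℤ) ^ 2) := by
      rw [hwq]; linear_combination 2 * hα
    have eB : 2 * (r : ℤ) ^ 2 + 105 * (w : ℤ) ^ 2 + 2 * s = 4 * (β + 105 * (w1 : ℤ) ^ 2) := by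
      rw [hwq]; linear_combination 2 * hβ
    rw [eA, eB, hwq] at hfac
    rw [eA] at hA0
    rw [eB] at hB0
    obtain ⟨A, hA⟩ := Int.eq_ofNat_of_zero_le (show 0 ≤ α + 105 * (w1 : ℤ) ^ 2 by linarith)
    obtain ⟨B, hB⟩ := Int.eq_ofNat_of_zero_le (show 0 ≤ β + 105 * (w1 : ℤ) ^ 2 by linarith)
    have hAB : A * B = 2833 * w1 ^ 4 := by
      have e3 : 16 * ((A : ℤ) * B) = 16 * (2833 * (w1 : ℤ) ^ 4) := by
        rw [← hA, ← hB]; linear_combination hfac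
      have : (A : ℤ) * B = 2833 * (w1 : ℤ) ^ 4 := by linarith
      exact_mod_cast this
    have hsum : (A : ℤ) + B = (r : ℤ) ^ 2 + 210 * (w1 : ℤ) ^ 2 := by
      have e3 : 2 * ((A : ℤ) + B) = 2 * ((r : ℤ) ^ 2 + 210 * (w1 : ℤ) ^ 2) := by
        rw [← hA, ← hB]; linear_combination -hα - hβ
      linarith
    have hco : Nat.Coprime A B := by
      refine cop2833 hAB (fun k hk hkA hkB hkw => ?_)
      have h1 : (k : ℤ) ∣ (r : ℤ) ^ 2 := by
        have e1 : (r : ℤ) ^ 2 = A + B - 210 * (w1 : ℤ) ^ 2 := by rw [hsum]; ring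
        rw [e1]
        exact dvd_sub (dvd_add (by exact_mod_cast hkA) (by exact_mod_cast hkB))
          ((Dvd.dvd.pow (by exact_mod_cast hkw) (by norm_num)).mul_left _)
      have h2 : k ∣ r := by
        have : k ∣ r ^ 2 := by exact_mod_cast h1
        exact hk.dvd_of_dvd_pow this
      exact Nat.Prime.not_coprime_iff_dvd.mpr ⟨k, hk, h2, by rw [hw1]; exact hkw.mul_left _⟩ hc
    obtain ⟨e, o, hwe, hcase⟩ := split4 prime_2833 1 hco (by rw [hAB, pow_one])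
    have h1 := cop_split hco hcase
    have h2 : Nat.Coprime (e ^ 4) (o ^ 4) :=
      Nat.Coprime.coprime_dvd_left (Dvd.intro_left _ rfl) h1
    have h3 : Nat.Coprime e o := (Nat.coprime_pow_left_iff (by norm_num) _ _).mp
      ((Nat.coprime_pow_right_iff (by norm_num) _ _).mp h2)
    refine ⟨e, o, h3, Or.inr ⟨by rw [hw1, hwe], hr1, ?_⟩⟩
    have e1 : (r : ℤ) ^ 2 = A + B - 210 * (w1 : ℤ) ^ 2 := by rw [hsum]; ring
    have e2 : (A : ℤ) + B = 2833 * (e : ℤ) ^ 4 + (o : ℤ) ^ 4 := by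
      rcases hcase with ⟨h7, h8⟩ | ⟨h7, h8⟩ <;> rw [h7, h8] <;> push_cast <;> ring
    rw [e1, e2, hwe]
    push_cast
    ring
  · -- `w` odd
    obtain ⟨A, hA⟩ := Int.eq_ofNat_of_zero_le hA0.le
    obtain ⟨B, hB⟩ := Int.eq_ofNat_of_zero_le hB0.le
    have hAB : A * B = 2833 * w ^ 4 := by
      have : (A : ℤ) * B = 2833 * (w : ℤ) ^ 4 := by rw [← hA, ← hB]; exact hfac
      exact_mod_cast this
    have hsum : (A : ℤ) + B = 4 * (r : ℤ) ^ 2 + 210 * (w : ℤ) ^ 2 := by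
      rw [← hA, ← hB]; ring
    have hwo : (w ^ 4) % 2 = 1 := by
      rw [Nat.pow_mod, show w % 2 = 1 by omega]
    have hco : Nat.Coprime A B := by
      refine cop2833 hAB (fun k hk hkA hkB hkw => ?_)
      have hk2 : k ≠ 2 := by
        rintro rfl
        omega
      have h1 : (k : ℤ) ∣ 4 * (r : ℤ) ^ 2 := by
        have e1 : 4 * (r : ℤ) ^ 2 = A + B - 210 * (w : ℤ) ^ 2 := by rw [hsum]; ring
        rw [e1]
        exact dvd_sub (dvd_add (by exact_mod_cast hkA) (by exact_mod_cast hkB))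
          ((Dvd.dvd.pow (by exact_mod_cast hkw) (by norm_num)).mul_left _)
      have h2 : k ∣ r := by
        have h3 : k ∣ 4 * r ^ 2 := by exact_mod_cast h1
        rcases hk.dvd_mul.1 h3 with h4 | h4
        · exfalso
          have h5 : k ∣ 2 ^ 2 := h4
          exact hk2 ((Nat.prime_dvd_prime_iff_eq hk Nat.prime_two).1 (hk.dvd_of_dvd_pow h5))
        · exact hk.dvd_of_dvd_pow h4
      exact Nat.Prime.not_coprime_iff_dvd.mpr ⟨k, hk, h2, hkw⟩ hc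
    obtain ⟨e, o, hwe, hcase⟩ := split4 prime_2833 1 hco (by rw [hAB, pow_one])
    have h1 := cop_split hco hcase
    have h2 : Nat.Coprime (e ^ 4) (o ^ 4) :=
      Nat.Coprime.coprime_dvd_left (Dvd.intro_left _ rfl) h1
    have h3 : Nat.Coprime e o := (Nat.coprime_pow_left_iff (by norm_num) _ _).mp
      ((Nat.coprime_pow_right_iff (by norm_num) _ _).mp h2)
    refine ⟨e, o, h3, Or.inl ⟨hwe, by omega, ?_⟩⟩
    have e1 : 4 * (r : ℤ) ^ 2 = A + B - 210 * (w : ℤ) ^ 2 := by rw [hsum]; ring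
    have e2 : (A : ℤ) + B = 2833 * (e : ℤ) ^ 4 + (o : ℤ) ^ 4 := by
      rcases hcase with ⟨h7, h8⟩ | ⟨h7, h8⟩ <;> rw [h7, h8] <;> push_cast <;> ring
    rw [e1, e2, hwe]
    push_cast
    ring

/-- the second step of the descent -/
lemma second {e o : ℕ} {ρ : ℤ} (hρ : 0 ≤ ρ) (he : 0 < e)
    (h : ρ ^ 2 = 2833 * (e : ℤ) ^ 4 - 210 * (e : ℤ) ^ 2 * (o : ℤ) ^ 2 + (o : ℤ) ^ 4) :
    ∃ u v : ℕ, u * v = 2 ^ 11 * e ^ 4 ∧
      ((u : ℤ) + v = (o : ℤ) ^ 2 - 105 * (e : ℤ) ^ 2 ∨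
        (u : ℤ) + v = 105 * (e : ℤ) ^ 2 - (o : ℤ) ^ 2) ∧ (v : ℤ) - u = ρ := by
  obtain ⟨N, hN0, hN⟩ : ∃ N : ℤ, 0 ≤ N ∧ (N = (o : ℤ) ^ 2 - 105 * (e : ℤ) ^ 2 ∨
      N = 105 * (e : ℤ) ^ 2 - (o : ℤ) ^ 2) := by
    rcases le_total 0 ((o : ℤ) ^ 2 - 105 * (e : ℤ) ^ 2) with h1 | h1
    · exact ⟨_, h1, Or.inl rfl⟩
    · exact ⟨_, by linarith, Or.inr rfl⟩
  have hfac : (N - ρ) * (N + ρ) = 8192 * (e : ℤ) ^ 4 := by
    rcases hN with h1 | h1 <;> rw [h1] <;> linear_combination -h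
  have hpos : (0 : ℤ) < 8192 * (e : ℤ) ^ 4 := by positivity
  have hlt : 0 < N - ρ := by
    by_contra hcon
    push Not at hcon
    have := mul_nonpos_of_nonpos_of_nonneg hcon (show 0 ≤ N + ρ by linarith)
    linarith
  have hpar : (N - ρ) % 2 = 0 := by
    by_contra hcon
    have h1 : (N - ρ) % 2 = 1 := by omega
    have h2 : (N + ρ) % 2 = 1 := by omega
    have h3 : ((N - ρ) * (N + ρ)) % 2 = 1 := by rw [Int.mul_emod, h1, h2]; norm_num
    rw [hfac] at h3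
    omega
  obtain ⟨u, hu⟩ : ∃ u, N - ρ = 2 * u := ⟨(N - ρ) / 2, by omega⟩
  obtain ⟨v, hv⟩ : ∃ v, N + ρ = 2 * v := ⟨u + ρ, by linarith⟩
  obtain ⟨u', rfl⟩ := Int.eq_ofNat_of_zero_le (show 0 ≤ u by linarith)
  obtain ⟨v', rfl⟩ := Int.eq_ofNat_of_zero_le (show 0 ≤ v by linarith)
  refine ⟨u', v', ?_, ?_, by linarith⟩
  · have : (u' : ℤ) * v' = 2 ^ 11 * (e : ℤ) ^ 4 := by
      rw [hu, hv] at hfac
      linarith
    exact_mod_cast this
  · rcases hN with h1 | h1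
    · left; linarith
    · right; linarith

lemma odd_sq8 {a : ℤ} (h : a % 2 = 1) : a ^ 2 % 8 = 1 := by
  have h1 : a % 8 = 1 ∨ a % 8 = 3 ∨ a % 8 = 5 ∨ a % 8 = 7 := by omega
  rcases h1 with h1 | h1 | h1 | h1 <;> simp [pow_succ, Int.mul_emod, h1]

/-- Two-descent. -/
theorem a_descent {r w s : ℕ} (hc : Nat.Coprime r w) (hr0 : 0 < r) (hw0 : 0 < w)
    (h : s ^ 2 = r ^ 4 + 105 * r ^ 2 * w ^ 2 + 2048 * w ^ 4) :
    ∃ c d t g : ℕ, Nat.Coprime c d ∧ g * w = 2 * c * d * t ∧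
      ((g * r : ℤ) = c ^ 4 - 2048 * d ^ 4 ∨ (g * r : ℤ) = 2048 * d ^ 4 - c ^ 4) ∧
      ((t : ℤ) ^ 2 = 105 * (c : ℤ) ^ 2 * d ^ 2 + (c ^ 4 + 2048 * d ^ 4) ∨
        (t : ℤ) ^ 2 = 105 * (c : ℤ) ^ 2 * d ^ 2 - (c ^ 4 + 2048 * d ^ 4)) ∧
      ((g = 1 ∧ c % 2 = 1) ∨ (g = 32 ∧ 4 ∣ c ∧ d % 2 = 1 ∧ 8 ∣ 3 * c * d + t) ∨
        (g = 128 ∧ 8 ∣ c ∧ d % 2 = 1 ∧ 16 ∣ 3 * c * d + t) ∨
        (g = 512 ∧ 16 ∣ c ∧ d % 2 = 1 ∧ 32 ∣ 3 * c * d + t)) := by
  obtain ⟨e, o, heo, hcase⟩ := first hc hr0 hw0 h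
  have he0 : 0 < e := by
    refine Nat.pos_of_ne_zero ?_
    rintro rfl
    rcases hcase with ⟨h1, -⟩ | ⟨h1, -⟩ <;> simp at h1 <;> omega
  -- the unified form
  obtain ⟨ρ, hρ0, hρ, hρc⟩ : ∃ ρ : ℤ, 0 ≤ ρ ∧
      ρ ^ 2 = 2833 * (e : ℤ) ^ 4 - 210 * (e : ℤ) ^ 2 * (o : ℤ) ^ 2 + (o : ℤ) ^ 4 ∧
      ((w = e * o ∧ w % 2 = 1 ∧ ρ = 2 * r) ∨ (w = 2 * (e * o) ∧ r % 2 = 1 ∧ ρ = r)) := by
    rcases hcase with ⟨h1, h2, h3⟩ | ⟨h1, h2, h3⟩
    · exact ⟨2 * r, by positivity, by linear_combination h3, Or.inl ⟨h1, h2, rfl⟩⟩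
    · exact ⟨r, by positivity, h3, Or.inr ⟨h1, h2, rfl⟩⟩
  obtain ⟨u, v, huv, hN, hdiff⟩ := second hρ0 he0 hρ
  by_cases hpar : 2 ∣ u ∧ 2 ∣ v
  · -- both even
    obtain ⟨hw, hwo, hρr⟩ : w = e * o ∧ w % 2 = 1 ∧ ρ = 2 * r := by
      rcases hρc with h1 | ⟨-, h2, h3⟩
      · exact h1
      · exfalso
        obtain ⟨⟨u', rfl⟩, ⟨v', rfl⟩⟩ := hpar
        rw [h3] at hdiff
        push_cast at hdiff
        omega
    have heo2 : e % 2 = 1 ∧ o % 2 = 1 := by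
      have : (e * o) % 2 = 1 := by rw [← hw]; exact hwo
      have := Nat.odd_mul.1 (Nat.odd_iff.2 this)
      exact ⟨Nat.odd_iff.1 this.1, Nat.odd_iff.1 this.2⟩
    obtain ⟨he2, ho2⟩ := heo2
    have he4 : e ^ 4 % 2 = 1 := by rw [Nat.pow_mod, he2]
    have hsum8 : ((u : ℤ) + v) % 8 = 0 := by
      have h1 := odd_sq8 (a := (e : ℤ)) (by omega)
      have h2 := odd_sq8 (a := (o : ℤ)) (by omega)
      omega
    obtain ⟨⟨u₁, rfl⟩, ⟨v₁, rfl⟩⟩ := hpar
    have huv1 : u₁ * v₁ = 512 * e ^ 4 := by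
      have : 4 * (u₁ * v₁) = 4 * (512 * e ^ 4) := by linarith
      omega
    have hpar1 : 2 ∣ u₁ ∧ 2 ∣ v₁ := by
      have h1 : 2 ∣ u₁ * v₁ := by rw [huv1]; exact ⟨256 * e ^ 4, by ring⟩
      have h2 : (u₁ + v₁) % 2 = 0 := by push_cast at hsum8; omega
      rcases Nat.prime_two.dvd_mul.1 h1 with h3 | h3 <;> omega
    obtain ⟨⟨u₂, rfl⟩, ⟨v₂, rfl⟩⟩ := hpar1
    have huv2 : u₂ * v₂ = 128 * e ^ 4 := by
      have : 4 * (u₂ * v₂) = 4 * (128 * e ^ 4) := by linarith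
      omega
    have hpar2 : 2 ∣ u₂ ∧ 2 ∣ v₂ := by
      have h1 : 2 ∣ u₂ * v₂ := by rw [huv2]; exact ⟨64 * e ^ 4, by ring⟩
      have h2 : (u₂ + v₂) % 2 = 0 := by push_cast at hsum8; omega
      rcases Nat.prime_two.dvd_mul.1 h1 with h3 | h3 <;> omega
    obtain ⟨⟨u₃, rfl⟩, ⟨v₃, rfl⟩⟩ := hpar2
    have huv3 : u₃ * v₃ = 2 ^ 5 * e ^ 4 := by
      have : 4 * (u₃ * v₃) = 4 * (32 * e ^ 4) := by linarith
      omega
    have hwq : (w : ℤ) = e * o := by exact_mod_cast hw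
    rw [hρr] at hdiff
    push_cast at hN hdiff
    have hodd3 : ∀ a b : ℕ, e = a * b → (3 * (a * b) + o) % 2 = 0 := by
      intro a b hab
      rw [← hab]
      omega
    by_cases hp3 : 2 ∣ u₃ ∧ 2 ∣ v₃
    · obtain ⟨⟨u₄, rfl⟩, ⟨v₄, rfl⟩⟩ := hp3
      have huv4 : u₄ * v₄ = 2 ^ 3 * e ^ 4 := by
        have : 4 * (u₄ * v₄) = 4 * (8 * e ^ 4) := by linarith
        omega
      push_cast at hN hdiff
      by_cases hp4 : 2 ∣ u₄ ∧ 2 ∣ v₄
      · obtain ⟨⟨u₅, rfl⟩, ⟨v₅, rfl⟩⟩ := hp4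
        have huv5 : u₅ * v₅ = 2 ^ 1 * e ^ 4 := by
          have : 4 * (u₅ * v₅) = 4 * (2 * e ^ 4) := by linarith
          omega
        push_cast at hN hdiff
        have hp5 : ¬ (2 ∣ u₅ ∧ 2 ∣ v₅) := by
          rintro ⟨⟨u₆, rfl⟩, ⟨v₆, rfl⟩⟩
          have : 2 * (u₆ * v₆) = e ^ 4 := by
            have : 4 * (u₆ * v₆) = 2 * e ^ 4 := by linarith
            omega
          omega
        obtain ⟨a, b, hab, hb, hcop, hs, hd⟩ := split_uv (K := 5) (by norm_num) heo huv5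
          (by rcases hN with h1 | h1
              · left; linarith
              · right; linarith) hp5
        have heq : (e : ℤ) = a * b := by exact_mod_cast hab
        refine ⟨8 * a, b, 8 * o, 128, ?_, ?_, ?_, ?_, ?_⟩
        · exact Nat.Coprime.mul_left (Nat.Coprime.pow_left 3
            ((Nat.Prime.coprime_iff_not_dvd Nat.prime_two).2 (by omega))) hcop
        · rw [hw, hab]; ring
        · push_cast
          rcases hd with h1 | h1
          · right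
            linear_combination 64 * (16 * h1 * 2 - hdiff) - 0 * h1
          · left
            linear_combination 64 * (16 * h1 * 2 - hdiff) - 0 * h1
        · push_cast
          rcases hN with h1 | h1
          · left
            rw [heq] at h1
            linear_combination 64 * (32 * hs - h1)
          · right
            rw [heq] at h1
            linear_combination 64 * (h1 - 32 * hs)
        · right; right; left
          refine ⟨rfl, Dvd.intro _ rfl, hb, ?_⟩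
          have := hodd3 a b hab
          have e1 : 3 * (8 * a) * b + 8 * o = 8 * (3 * (a * b) + o) := by ring
          rw [e1]
          omega
      · obtain ⟨a, b, hab, hb, hcop, hs, hd⟩ := split_uv (K := 4) (by norm_num) heo huv4
          (by rcases hN with h1 | h1
              · left; linarith
              · right; linarith) hp4
        have heq : (e : ℤ) = a * b := by exact_mod_cast hab
        have ha : a % 2 = 1 := by
          have : (a * b) % 2 = 1 := by rw [← hab]; exact he2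
          exact Nat.odd_iff.1 (Nat.odd_mul.1 (Nat.odd_iff.2 this)).1
        refine ⟨4 * b, a, 4 * o, 32, ?_, ?_, ?_, ?_, ?_⟩
        · exact Nat.Coprime.mul_left (Nat.Coprime.pow_left 2
            ((Nat.Prime.coprime_iff_not_dvd Nat.prime_two).2 (by omega))) hcop.symm
        · rw [hw, hab]; ring
        · push_cast
          rcases hd with h1 | h1
          · left
            linear_combination 16 * (16 * h1 - hdiff)
          · right
            linear_combination 16 * (16 * h1 - hdiff)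
        · push_cast
          rcases hN with h1 | h1
          · left
            rw [heq] at h1
            linear_combination 16 * (16 * hs - h1)
          · right
            rw [heq] at h1
            linear_combination 16 * (h1 - 16 * hs)
        · right; left
          refine ⟨rfl, Dvd.intro _ rfl, ha, ?_⟩
          have := hodd3 a b hab
          have e1 : 3 * (4 * b) * a + 4 * o = 4 * (3 * (a * b) + o) := by ring
          rw [e1]
          omega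
    · obtain ⟨a, b, hab, hb, hcop, hs, hd⟩ := split_uv (K := 3) (by norm_num) heo huv3
        (by rcases hN with h1 | h1
            · left; linarith
            · right; linarith) hp3
      have heq : (e : ℤ) = a * b := by exact_mod_cast hab
      refine ⟨16 * a, b, 16 * o, 512, ?_, ?_, ?_, ?_, ?_⟩
      · exact Nat.Coprime.mul_left (Nat.Coprime.pow_left 4
          ((Nat.Prime.coprime_iff_not_dvd Nat.prime_two).2 (by omega))) hcop
      · rw [hw, hab]; ring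
      · push_cast
        rcases hd with h1 | h1
        · right
          linear_combination 256 * (8 * h1 - hdiff)
        · left
          linear_combination 256 * (8 * h1 - hdiff)
      · push_cast
        rcases hN with h1 | h1
        · left
          rw [heq] at h1
          linear_combination 256 * (8 * hs - h1)
        · right
          rw [heq] at h1
          linear_combination 256 * (h1 - 8 * hs)
      · right; right; right
        refine ⟨rfl, Dvd.intro _ rfl, hb, ?_⟩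
        have := hodd3 a b hab
        have e1 : 3 * (16 * a) * b + 16 * o = 16 * (3 * (a * b) + o) := by ring
        rw [e1]
        omega
  · -- coprime
    obtain ⟨a, b, hab, hb, hcop, hs, hd⟩ := split_uv (K := 0) (by norm_num) heo huv
      (by rw [pow_zero, one_mul]; exact hN) hpar
    have heq : (e : ℤ) = a * b := by exact_mod_cast hab
    obtain ⟨hw, hr1, hρr⟩ : w = 2 * (e * o) ∧ r % 2 = 1 ∧ ρ = r := by
      rcases hρc with ⟨h1, h2, h3⟩ | h1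
      · exfalso
        have : (e * o) % 2 = 1 := by rw [← h1]; exact h2
        have := Nat.odd_mul.1 (Nat.odd_iff.2 this)
        have he2 := Nat.odd_iff.1 this.1
        have ho2 := Nat.odd_iff.1 this.2
        have h4 := odd_sq8 (a := (e : ℤ)) (by omega)
        have h5 := odd_sq8 (a := (o : ℤ)) (by omega)
        have h6 : (b : ℤ) ^ 4 % 2 = 1 := by
          have : (b : ℤ) % 2 = 1 := by omega
          have e1 : (b : ℤ) ^ 4 = (b : ℤ) ^ 2 * (b : ℤ) ^ 2 := by ring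
          have e2 := odd_sq8 this
          rw [e1, Int.mul_emod]
          have e3 : (b : ℤ) ^ 2 % 2 = 1 := by omega
          rw [e3]; norm_num
        omega
      · exact h1
    refine ⟨b, a, o, 1, hcop.symm, ?_, ?_, ?_, Or.inl ⟨rfl, hb⟩⟩
    · rw [hw, hab]; ring
    · push_cast
      rcases hd with h1 | h1
      · left
        linear_combination h1 - hdiff - hρr
      · right
        linear_combination h1 - hdiff - hρr
    · rcases hN with h1 | h1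
      · left
        rw [heq] at h1
        linear_combination hs - h1
      · right
        rw [heq] at h1
        linear_combination h1 - hs

end Vale.Agent.P027.L
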