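import Vale.Agent.P027.L.Frm
import Vale.Agent.P027.L.C5

/-! Completeness of the formula. -/

set_option linter.all false

namespace Vale.Agent.P027.L

open Vale.Agent.P027
open Vale.Agent.P027.Q (DenDvdQ denDvdQ_sound denDvdQ_complete val_neg_iff)

lemma xc_smul_P0 (m n : ℕ) : xc (m • ((n : ℤ) • P0)) = xx (m * n) := by
  unfold xx
  rw [← natCast_zsmul, ← mul_zsmul, Nat.cast_mul]

lemma vden_neg {q : ℕ} (hq : q.Prime) {x : ℚ} (hx : x ≠ 0) (h : padicValRat q x < 0) :
    (padicValNat q x.den : ℤ) = -padicValRat q x := by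
  have := Fact.mk hq
  have h1 := (val_neg_iff hq hx).1 h
  have h2 : ¬ (q : ℤ) ∣ x.num := by
    intro h3
    have h4 : q ∣ x.num.natAbs := Int.natCast_dvd.1 h3
    have h5 := Nat.dvd_gcd h4 h1
    rw [x.reduced] at h5
    exact hq.one_lt.ne' (Nat.dvd_one.1 h5)
  rw [padicValRat, padicValInt.eq_zero_of_not_dvd h2, Nat.cast_zero]
  ring

lemma not_dv_one' (q : ℕ) : ¬ Dv q 1 := by
  rintro (h | h)
  · exact one_ne_zero h
  · rw [xc_of_hasX hasX_1] at h
    have e : (-64 : ℚ) = ((-64 : ℤ) : ℚ) := by norm_num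
    rw [e, padicValRat.of_int] at h
    omega

lemma not_ord_seven {m : ℕ} (hm : Odd m) : ¬ Ord 7 m := by
  intro h
  have h1 : Dv 7 8 := by
    right
    have h := val_7 (k := 1) one_ne_zero
    rw [mul_one] at h
    have h0 : padicValInt 7 1 = 0 := padicValInt.one
    rw [h0] at h
    rw [h]
    norm_num
  have h2 : m ∣ 2 ^ 3 := by
    have := (h.2 _).1 h1
    exact_mod_cast this
  obtain ⟨k, -, hk⟩ := (Nat.dvd_prime_pow Nat.prime_two).1 h2
  have hk0 : k = 0 := by
    by_contra hne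
    have : Even m := by
      rw [hk]
      exact (even_two).pow_of_ne_zero hne
    exact (Nat.not_odd_iff_even.2 this) hm
  rw [hk, hk0] at h
  exact not_dv_one' 7 ((h.2 1).2 (by norm_num))

theorem frm_complete (hL : LawL) {Kl : ℕ → ℕ → ℕ → Prop} {R : Set ℚ} (hR : Rg (KT Kl) R)
    {a N i₀ : ℕ} (hN : 1 ≤ N) (hkl : ∀ N' i, Kl a N' i → N' = N ∧ i ≤ i₀) :
    Frm R (7 ^ a) (3 ^ N) := by
  have f3 := Fact.mk Nat.prime_three
  have f7 : Fact (Nat.Prime 7) := ⟨by norm_num⟩
  obtain ⟨Ω, hΩ⟩ : ∃ Ω, Ω = Om a N i₀ := ⟨_, rfl⟩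
  obtain ⟨X₁, hX₁⟩ : ∃ X₁, X₁ = nxt Ω := ⟨_, rfl⟩
  have hXom : X₁ = Om a N (i₀ + 1) := by rw [hX₁, hΩ]; rfl
  have hΩo : Odd Ω := by rw [hΩ]; exact om_odd a N i₀
  have hΩ0 : Ω ≠ 0 := by rw [hΩ]; exact om_ne a N i₀
  have hXo : Odd X₁ := by rw [hX₁]; exact nxt_odd hΩo
  have hX0 : X₁ ≠ 0 := by rw [hXom]; exact om_ne a N _
  have hX7 : padicValNat 7 X₁ = a + 1 := by rw [hXom]; exact om_v7 a N _
  have hX3 : padicValNat 3 X₁ = N := by rw [hXom]; exact om_v3 a N _
  obtain ⟨n, hn⟩ : 7 ∣ X₁ := by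
    apply dvd_of_one_le_padicValNat
    omega
  have hn0 : n ≠ 0 := by rintro rfl; rw [mul_zero] at hn; exact hX0 hn
  have hno : Odd n := by
    rw [hn] at hXo
    exact (Nat.odd_mul.1 hXo).2
  have hv7 : padicValNat 7 n = a := by
    rw [hn, padicValNat.mul (by norm_num) hn0] at hX7
    have : padicValNat 7 7 = 1 := padicValNat_self
    omega
  have hv3 : padicValNat 3 n = N := by
    rw [hn, padicValNat.mul (by norm_num) hn0] at hX3
    have : padicValNat 3 7 = 0 := padicValNat.eq_zero_of_not_dvd (by norm_num)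
    omega
  obtain ⟨t, ht0, ht⟩ := law_s hL (Nat.odd_iff.1 hno)
  obtain ⟨u, hu0, hu⟩ := law_s hL (Nat.odd_iff.1 hΩo)
  obtain ⟨s, hs0, hs⟩ := law_s hL (Nat.odd_iff.1 hXo)
  have hc0 : (7 : ℚ) ^ a ≠ 0 := by positivity
  have hB0 : (3 : ℚ) ^ N ≠ 0 := by positivity
  refine ⟨⟨hc0, hB0⟩, (n : ℤ) • P0, (Ω : ℤ) • P0, s, t, u, ⟨hs0, ht0, hu0⟩, ?_⟩
  rw [xc_smul_P0, xc_smul_P0, xc_smul_P0, xc_smul_P0, xc_smul_P0]
  have e0 : xc ((n : ℤ) • P0) = xx n := rfl
  have e1 : xc ((Ω : ℤ) • P0) = xx Ω := rfl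
  rw [e0, e1, ← hn]
  refine ⟨⟨ht, hu, hs⟩, ?_, ?_, ?_, ?_⟩
  · have x8 : xx (8 * n) ≠ 0 := xx_ne_zero (mul_ne_zero (by norm_num) hn0)
    have v8 : padicValRat 7 (xx (8 * n)) = -4 - 2 * (padicValNat 7 n : ℤ) := by
      have := val_7 (k := (n : ℤ)) (by exact_mod_cast hn0)
      rw [padicValInt.of_nat] at this
      exact this
    have hc7 : padicValRat 7 ((7 : ℚ) ^ a) = a := by
      have := H123.v_pow_self 7 a
      exact_mod_cast this
    rw [H123.val_one_div, H123.val_expr (by norm_num) hc0 x8, v7_2401, v8, hc7, hv7]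
    omega
  · have x6 : xx (2 * n) ≠ 0 := xx_ne_zero (mul_ne_zero (by norm_num) hn0)
    have v6 : padicValRat 3 (xx (2 * n)) = -2 - 2 * (padicValNat 3 n : ℤ) := v3_double hn0
    have hB3 : padicValRat 3 ((3 : ℚ) ^ N) = N := by
      have := H123.v_pow_self 3 N
      exact_mod_cast this
    rw [H123.val_one_div, H123.val_expr (by norm_num) hB0 x6, H123.v3_nine, v6, hB3, hv3]
    omega
  · have h7Ω : 7 ∣ Ω := by
      apply dvd_of_one_le_padicValNat
      rw [hΩ, om_v7]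
      omega
    have e14 : 14 * n = 2 * X₁ := by rw [hn]; ring
    rw [e14]
    rw [hX₁] at hs ⊢
    exact step_complete st3Complete hL hΩo h7Ω hs0 hs
  · apply denDvdQ_complete (fun z => hR.int z)
    apply hR.sup
    intro q hq hqw
    have hqF : Fact q.Prime := ⟨hq⟩
    have dΩ : ((xx Ω).den : ℚ) ≠ 0 := by exact_mod_cast (xx Ω).den_ne_zero
    have dn : ((xx n).den : ℚ) ≠ 0 := by exact_mod_cast (xx n).den_ne_zero
    have dX : ((xx X₁).den : ℚ) ≠ 0 := by exact_mod_cast (xx X₁).den_ne_zero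
    have hw0 : ((xx Ω).den : ℚ) * (xx Ω).den * (xx n).den / (xx X₁).den ≠ 0 :=
      div_ne_zero (mul_ne_zero (mul_ne_zero dΩ dΩ) dn) dX
    have hneg := (val_neg_iff hq hw0).2 hqw
    rw [padicValRat.div (mul_ne_zero (mul_ne_zero dΩ dΩ) dn) dX,
      padicValRat.mul (mul_ne_zero dΩ dΩ) dn, padicValRat.mul dΩ dΩ, padicValRat.of_nat,
      padicValRat.of_nat, padicValRat.of_nat] at hneg
    have nΩ := Int.natCast_nonneg (padicValNat q (xx Ω).den)
    have nn := Int.natCast_nonneg (padicValNat q (xx n).den)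
    have hqX : q ∣ (xx X₁).den := by
      by_contra hcon
      rw [padicValNat.eq_zero_of_not_dvd hcon, Nat.cast_zero] at hneg
      linarith
    have hvX : padicValRat q (xx X₁) < 0 := (val_neg_iff hq (xx_ne_zero hX0)).2 hqX
    have hdX := vden_neg hq (xx_ne_zero hX0) hvX
    refine ⟨⟨hq, X₁, Nat.odd_iff.1 hXo, hqX⟩, ?_⟩
    rintro ⟨-, a', N', i', hk, ho, -⟩
    have hOX : Om a' N' i' ∣ X₁ := by
      have := (ho.2 (X₁ : ℤ)).1 ((dv_xx hX0).2 hvX)
      exact_mod_cast this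
    have hq7 : q ≠ 7 := by
      rintro rfl
      exact not_ord_seven (om_odd a' N' i') ho
    have hO7 := om_v7 a' N' i'
    have haa : a' ≤ a := by
      have h1 : 7 ^ (a' + 1) ∣ X₁ := by
        refine dvd_trans ?_ hOX
        rw [← hO7]
        exact pow_padicValNat_dvd
      rcases (padicValNat_dvd_iff (p := 7) (a' + 1) X₁).1 h1 with h2 | h2
      · exact absurd h2 hX0
      · omega
    rcases Nat.lt_or_ge a' a with ha | ha
    · -- the index divides `n`
      have hOn : Om a' N' i' ∣ n := by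
        obtain ⟨O', hO'⟩ : 7 ^ (a' + 1) ∣ Om a' N' i' := by
          rw [← hO7]; exact pow_padicValNat_dvd
        have hO'0 : O' ≠ 0 := by
          rintro rfl
          rw [mul_zero] at hO'
          exact om_ne _ _ _ hO'
        have h7O' : ¬ 7 ∣ O' := by
          intro h
          rw [hO', padicValNat.mul (by positivity) hO'0, padicValNat.prime_pow] at hO7
          have := one_le_padicValNat_of_dvd (p := 7) hO'0 h
          omega
        have hco : Nat.Coprime 7 O' := (Nat.Prime.coprime_iff_not_dvd (by norm_num)).2 h7O'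
        have h1 : O' ∣ n := by
          have h2 : O' ∣ 7 * n := by
            rw [← hn]
            refine dvd_trans ?_ hOX
            rw [hO']
            exact dvd_mul_left _ _
          exact hco.symm.dvd_of_dvd_mul_left h2
        have h2 : 7 ^ (a' + 1) ∣ n :=
          dvd_trans (pow_dvd_pow 7 (by omega)) (pow_padicValNat_dvd (p := 7) (n := n))
        rw [hO']
        exact (hco.pow_left _).mul_dvd_of_dvd_of_dvd h2 h1
      have hvn : padicValRat q (xx n) < 0 := (dv_xx hn0).1 ((ho.2 _).2 (by exact_mod_cast hOn))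
      have h1 := v_mul_neg hq hn0 (k := 7) (by norm_num) hvn
      have h2 : padicValNat q 7 = 0 := by
        apply padicValNat.eq_zero_of_not_dvd
        intro h
        exact hq7 ((Nat.prime_dvd_prime_iff_eq hq (by norm_num)).1 h)
      rw [h2, Nat.cast_zero, mul_comm n 7, ← hn] at h1
      have h3 := vden_neg hq (xx_ne_zero hn0) hvn
      linarith
    · have haa' : a' = a := by omega
      subst haa'
      obtain ⟨hN', hi'⟩ := hkl N' i' hk
      subst hN'
      have hOΩ : Om a' N' i' ∣ Ω := by rw [hΩ]; exact om_dvd a' N' hi'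
      have hvΩ : padicValRat q (xx Ω) < 0 := (dv_xx hΩ0).1 ((ho.2 _).2 (by exact_mod_cast hOΩ))
      have hS : ∀ q ∈ Vs Ω, q.Prime := Vs_prime hΩ0
      have hP0 : ∏ q ∈ Vs Ω, q ≠ 0 := Finset.prod_ne_zero_iff.2 (fun q hq => (hS q hq).ne_zero)
      have h1 := v_mul_neg hq hΩ0 (k := ∏ q ∈ Vs Ω, q) hP0 hvΩ
      have e : Ω * ∏ q ∈ Vs Ω, q = X₁ := by rw [hX₁]; rfl
      rw [e] at h1
      have h2 : padicValNat q (∏ q ∈ Vs Ω, q) ≤ 1 := by
        rw [val_prod_primes _ hS hq]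
        split_ifs <;> norm_num
      have h3 := vden_neg hq (xx_ne_zero hΩ0) hvΩ
      have h4 : padicValRat q (xx Ω) = 2 * padicValRat q u := by
        rw [hu, padicValRat.neg, padicValRat.pow]
        norm_num
      have h5 : (padicValNat q (∏ q ∈ Vs Ω, q) : ℤ) ≤ 1 := by exact_mod_cast h2
      omega

end Vale.Agent.P027.L
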