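import Vale.Agent.P027.L.Base
import Vale.Agent.P027.Bdl.B1

/-! Points reducing to the origin: subgroups and multiplication by `n`. -/

set_option linter.all false

namespace Vale.Agent.P027.L

open Vale.Agent.P027

section subgroup

variable (p : ℕ) [hp : Fact p.Prime]

lemma n_le_one (z : ℤ) : padicNorm p (z : ℚ) ≤ 1 := padicNorm.of_int (p := p) z

/-- if both coordinates are large, so is the coordinate of the sum -/
lemma large_sum {a b s d B : ℚ} (hB : 1 < B) (ha : B ≤ padicNorm p a) (hb : B ≤ padicNorm p b)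
    (hne : a ≠ b) (h1 : (s + d) * (a - b) ^ 2 = 2 * ((a * b + 2048) * (a + b) + 210 * (a * b)))
    (h2 : s * d * (a - b) ^ 2 = (a * b - 2048) ^ 2) : B ≤ padicNorm p s := by
  by_contra hcon
  push Not at hcon
  have hab : 1 < padicNorm p (a * b) := by
    rw [padicNorm.mul]; exact one_lt_mul_of_lt_of_le (hB.trans_le ha) (hB.le.trans hb)
  have n2 : padicNorm p 2 ≤ 1 := by exact_mod_cast n_le_one p 2
  have n7 : padicNorm p 2048 ≤ 1 := by exact_mod_cast n_le_one p 2048
  have n20 : padicNorm p 210 ≤ 1 := by exact_mod_cast n_le_one p 210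
  have nm7 : padicNorm p (-2048) ≤ 1 := by rw [padicNorm.neg]; exact n7
  have e1 : padicNorm p (a * b - 2048) = padicNorm p a * padicNorm p b := by
    rw [sub_eq_add_neg, norm_add_left p (by linarith only [hab, nm7]), padicNorm.mul]
  have e2 : padicNorm p (a * b + 2048) = padicNorm p a * padicNorm p b := by
    rw [norm_add_left p (by linarith only [hab, n7]), padicNorm.mul]
  have e3 : padicNorm p s * padicNorm p d * padicNorm p (a - b) ^ 2 =
      (padicNorm p a * padicNorm p b) ^ 2 := by
    have := congrArg (padicNorm p) h2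
    rw [sq, sq, padicNorm.mul, padicNorm.mul, padicNorm.mul, padicNorm.mul, e1] at this
    rw [sq, sq]; exact this
  set α := padicNorm p a with hα
  set β := padicNorm p b with hβ
  set M := max α β with hM
  set μ := min α β with hμ
  have hMμ : α * β = M * μ := (max_mul_min α β).symm
  have hμB : B ≤ μ := le_min ha hb
  have hμM : μ ≤ M := min_le_max
  have hD : padicNorm p (a - b) ≤ M := by
    rw [hM]; exact padicNorm.sub
  have hE : padicNorm p (a + b) ≤ M := padicNorm.nonarchimedean
  have hM0 : 0 < M := by linarith only [hB, hμB, hμM]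
  have hμ0 : 0 < μ := by linarith only [hB, hμB]
  have hM1 : 1 ≤ M := by linarith only [hB, hμB, hμM]
  have e4 : padicNorm p (s + d) * padicNorm p (a - b) ^ 2 ≤ α * β * M := by
    have := congrArg (padicNorm p) h1
    rw [sq, padicNorm.mul, padicNorm.mul, padicNorm.mul] at this
    rw [sq, this]
    have h3 : padicNorm p ((a * b + 2048) * (a + b) + 210 * (a * b)) ≤ α * β * M := by
      refine (padicNorm.nonarchimedean).trans (max_le ?_ ?_)
      · rw [padicNorm.mul, e2]
        exact mul_le_mul_of_nonneg_left hE (by rw [hMμ]; positivity)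
      · rw [padicNorm.mul, padicNorm.mul, ← hα, ← hβ, hMμ]
        calc padicNorm p 210 * (M * μ) ≤ 1 * (M * μ) := mul_le_mul_of_nonneg_right n20 (by positivity)
          _ = M * μ * 1 := by ring
          _ ≤ M * μ * M := mul_le_mul_of_nonneg_left hM1 (by positivity)
    calc padicNorm p 2 * padicNorm p ((a * b + 2048) * (a + b) + 210 * (a * b))
        ≤ 1 * (α * β * M) := mul_le_mul n2 h3 (padicNorm.nonneg _) (by norm_num)
      _ = _ := one_mul _
  have hD0 : 0 < padicNorm p (a - b) :=
    lt_of_le_of_ne (padicNorm.nonneg _) (padicNorm.nonzero (sub_ne_zero.2 hne)).symm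
  set D := padicNorm p (a - b) with hDdef
  have hs0 : 0 ≤ padicNorm p s := padicNorm.nonneg _
  have hd0 : 0 ≤ padicNorm p d := padicNorm.nonneg _
  rw [hMμ] at e3 e4
  have hprod : 0 < padicNorm p s * padicNorm p d * D ^ 2 := by rw [e3]; (clear * - hM0 hμ0; positivity)
  have hdpos : 0 < padicNorm p d := by
    rcases hd0.lt_or_eq with h | h
    · exact h
    · rw [← h] at hprod; simp at hprod
  have hD2 : 0 < D ^ 2 := by (clear * - hD0; positivity)
  have k1 : M ^ 2 * μ < padicNorm p d * D ^ 2 := by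
    have h5 : padicNorm p s * (padicNorm p d * D ^ 2) < μ * (padicNorm p d * D ^ 2) := by
      apply mul_lt_mul_of_pos_right (by linarith only [hcon, hμB]) (by (clear * - hdpos hD0; positivity))
    have h6 : μ * (M ^ 2 * μ) < μ * (padicNorm p d * D ^ 2) := by
      calc μ * (M ^ 2 * μ) = padicNorm p s * padicNorm p d * D ^ 2 := by rw [e3]; ring
        _ = padicNorm p s * (padicNorm p d * D ^ 2) := by ring
        _ < _ := h5
    exact lt_of_mul_lt_mul_left h6 hμ0.le
  have hDM : D ^ 2 ≤ M ^ 2 := by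
    apply pow_le_pow_left₀ hD0.le hD
  have k2 : μ < padicNorm p d := by
    have h7 : μ * D ^ 2 < padicNorm p d * D ^ 2 := by
      calc μ * D ^ 2 ≤ μ * M ^ 2 := by apply mul_le_mul_of_nonneg_left hDM hμ0.le
        _ = M ^ 2 * μ := by ring
        _ < _ := k1
    exact lt_of_mul_lt_mul_right h7 hD2.le
  have k3 : padicNorm p (s + d) = padicNorm p d := by
    rw [add_comm]; exact norm_add_left p (by linarith only [hcon, hμB, k2])
  rw [k3] at e4
  linarith only [e4, k1]

lemma large_cubic {a B : ℚ} (hB : 1 < B) (ha : B ≤ padicNorm p a) :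
    padicNorm p (a ^ 3 + 105 * a ^ 2 + 2048 * a) = padicNorm p a ^ 3 := by
  have n7 : padicNorm p 2048 ≤ 1 := by exact_mod_cast n_le_one p 2048
  have n10 : padicNorm p 105 ≤ 1 := by exact_mod_cast n_le_one p 105
  have h1 : a ^ 3 + 105 * a ^ 2 + 2048 * a = a * (a * a + (105 * a + 2048)) := by ring
  have ha1 : 1 < padicNorm p a := hB.trans_le ha
  have h2 : padicNorm p a < padicNorm p (a * a) := by
    rw [padicNorm.mul]; nlinarith only [ha1]
  have h3 : padicNorm p (105 * a + 2048) ≤ padicNorm p a := by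
    refine (padicNorm.nonarchimedean).trans (max_le ?_ ?_)
    · rw [padicNorm.mul]; nlinarith only [n10, ha1]
    · linarith only [n7, ha1]
  rw [h1, padicNorm.mul, norm_add_left p (by linarith only [h2, h3]), padicNorm.mul]
  ring

lemma large_double {a B : ℚ} (hB : 1 < B) (ha : B ≤ padicNorm p a) :
    B ≤ padicNorm p ((a ^ 2 - 2048) ^ 2 / (4 * (a ^ 3 + 105 * a ^ 2 + 2048 * a))) := by
  have n7 : padicNorm p (-2048) ≤ 1 := by exact_mod_cast n_le_one p (-2048)
  have n4 : padicNorm p 4 ≤ 1 := by exact_mod_cast n_le_one p 4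
  have n4' : 0 < padicNorm p 4 :=
    lt_of_le_of_ne (padicNorm.nonneg _) (padicNorm.nonzero (by norm_num)).symm
  have h2 : 1 < padicNorm p (a * a) := by rw [padicNorm.mul]; nlinarith only [hB, ha]
  have h3 : padicNorm p ((a ^ 2 - 2048) ^ 2) = padicNorm p a ^ 4 := by
    rw [sq, sq, padicNorm.mul, sub_eq_add_neg, norm_add_left p (by linarith), padicNorm.mul]
    ring
  rw [padicNorm.div, padicNorm.mul, h3, large_cubic p hB ha]
  have ha0 : 0 < padicNorm p a := by linarith only [hB, ha]
  rw [le_div_iff₀ (by (clear * - n4' ha0; positivity))]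
  have h4 : padicNorm p 4 * padicNorm p a ^ 3 ≤ padicNorm p a ^ 3 := by nlinarith only [n4, pow_pos ha0 3]
  calc B * (padicNorm p 4 * padicNorm p a ^ 3) ≤ B * padicNorm p a ^ 3 := by
        apply mul_le_mul_of_nonneg_left h4; linarith
    _ ≤ padicNorm p a * padicNorm p a ^ 3 := by
        apply mul_le_mul_of_nonneg_right ha; (clear * - ha0; positivity)
    _ = padicNorm p a ^ 4 := by ring

/-- the subgroup of points whose first coordinate has norm at least `B` -/
def GG (B : ℚ) (hB : 1 < B) : AddSubgroup E.Point where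
  carrier := {V | ∀ x, HasX V x → B ≤ padicNorm p x}
  zero_mem' := fun x h => (not_hasX_zero h).elim
  neg_mem' := fun {V} hV x hx => hV x (by simpa using hx.neg)
  add_mem' := by
    intro V W hV hW x hx
    by_cases hV0 : V = 0
    · subst hV0; exact hW x (by simpa using hx)
    by_cases hW0 : W = 0
    · subst hW0; exact hV x (by simpa using hx)
    obtain ⟨a, ha⟩ := exists_hasX hV0
    obtain ⟨b, hb⟩ := exists_hasX hW0
    have hVa := hV a ha
    have hWb := hW b hb
    by_cases hab : a = b
    · subst hab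
      rcases ha.eq_or_neg hb with h | h
      · subst h
        have ha0 : a ≠ 0 := by
          rintro rfl
          rw [padicNorm.zero] at hVa
          linarith
        rw [hx.unique (hasX_two_smul ha ha0)]
        exact large_double p hB hVa
      · rw [h, neg_add_cancel] at hx
        exact (not_hasX_zero hx).elim
    · obtain ⟨s, d, hs, hd, h1, h2⟩ := hasX_add_sub ha hb hab
      rw [hx.unique hs]
      exact large_sum p hB hVa hWb hab h1 h2

lemma mem_GG {B : ℚ} (hB : 1 < B) {V : E.Point} :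
    V ∈ GG p B hB ↔ ∀ x, HasX V x → B ≤ padicNorm p x := Iff.rfl

lemma mem_GG_of_hasX {B : ℚ} (hB : 1 < B) {V : E.Point} {x : ℚ} (h : HasX V x) :
    V ∈ GG p B hB ↔ B ≤ padicNorm p x := by
  rw [mem_GG]
  refine ⟨fun h1 => h1 x h, fun h1 x' h' => ?_⟩
  rw [h'.unique h]; exact h1

/-- the valuation of a large coordinate is even -/
lemma even_val {V : E.Point} {x B : ℚ} (hV : HasX V x) (hB : 1 < B)
    (h : B ≤ padicNorm p x) : Even (padicValRat p x) := by
  obtain ⟨y, hy, -⟩ := hV
  have hx0 : x ≠ 0 := ne_zero_of_norm (by linarith only [hB]) h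
  have hy0 : y ≠ 0 := by
    rintro rfl
    exact cubic_ne hx0 (by linear_combination -hy)
  have h1 := large_cubic p hB h
  rw [← hy, pow_two, padicNorm.mul, norm_eq_zpow p hy0, norm_eq_zpow p hx0] at h1
  have hp1 : (1 : ℚ) < p := by exact_mod_cast hp.out.one_lt
  have hp0 : (p : ℚ) ≠ 0 := by (clear * - hp1; positivity)
  rw [← zpow_add₀ hp0, ← zpow_natCast, ← zpow_mul] at h1
  have h2 := zpow_right_injective₀ (by linarith only [hp1]) hp1.ne' h1
  push_cast at h2
  rw [Int.even_iff]
  omega

end subgroup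

/-- the numbers `m^2 (m^2 - 1) / 12` -/
def SS : ℕ → ℤ
  | 0 => 0
  | 1 => 0
  | (m + 2) => 2 * SS (m + 1) - SS m + ((m : ℤ) + 1) ^ 2

lemma SS_closed (m : ℕ) : 12 * SS m = (m : ℤ) ^ 2 * ((m : ℤ) ^ 2 - 1) ∧
    12 * SS (m + 1) = ((m + 1 : ℕ) : ℤ) ^ 2 * (((m + 1 : ℕ) : ℤ) ^ 2 - 1) := by
  induction m with
  | zero => simp [SS]
  | succ m ih =>
    refine ⟨ih.2, ?_⟩
    obtain ⟨h1, h2⟩ := ih
    have : SS (m + 1 + 1) = 2 * SS (m + 1) - SS m + ((m : ℤ) + 1) ^ 2 := rfl
    rw [this]
    push_cast at h1 h2 ⊢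
    linear_combination 2 * h2 - h1

lemma SS_dvd {q : ℕ} (hq : q.Prime) : (q : ℤ) ∣ 420 * SS q := by
  by_cases h2 : q = 2
  · subst h2; exact ⟨210 * SS 2, by push_cast; ring⟩
  by_cases h3 : q = 3
  · subst h3
    have : SS 3 = 6 := by simp [SS]
    rw [this]; norm_num
  · have h := (SS_closed q).1
    have h4 : (q : ℤ) ∣ 12 * SS q := by
      rw [h, sq, mul_assoc]; exact dvd_mul_right _ _
    have h5 : IsCoprime (q : ℤ) 12 := by

      have : Nat.Coprime q 12 := by
        rw [Nat.Prime.coprime_iff_not_dvd hq]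
        intro h6
        have h7 : q ∣ 2 ^ 2 * 3 := h6
        rcases (Nat.Prime.dvd_mul hq).1 h7 with h8 | h8
        · exact h2 ((Nat.prime_dvd_prime_iff_eq hq Nat.prime_two).1 (hq.dvd_of_dvd_pow h8))
        · exact h3 ((Nat.prime_dvd_prime_iff_eq hq Nat.prime_three).1 h8)
      exact_mod_cast (Nat.isCoprime_iff_coprime.2 this)
    exact (h5.dvd_of_dvd_mul_left h4).mul_left 420

end Vale.Agent.P027.L
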