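import Vale.Agent.P027.L.Base

/-! The laws for the multiples of `P0`: quartic equations and common prime divisors. -/

set_option linter.all false

namespace Vale.Agent.P027.L

/-- the quartic equation, negative coordinate -/
theorem quart_odd {c d : ℕ} (hc : 0 < c) (hd : 0 < d) {X Y : ℚ}
    (h : Y ^ 2 = X ^ 3 + 105 * X ^ 2 + 2048 * X) (hX : X = -((c : ℚ) / d) ^ 2) :
    ∃ t : ℕ, t ^ 2 + c ^ 4 + 2048 * d ^ 4 = 105 * c ^ 2 * d ^ 2 := by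
  have hr' : (c : ℚ) ≠ 0 := by positivity
  have hw' : (d : ℚ) ≠ 0 := by positivity
  have h1 : ((105 * (c : ℤ) ^ 2 * (d : ℤ) ^ 2 - (c : ℤ) ^ 4 - 2048 * (d : ℤ) ^ 4 : ℤ) : ℚ) =
      (Y * d ^ 3 / c) * (Y * d ^ 3 / c) := by
    have e : (Y * d ^ 3 / c) * (Y * d ^ 3 / c) = Y ^ 2 * d ^ 6 / c ^ 2 := by
      field_simp
    rw [e, h, hX]
    push_cast
    field_simp
    ring
  have h2 : IsSquare ((105 * (c : ℤ) ^ 2 * (d : ℤ) ^ 2 - (c : ℤ) ^ 4 - 2048 * (d : ℤ) ^ 4 : ℤ) : ℚ) :=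
    ⟨_, h1⟩
  rw [Rat.isSquare_intCast_iff] at h2
  obtain ⟨t, ht⟩ := h2
  refine ⟨t.natAbs, ?_⟩
  have h3 : ((t.natAbs ^ 2 + c ^ 4 + 2048 * d ^ 4 : ℕ) : ℤ) = ((105 * c ^ 2 * d ^ 2 : ℕ) : ℤ) := by
    push_cast
    rw [sq_abs]
    linarith
  exact_mod_cast h3

/-- the quartic equation, positive coordinate -/
theorem quart_even {c d : ℕ} (hc : 0 < c) (hd : 0 < d) {X Y : ℚ}
    (h : Y ^ 2 = X ^ 3 + 105 * X ^ 2 + 2048 * X) (hX : X = ((c : ℚ) / d) ^ 2) :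
    ∃ t : ℕ, t ^ 2 = c ^ 4 + 105 * c ^ 2 * d ^ 2 + 2048 * d ^ 4 := by
  have hr' : (c : ℚ) ≠ 0 := by positivity
  have hw' : (d : ℚ) ≠ 0 := by positivity
  have h1 : (((c : ℤ) ^ 4 + 105 * (c : ℤ) ^ 2 * (d : ℤ) ^ 2 + 2048 * (d : ℤ) ^ 4 : ℤ) : ℚ) =
      (Y * d ^ 3 / c) * (Y * d ^ 3 / c) := by
    have e : (Y * d ^ 3 / c) * (Y * d ^ 3 / c) = Y ^ 2 * d ^ 6 / c ^ 2 := by
      field_simp
    rw [e, h, hX]
    push_cast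
    field_simp
  have h2 : IsSquare (((c : ℤ) ^ 4 + 105 * (c : ℤ) ^ 2 * (d : ℤ) ^ 2 + 2048 * (d : ℤ) ^ 4 : ℤ) : ℚ) :=
    ⟨_, h1⟩
  rw [Rat.isSquare_intCast_iff] at h2
  obtain ⟨t, ht⟩ := h2
  refine ⟨t.natAbs, ?_⟩
  have h3 : ((t.natAbs ^ 2 : ℕ) : ℤ) =
      ((c ^ 4 + 105 * c ^ 2 * d ^ 2 + 2048 * d ^ 4 : ℕ) : ℤ) := by
    push_cast
    rw [sq_abs]
    linarith
  exact_mod_cast h3

section nop
variable {p : ℕ} (hp : p.Prime) (hp2 : p ≠ 2)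

include hp hp2

lemma n2 : ¬ (p : ℤ) ∣ 2 := by
  intro h
  have : p ∣ 2 := by exact_mod_cast h
  exact hp2 ((Nat.prime_dvd_prime_iff_eq hp Nat.prime_two).1 this)

lemma n2048 : ¬ (p : ℤ) ∣ 2048 := by
  intro h
  have e : (2048 : ℤ) = 2 ^ 11 := by norm_num
  rw [e] at h
  exact n2 hp hp2 ((Nat.prime_iff_prime_int.1 hp).dvd_of_dvd_pow h)

/-- the curve has no rational point reducing to the other singular point -/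
lemma core {w τ T : ℤ} (hT : ¬ (p : ℤ) ∣ T) (hw : (p : ℤ) ∣ w) (hτ : (p : ℤ) ∣ τ)
    (h : 2833 * T ^ 2 = w ^ 2 - 4 * τ ^ 2 ∨ 2833 * T ^ 2 = w ^ 2 + 4 * τ ^ 2) : False := by
  have hpi := Nat.prime_iff_prime_int.1 hp
  obtain ⟨w', rfl⟩ := hw
  obtain ⟨τ', rfl⟩ := hτ
  have h1 : ∃ z : ℤ, 2833 * T ^ 2 = (p : ℤ) * ((p : ℤ) * z) := by
    rcases h with h | h
    · exact ⟨w' ^ 2 - 4 * τ' ^ 2, by rw [h]; ring⟩
    · exact ⟨w' ^ 2 + 4 * τ' ^ 2, by rw [h]; ring⟩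
  obtain ⟨z, hz⟩ := h1
  have h2 : (p : ℤ) ∣ 2833 := by
    have h3 : (p : ℤ) ∣ 2833 * T ^ 2 := ⟨_, hz⟩
    rcases hpi.dvd_or_dvd h3 with h4 | h4
    · exact h4
    · exact absurd (hpi.dvd_of_dvd_pow h4) hT
  have h3 : p = 2833 := by
    have h4 : p ∣ 2833 := by exact_mod_cast h2
    exact (Nat.prime_dvd_prime_iff_eq hp (by norm_num)).1 h4
  have h4 : T ^ 2 = (p : ℤ) * z := by
    have h5 : (p : ℤ) * T ^ 2 = (p : ℤ) * ((p : ℤ) * z) := by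
      rw [← hz, h3]; norm_num
    exact mul_left_cancel₀ (by exact_mod_cast hp.ne_zero) h5
  exact hT (hpi.dvd_of_dvd_pow ⟨z, h4⟩)

lemma cop_dvd {x y : ℕ} (h : Nat.Coprime x y) (h1 : (p : ℤ) ∣ x) : ¬ (p : ℤ) ∣ y := by
  intro h2
  exact Nat.Prime.not_coprime_iff_dvd.mpr
    ⟨p, hp, Int.natCast_dvd_natCast.1 h1, Int.natCast_dvd_natCast.1 h2⟩ h

/-- doubling: first step -/
lemma nop_ab {c d : ℕ} (hcd : Nat.Coprime c d)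
    (hN : (p : ℤ) ∣ (c : ℤ) ^ 4 - 2048 * (d : ℤ) ^ 4) : ¬ (p : ℤ) ∣ c ∧ ¬ (p : ℤ) ∣ d := by
  have hpi := Nat.prime_iff_prime_int.1 hp
  have hc : ¬ (p : ℤ) ∣ c := by
    intro h
    have h1 : (p : ℤ) ∣ 2048 * (d : ℤ) ^ 4 := by
      have := dvd_sub (dvd_pow h (n := 4) (by norm_num)) hN
      rwa [sub_sub_cancel] at this
    rcases hpi.dvd_or_dvd h1 with h2 | h2
    · exact n2048 hp hp2 h2
    · exact cop_dvd hp hp2 hcd h (hpi.dvd_of_dvd_pow h2)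
  refine ⟨hc, fun h => hc ?_⟩
  have h1 : (p : ℤ) ∣ (c : ℤ) ^ 4 := by
    have := dvd_add hN ((dvd_pow h (n := 4) (by norm_num)).mul_left 2048)
    rwa [sub_add_cancel] at this
  exact hpi.dvd_of_dvd_pow h1

lemma nop_dbl_odd {c d t : ℕ} (hcd : Nat.Coprime c d)
    (ht : t ^ 2 + c ^ 4 + 2048 * d ^ 4 = 105 * c ^ 2 * d ^ 2)
    (hN : (p : ℤ) ∣ (c : ℤ) ^ 4 - 2048 * (d : ℤ) ^ 4) (hM : (p : ℤ) ∣ (c : ℤ) * d * t) : False := by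
  have hpi := Nat.prime_iff_prime_int.1 hp
  obtain ⟨hc, hd⟩ := nop_ab hp hp2 hcd hN
  have ht' : (p : ℤ) ∣ t := by
    rcases hpi.dvd_or_dvd hM with h | h
    · rcases hpi.dvd_or_dvd h with h | h
      · exact absurd h hc
      · exact absurd h hd
    · exact h
  have hz : (t : ℤ) ^ 2 + (c : ℤ) ^ 4 + 2048 * (d : ℤ) ^ 4 = 105 * (c : ℤ) ^ 2 * (d : ℤ) ^ 2 := by
    exact_mod_cast ht
  have h1 : (p : ℤ) ∣ (c : ℤ) ^ 2 * (2 * (c : ℤ) ^ 2 - 105 * (d : ℤ) ^ 2) := by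
    have e : (c : ℤ) ^ 2 * (2 * (c : ℤ) ^ 2 - 105 * (d : ℤ) ^ 2) =
        ((c : ℤ) ^ 4 - 2048 * (d : ℤ) ^ 4) - (t : ℤ) ^ 2 := by linear_combination hz
    rw [e]
    exact dvd_sub hN (dvd_pow ht' two_ne_zero)
  have h2 := (hpi.dvd_or_dvd h1).resolve_left (fun h => hc (hpi.dvd_of_dvd_pow h))
  refine core hp hp2 (w := 2 * (c : ℤ) ^ 2 - 105 * (d : ℤ) ^ 2) (τ := t) (T := (d : ℤ) ^ 2)
    (fun h => hd (hpi.dvd_of_dvd_pow h)) h2 ht' (Or.inr ?_)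
  linear_combination -4 * hz

lemma nop_dbl_even {c d t : ℕ} (hcd : Nat.Coprime c d)
    (ht : t ^ 2 = c ^ 4 + 105 * c ^ 2 * d ^ 2 + 2048 * d ^ 4)
    (hN : (p : ℤ) ∣ (c : ℤ) ^ 4 - 2048 * (d : ℤ) ^ 4) (hM : (p : ℤ) ∣ (c : ℤ) * d * t) : False := by
  have hpi := Nat.prime_iff_prime_int.1 hp
  obtain ⟨hc, hd⟩ := nop_ab hp hp2 hcd hN
  have ht' : (p : ℤ) ∣ t := by
    rcases hpi.dvd_or_dvd hM with h | h
    · rcases hpi.dvd_or_dvd h with h | h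
      · exact absurd h hc
      · exact absurd h hd
    · exact h
  have hz : (t : ℤ) ^ 2 = (c : ℤ) ^ 4 + 105 * (c : ℤ) ^ 2 * (d : ℤ) ^ 2 + 2048 * (d : ℤ) ^ 4 := by
    exact_mod_cast ht
  have h1 : (p : ℤ) ∣ (c : ℤ) ^ 2 * (2 * (c : ℤ) ^ 2 + 105 * (d : ℤ) ^ 2) := by
    have e : (c : ℤ) ^ 2 * (2 * (c : ℤ) ^ 2 + 105 * (d : ℤ) ^ 2) =
        ((c : ℤ) ^ 4 - 2048 * (d : ℤ) ^ 4) + (t : ℤ) ^ 2 := by linear_combination -hz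
    rw [e]
    exact dvd_add hN (dvd_pow ht' two_ne_zero)
  have h2 := (hpi.dvd_or_dvd h1).resolve_left (fun h => hc (hpi.dvd_of_dvd_pow h))
  refine core hp hp2 (w := 2 * (c : ℤ) ^ 2 + 105 * (d : ℤ) ^ 2) (τ := t) (T := (d : ℤ) ^ 2)
    (fun h => hd (hpi.dvd_of_dvd_pow h)) h2 ht' (Or.inl ?_)
  linear_combination 4 * hz

/-- addition of neighbours -/
lemma nop_add {a b c d t : ℕ} (hab : Nat.Coprime a b) (hcd : Nat.Coprime c d)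
    (ht : t ^ 2 = a ^ 4 + 105 * a ^ 2 * b ^ 2 + 2048 * b ^ 4)
    (hT : ((a : ℤ) ^ 2 * c ^ 2 + 2048 * (b ^ 2 * d ^ 2)) ^ 2 +
        4096 * ((a : ℤ) ^ 2 * d ^ 2 + b ^ 2 * c ^ 2) ^ 2 =
        128 * (((a : ℤ) ^ 2 * c ^ 2 - 2048 * (b ^ 2 * d ^ 2)) * (a ^ 2 * d ^ 2 - b ^ 2 * c ^ 2) +
          210 * (a ^ 2 * b ^ 2 * c ^ 2 * d ^ 2)))
    (hN : (p : ℤ) ∣ (a : ℤ) ^ 2 * c ^ 2 + 2048 * (b ^ 2 * d ^ 2))
    (hM : (p : ℤ) ∣ (a : ℤ) ^ 2 * d ^ 2 + b ^ 2 * c ^ 2) : False := by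
  have hpi := Nat.prime_iff_prime_int.1 hp
  have n2 := n2 hp hp2
  have n2048 := n2048 hp hp2
  have pw : ∀ {x : ℤ}, (p : ℤ) ∣ x ^ 2 → (p : ℤ) ∣ x := fun h => hpi.dvd_of_dvd_pow h
  have wp : ∀ {x : ℤ}, (p : ℤ) ∣ x → (p : ℤ) ∣ x ^ 2 := fun h => dvd_pow h two_ne_zero
  have hb : ¬ (p : ℤ) ∣ b := by
    intro h
    have ha : ¬ (p : ℤ) ∣ a := fun h1 => cop_dvd hp hp2 hab h1 h
    have h1 : (p : ℤ) ∣ (a : ℤ) ^ 2 * d ^ 2 :=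
      (dvd_add_left ((wp h).mul_right _)).1 hM
    have hd : (p : ℤ) ∣ d := by
      rcases hpi.dvd_or_dvd h1 with h3 | h3
      · exact absurd (pw h3) ha
      · exact pw h3
    have hc : ¬ (p : ℤ) ∣ c := fun h1 => cop_dvd hp hp2 hcd h1 hd
    have h3 : (p : ℤ) ∣ (a : ℤ) ^ 2 * c ^ 2 :=
      (dvd_add_left (((wp h).mul_right _).mul_left _)).1 hN
    rcases hpi.dvd_or_dvd h3 with h4 | h4
    · exact ha (pw h4)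
    · exact hc (pw h4)
  have hd : ¬ (p : ℤ) ∣ d := by
    intro h
    have hc : ¬ (p : ℤ) ∣ c := fun h1 => cop_dvd hp hp2 hcd h1 h
    have h1 : (p : ℤ) ∣ (b : ℤ) ^ 2 * c ^ 2 :=
      (dvd_add_right ((wp h).mul_left _)).1 hM
    rcases hpi.dvd_or_dvd h1 with h3 | h3
    · exact hb (pw h3)
    · exact hc (pw h3)
  have ha : ¬ (p : ℤ) ∣ a := by
    intro h
    have h1 : (p : ℤ) ∣ 2048 * ((b : ℤ) ^ 2 * d ^ 2) :=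
      (dvd_add_right ((wp h).mul_right _)).1 hN
    rcases hpi.dvd_or_dvd h1 with h3 | h3
    · exact n2048 h3
    · rcases hpi.dvd_or_dvd h3 with h4 | h4
      · exact hb (pw h4)
      · exact hd (pw h4)
  set N : ℤ := (a : ℤ) ^ 2 * c ^ 2 + 2048 * (b ^ 2 * d ^ 2) with hNdef
  set M : ℤ := (a : ℤ) ^ 2 * d ^ 2 + b ^ 2 * c ^ 2 with hMdef
  -- the third relation
  have hT2 : (p : ℤ) ∣ ((a : ℤ) ^ 2 * c ^ 2 - 2048 * (b ^ 2 * d ^ 2)) *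
      (a ^ 2 * d ^ 2 - b ^ 2 * c ^ 2) + 210 * (a ^ 2 * b ^ 2 * c ^ 2 * d ^ 2) := by
    have h1 : (p : ℤ) ∣ N ^ 2 + 4096 * M ^ 2 := dvd_add (wp hN) ((wp hM).mul_left _)
    rw [hT] at h1
    refine (hpi.dvd_or_dvd h1).resolve_left (fun h => n2 ?_)
    have e : (128 : ℤ) = 2 ^ 7 := by norm_num
    rw [e] at h
    exact hpi.dvd_of_dvd_pow h
  have h5 : (p : ℤ) ∣ 2 * ((a : ℤ) ^ 2 * ((d : ℤ) ^ 2 * ((d : ℤ) ^ 2 *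
      (105 * (a : ℤ) ^ 2 + 4096 * (b : ℤ) ^ 2)))) := by
    have e : 2 * ((a : ℤ) ^ 2 * ((d : ℤ) ^ 2 * ((d : ℤ) ^ 2 *
        (105 * (a : ℤ) ^ 2 + 4096 * (b : ℤ) ^ 2)))) =
        -(((a : ℤ) ^ 2 * c ^ 2 - 2048 * (b ^ 2 * d ^ 2)) *
          (a ^ 2 * d ^ 2 - b ^ 2 * c ^ 2) + 210 * (a ^ 2 * b ^ 2 * c ^ 2 * d ^ 2)) +
        (N * ((a : ℤ) ^ 2 * d ^ 2 - b ^ 2 * c ^ 2) +
        M * (4096 * (b : ℤ) ^ 2 * d ^ 2 + 210 * (a : ℤ) ^ 2 * d ^ 2)) := by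
      rw [hNdef, hMdef]; ring
    rw [e]
    exact dvd_add ((dvd_neg).2 hT2) (dvd_add (hN.mul_right _) (hM.mul_right _))
  have h6 : (p : ℤ) ∣ 105 * (a : ℤ) ^ 2 + 4096 * (b : ℤ) ^ 2 := by
    have h := (hpi.dvd_or_dvd h5).resolve_left n2
    have h := (hpi.dvd_or_dvd h).resolve_left (fun h => ha (pw h))
    have h := (hpi.dvd_or_dvd h).resolve_left (fun h => hd (pw h))
    exact (hpi.dvd_or_dvd h).resolve_left (fun h => hd (pw h))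
  have h7 : (p : ℤ) ∣ (a : ℤ) ^ 4 - 2048 * (b : ℤ) ^ 4 := by
    have h8 : (p : ℤ) ∣ (d : ℤ) ^ 2 * ((a : ℤ) ^ 4 - 2048 * (b : ℤ) ^ 4) := by
      have e : (d : ℤ) ^ 2 * ((a : ℤ) ^ 4 - 2048 * (b : ℤ) ^ 4) =
          M * (a : ℤ) ^ 2 - N * (b : ℤ) ^ 2 := by
        rw [hNdef, hMdef]; ring
      rw [e]
      exact dvd_sub (hM.mul_right _) (hN.mul_right _)
    exact (hpi.dvd_or_dvd h8).resolve_left (fun h => hd (pw h))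
  have h8 : (p : ℤ) ∣ 2 * (a : ℤ) ^ 2 + 105 * (b : ℤ) ^ 2 := by
    have h9 : (p : ℤ) ∣ (a : ℤ) ^ 2 * (2 * (a : ℤ) ^ 2 + 105 * (b : ℤ) ^ 2) := by
      have e : (a : ℤ) ^ 2 * (2 * (a : ℤ) ^ 2 + 105 * (b : ℤ) ^ 2) =
          2 * ((a : ℤ) ^ 4 - 2048 * (b : ℤ) ^ 4) + (b : ℤ) ^ 2 *
            (105 * (a : ℤ) ^ 2 + 4096 * (b : ℤ) ^ 2) := by ring
      rw [e]
      exact dvd_add (h7.mul_left _) (h6.mul_left _)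
    exact (hpi.dvd_or_dvd h9).resolve_left (fun h => ha (pw h))
  have hz : (t : ℤ) ^ 2 = (a : ℤ) ^ 4 + 105 * (a : ℤ) ^ 2 * (b : ℤ) ^ 2 + 2048 * (b : ℤ) ^ 4 := by
    exact_mod_cast ht
  have ht' : (p : ℤ) ∣ t := by
    have h9 : (p : ℤ) ∣ (t : ℤ) ^ 2 := by
      have e : (t : ℤ) ^ 2 = (a : ℤ) ^ 2 * (2 * (a : ℤ) ^ 2 + 105 * (b : ℤ) ^ 2) -
          ((a : ℤ) ^ 4 - 2048 * (b : ℤ) ^ 4) := by linear_combination hz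
      rw [e]
      exact dvd_sub (h8.mul_left _) h7
    exact pw h9
  refine core hp hp2 (w := 2 * (a : ℤ) ^ 2 + 105 * (b : ℤ) ^ 2) (τ := t) (T := (b : ℤ) ^ 2)
    (fun h => hb (pw h)) h8 ht' (Or.inl ?_)
  linear_combination 4 * hz

end nop

end Vale.Agent.P027.L
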