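import Mathlib

/-! The laws for the multiples of `P0`: residues. -/

set_option linter.all false

namespace Vale.Agent.P027.L

/-- the two-adic table, for the squares of numerator and denominator -/
def Ad (n C D : ℕ) : Prop :=
  ((n % 14 = 1 ∨ n % 14 = 13) ∧ ∃ u, C = 64 * u ∧ u % 16 = 1 ∧ D % 16 = 1) ∨
  ((n % 14 = 5 ∨ n % 14 = 9) ∧ ∃ u, C = 256 * u ∧ u % 16 = 9 ∧ D % 16 = 1) ∨
  ((n % 14 = 3 ∨ n % 14 = 11) ∧ ∃ u, C = 16 * u ∧ u % 16 = 1 ∧ D % 16 = 9) ∨
  (n % 14 = 7 ∧ C % 16 = 1 ∧ D % 16 = 9) ∨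
  ((n % 14 = 6 ∨ n % 14 = 8) ∧ ∃ u, C = 64 * u ∧ u % 16 = 1 ∧ D % 16 = 9) ∨
  ((n % 14 = 2 ∨ n % 14 = 12) ∧ ∃ u, C = 256 * u ∧ u % 16 = 1 ∧ D % 16 = 9) ∨
  ((n % 14 = 4 ∨ n % 14 = 10) ∧ ∃ u, C = 16 * u ∧ u % 16 = 1 ∧ D % 16 = 1) ∨
  (n % 14 = 0 ∧ C % 16 = 1 ∧ D % 64 = 0)

lemma mm {a b r s : ℕ} (ha : a % 16 = r) (hb : b % 16 = s) : (a * b) % 16 = (r * s) % 16 := by
  rw [Nat.mul_mod, ha, hb]

lemma sq16 {w r : ℕ} (h : w % 16 = r) : w ^ 2 % 16 = (r ^ 2) % 16 := by
  rw [Nat.pow_mod, h]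

/-- the exponent in the addition of neighbours -/
def muT (k : ℕ) : ℕ :=
  if k % 7 = 1 ∨ k % 7 = 5 then 6 else if k % 7 = 2 ∨ k % 7 = 4 then 4 else
    if k % 7 = 3 then 5 else 0

lemma add_arith {e o k S T U V : ℕ} (ho : o % 2 = 1) (hk : (e = k ∧ o = k + 1) ∨ (o = k ∧ e = k + 1))
    (h1 : Ad e S T) (h2 : Ad o U V) :
    ∃ g w m, S * U + 2048 * (T * V) = 2 ^ (3 + muT k + g) * w ∧ S * V + T * U = 2 ^ muT k * m ∧
      w % 2 = 1 ∧ m % 2 = 1 ∧ Ad (e + o) (4 ^ g * w ^ 2) (m ^ 2) := by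
  have ho14 : o % 14 % 2 = 1 := by omega
  have he14 : e % 14 % 2 = 0 := by omega
  have hadj : (e + 1) % 14 = o % 14 ∨ (o + 1) % 14 = e % 14 := by omega
  rcases h1 with ⟨he, h1⟩ | ⟨he, h1⟩ | ⟨he, h1⟩ | ⟨he, h1⟩ | ⟨he, s, rfl, hs, hT⟩ |
    ⟨he, s, rfl, hs, hT⟩ | ⟨he, s, rfl, hs, hT⟩ | ⟨he, hS, hT⟩
  · exfalso; omega
  · exfalso; omega
  · exfalso; omega
  · exfalso; omega
  · -- e = ±1
    rcases h2 with ⟨h, h2⟩ | ⟨h, u, rfl, hu, hV⟩ | ⟨h, h2⟩ | ⟨h, hU, hV⟩ | ⟨h, h2⟩ | ⟨h, h2⟩ |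
      ⟨h, h2⟩ | ⟨h, h2⟩
    · exfalso; omega
    · have q1 := mm hs hu
      have q2 := mm hT hV
      have q3 := mm hs hV
      have q4 := mm hT hu
      have hmu : muT k = 6 := by
        unfold muT
        rw [if_pos (by omega)]
      have hw : (8 * (s * u) + T * V) % 16 = 1 := by omega
      have hm : (s * V + 4 * (T * u)) % 16 = 5 := by omega
      refine ⟨2, 8 * (s * u) + T * V, s * V + 4 * (T * u), ?_, ?_, by omega, by omega, ?_⟩
      · rw [hmu]; ring
      · rw [hmu]; ring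
      · have e1 := sq16 hw
        have e2 := sq16 hm
        right; right; left
        exact ⟨by omega, _, by ring, e1, e2⟩
    · exfalso; omega
    · have q1 := mm hs hU
      have q2 := mm hT hV
      have q3 := mm hs hV
      have q4 := mm hT hU
      have hmu : muT k = 0 := by
        unfold muT
        rw [if_neg (by omega), if_neg (by omega), if_neg (by omega)]
      have hw : (s * U + 32 * (T * V)) % 16 = 1 := by omega
      have hm : (64 * (s * V) + T * U) % 16 = 9 := by omega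
      refine ⟨3, s * U + 32 * (T * V), 64 * (s * V) + T * U, ?_, ?_, by omega, by omega, ?_⟩
      · rw [hmu]; ring
      · rw [hmu]; ring
      · have e1 := sq16 hw
        have e2 := sq16 hm
        left
        exact ⟨by omega, _, by ring, e1, e2⟩
    · exfalso; omega
    · exfalso; omega
    · exfalso; omega
    · exfalso; omega
  · -- e = ±2
    rcases h2 with ⟨h, u, rfl, hu, hV⟩ | ⟨h, h2⟩ | ⟨h, u, rfl, hu, hV⟩ | ⟨h, h2⟩ | ⟨h, h2⟩ |
      ⟨h, h2⟩ | ⟨h, h2⟩ | ⟨h, h2⟩
    · have q1 := mm hs hu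
      have q2 := mm hT hV
      have q3 := mm hs hV
      have q4 := mm hT hu
      have hmu : muT k = 6 := by
        unfold muT
        rw [if_pos (by omega)]
      have hw : (8 * (s * u) + T * V) % 16 = 1 := by omega
      have hm : (4 * (s * V) + T * u) % 16 = 13 := by omega
      refine ⟨2, 8 * (s * u) + T * V, 4 * (s * V) + T * u, ?_, ?_, by omega, by omega, ?_⟩
      · rw [hmu]; ring
      · rw [hmu]; ring
      · have e1 := sq16 hw
        have e2 := sq16 hm
        right; right; left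
        exact ⟨by omega, _, by ring, e1, e2⟩
    · exfalso; omega
    · have q1 := mm hs hu
      have q2 := mm hT hV
      have q3 := mm hs hV
      have q4 := mm hT hu
      have hmu : muT k = 4 := by
        unfold muT
        rw [if_neg (by omega), if_pos (by omega)]
      have hw : (2 * (s * u) + T * V) % 16 = 3 := by omega
      have hm : (16 * (s * V) + T * u) % 16 = 9 := by omega
      refine ⟨4, 2 * (s * u) + T * V, 16 * (s * V) + T * u, ?_, ?_, by omega, by omega, ?_⟩
      · rw [hmu]; ring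
      · rw [hmu]; ring
      · have e1 := sq16 hw
        have e2 := sq16 hm
        right; left
        exact ⟨by omega, _, by ring, e1, e2⟩
    · exfalso; omega
    · exfalso; omega
    · exfalso; omega
    · exfalso; omega
    · exfalso; omega
  · -- e = ±3
    rcases h2 with ⟨h, h2⟩ | ⟨h, u, rfl, hu, hV⟩ | ⟨h, u, rfl, hu, hV⟩ | ⟨h, h2⟩ | ⟨h, h2⟩ |
      ⟨h, h2⟩ | ⟨h, h2⟩ | ⟨h, h2⟩
    · exfalso; omega
    · have q1 := mm hs hu
      have q2 := mm hT hV
      have q3 := mm hs hV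
      have q4 := mm hT hu
      have hmu : muT k = 4 := by
        unfold muT
        rw [if_neg (by omega), if_pos (by omega)]
      have hw : (2 * (s * u) + T * V) % 16 = 3 := by omega
      have hm : (s * V + 16 * (T * u)) % 16 = 1 := by omega
      refine ⟨4, 2 * (s * u) + T * V, s * V + 16 * (T * u), ?_, ?_, by omega, by omega, ?_⟩
      · rw [hmu]; ring
      · rw [hmu]; ring
      · have e1 := sq16 hw
        have e2 := sq16 hm
        right; left
        exact ⟨by omega, _, by ring, e1, e2⟩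
    · have q1 := mm hs hu
      have q2 := mm hT hV
      have q3 := mm hs hV
      have q4 := mm hT hu
      have hmu : muT k = 5 := by
        unfold muT
        rw [if_neg (by omega), if_neg (by omega), if_pos (by omega)]
      have hw : (s * u + 8 * (T * V)) % 16 = 9 := by omega
      obtain ⟨m, hm⟩ : ∃ m, s * V + T * u = 2 * m := ⟨(s * V + T * u) / 2, by omega⟩
      have hm8 : m % 8 = 5 := by omega
      refine ⟨0, s * u + 8 * (T * V), m, ?_, ?_, by omega, by omega, ?_⟩
      · rw [hmu]; ring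
      · rw [hmu]
        have : 16 * s * V + T * (16 * u) = 16 * (s * V + T * u) := by ring
        rw [this, hm]
        ring
      · have e1 := sq16 hw
        have e2 : m ^ 2 % 16 = 9 := by
          have h16 : m % 16 = 5 ∨ m % 16 = 13 := by omega
          rcases h16 with h | h <;> rw [Nat.pow_mod, h]
        right; right; right; left
        refine ⟨by omega, ?_, e2⟩
        rw [pow_zero, one_mul]
        exact e1
    · exfalso; omega
    · exfalso; omega
    · exfalso; omega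
    · exfalso; omega
    · exfalso; omega
  · -- e = 0
    rcases h2 with ⟨h, u, rfl, hu, hV⟩ | ⟨h, h2⟩ | ⟨h, h2⟩ | ⟨h, h2⟩ | ⟨h, h2⟩ |
      ⟨h, h2⟩ | ⟨h, h2⟩ | ⟨h, h2⟩
    · obtain ⟨T', rfl⟩ : ∃ T', T = 64 * T' := ⟨T / 64, by omega⟩
      have q1 := mm hS hu
      have q3 := mm hS hV
      have hmu : muT k = 0 := by
        unfold muT
        rw [if_neg (by omega), if_neg (by omega), if_neg (by omega)]
      have hw : (S * u + 2048 * (T' * V)) % 16 = 1 := by omega
      have hm : (S * V + 4096 * (T' * u)) % 16 = 1 := by omega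
      refine ⟨3, S * u + 2048 * (T' * V), S * V + 4096 * (T' * u), ?_, ?_, by omega, by omega, ?_⟩
      · rw [hmu]; ring
      · rw [hmu]; ring
      · have e1 := sq16 hw
        have e2 := sq16 hm
        left
        exact ⟨by omega, _, by ring, e1, e2⟩
    · exfalso; omega
    · exfalso; omega
    · exfalso; omega
    · exfalso; omega
    · exfalso; omega
    · exfalso; omega
    · exfalso; omega

end Vale.Agent.P027.L
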