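import Vale.Agent.P027.L.LawB

/-! The laws for the multiples of `P0`: residues under doubling. -/

set_option linter.all false

namespace Vale.Agent.P027.L

lemma nat_sq {w : ℤ} {r : ℕ} (h : w % 16 = r) : w.natAbs ^ 2 % 16 = r ^ 2 % 16 := by
  have h1 : ((w.natAbs ^ 2 : ℕ) : ℤ) = w ^ 2 := by
    push_cast
    rw [sq_abs]
  have h2 : w ≡ (r : ℤ) [ZMOD 16] := by
    have : (r : ℤ) % 16 = r := by rw [← h]; exact Int.emod_emod_of_dvd _ (dvd_refl _)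
    exact h.trans this.symm
  have h3 := h2.pow 2
  have h4 : ((w.natAbs ^ 2 : ℕ) : ℤ) % ((16 : ℕ) : ℤ) = ((r ^ 2 : ℕ) : ℤ) % ((16 : ℕ) : ℤ) := by
    rw [h1]
    push_cast
    exact h3
  exact_mod_cast h4

/-- the exponent in the doubling -/
def jT (m : ℕ) : ℕ :=
  if m % 7 = 1 ∨ m % 7 = 6 then 7 else if m % 7 = 2 ∨ m % 7 = 5 then 9 else
    if m % 7 = 3 ∨ m % 7 = 4 then 5 else 0

/-- the shape of the data of the double -/
def DblR (m C D t : ℕ) : Prop := ∃ (g : ℕ) (w : ℤ) (q : ℕ),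
  (C : ℤ) ^ 2 - 2048 * (D : ℤ) ^ 2 = 2 ^ (jT m + g) * w ∧
      4 * (C * D) * t ^ 2 = 4 ^ jT m * q ∧ w % 2 = 1 ∧ (q % 2 = 1 ∨ g = 0) ∧
      Ad (2 * m) (4 ^ g * w.natAbs ^ 2) q

lemma dbl_o1 {m D t : ℕ} (hm : m % 14 = 1 ∨ m % 14 = 13) {u : ℕ} (hu : u % 16 = 1) (hD : D % 16 = 1)
    (ht : t ^ 2 + (64 * u) ^ 2 + 2048 * D ^ 2 = 105 * ((64 * u) * D)) : DblR m (64 * u) D t := by
  have hj : jT m = 7 := by unfold jT; rw [if_pos (by omega)]
  have a1 := mm hu hD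
  have a2 := sq16 hu
  have a3 := sq16 hD
  obtain ⟨t1, ht1⟩ : ∃ t1, t ^ 2 = 64 * t1 := ⟨t ^ 2 / 64, by
    have e1 : (64 * u) ^ 2 = 64 * (64 * u ^ 2) := by ring
    have e2 : 105 * (64 * u * D) = 64 * (105 * (u * D)) := by ring
    omega⟩
  have e0 : t1 + 64 * u ^ 2 + 32 * D ^ 2 = 105 * (u * D) := by
    have e1 : (64 * u) ^ 2 = 64 * (64 * u ^ 2) := by ring
    have e2 : 105 * (64 * u * D) = 64 * (105 * (u * D)) := by ring
    omega
  have ht16 : t1 % 16 = 9 := by omega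
  have hq := mm (a := u * D) (b := t1) (r := 1) (s := 9) (by omega) ht16
  have hw : (2 * (u : ℤ) ^ 2 - (D : ℤ) ^ 2) % 16 = ((1 : ℕ) : ℤ) := by
    have e3 : (((u ^ 2 : ℕ) : ℤ)) % 16 = 1 := by omega
    have e4 : (((D ^ 2 : ℕ) : ℤ)) % 16 = 1 := by omega
    push_cast at e3 e4 ⊢
    omega
  have hw2 := nat_sq hw
  refine ⟨4, 2 * (u : ℤ) ^ 2 - (D : ℤ) ^ 2, u * D * t1, ?_, ?_, by omega, by left; omega, ?_⟩
  · rw [hj]; push_cast; ring
  · rw [hj, ht1]; ring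
  · right; right; right; right; right; left
    exact ⟨by omega, _, by ring, hw2, by omega⟩

lemma dbl_o2 {m D t : ℕ} (hm : m % 14 = 5 ∨ m % 14 = 9) {u : ℕ} (hu : u % 16 = 9) (hD : D % 16 = 1)
    (ht : t ^ 2 + (256 * u) ^ 2 + 2048 * D ^ 2 = 105 * ((256 * u) * D)) : DblR m (256 * u) D t := by
  have hj : jT m = 9 := by unfold jT; rw [if_neg (by omega), if_pos (by omega)]
  have a1 := mm hu hD
  have a2 := sq16 hu
  have a3 := sq16 hD
  obtain ⟨t1, ht1⟩ : ∃ t1, t ^ 2 = 256 * t1 := ⟨t ^ 2 / 256, by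
    have e1 : (256 * u) ^ 2 = 256 * (256 * u ^ 2) := by ring
    have e2 : 105 * (256 * u * D) = 256 * (105 * (u * D)) := by ring
    omega⟩
  have e0 : t1 + 256 * u ^ 2 + 8 * D ^ 2 = 105 * (u * D) := by
    have e1 : (256 * u) ^ 2 = 256 * (256 * u ^ 2) := by ring
    have e2 : 105 * (256 * u * D) = 256 * (105 * (u * D)) := by ring
    omega
  have ht16 : t1 % 16 = 9 := by omega
  have hq := mm (a := u * D) (b := t1) (r := 9) (s := 9) (by omega) ht16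
  have hw : (32 * (u : ℤ) ^ 2 - (D : ℤ) ^ 2) % 16 = ((15 : ℕ) : ℤ) := by
    have e4 : (((D ^ 2 : ℕ) : ℤ)) % 16 = 1 := by omega
    push_cast at e4 ⊢
    omega
  have hw2 := nat_sq hw
  refine ⟨2, 32 * (u : ℤ) ^ 2 - (D : ℤ) ^ 2, u * D * t1, ?_, ?_, by omega, by left; omega, ?_⟩
  · rw [hj]; push_cast; ring
  · rw [hj, ht1]; ring
  · right; right; right; right; right; right; left
    exact ⟨by omega, _, by ring, hw2, by omega⟩

lemma dbl_o3 {m D t : ℕ} (hm : m % 14 = 3 ∨ m % 14 = 11) {u : ℕ} (hu : u % 16 = 1) (hD : D % 16 = 9)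
    (ht : t ^ 2 + (16 * u) ^ 2 + 2048 * D ^ 2 = 105 * ((16 * u) * D)) : DblR m (16 * u) D t := by
  have hj : jT m = 5 := by
    unfold jT; rw [if_neg (by omega), if_neg (by omega), if_pos (by omega)]
  have a1 := mm hu hD
  have a2 := sq16 hu
  have a3 := sq16 hD
  obtain ⟨t1, ht1⟩ : ∃ t1, t ^ 2 = 16 * t1 := ⟨t ^ 2 / 16, by
    have e1 : (16 * u) ^ 2 = 16 * (16 * u ^ 2) := by ring
    have e2 : 105 * (16 * u * D) = 16 * (105 * (u * D)) := by ring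
    omega⟩
  have e0 : t1 + 16 * u ^ 2 + 128 * D ^ 2 = 105 * (u * D) := by
    have e1 : (16 * u) ^ 2 = 16 * (16 * u ^ 2) := by ring
    have e2 : 105 * (16 * u * D) = 16 * (105 * (u * D)) := by ring
    omega
  have ht16 : t1 % 16 = 1 := by omega
  have hq := mm (a := u * D) (b := t1) (r := 9) (s := 1) (by omega) ht16
  have hw : ((u : ℤ) ^ 2 - 8 * (D : ℤ) ^ 2) % 16 = ((9 : ℕ) : ℤ) := by
    have e3 : (((u ^ 2 : ℕ) : ℤ)) % 16 = 1 := by omega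
    have e4 : (((D ^ 2 : ℕ) : ℤ)) % 16 = 1 := by omega
    push_cast at e3 e4 ⊢
    omega
  have hw2 := nat_sq hw
  refine ⟨3, (u : ℤ) ^ 2 - 8 * (D : ℤ) ^ 2, u * D * t1, ?_, ?_, by omega, by left; omega, ?_⟩
  · rw [hj]; push_cast; ring
  · rw [hj, ht1]; ring
  · right; right; right; right; left
    exact ⟨by omega, _, by ring, hw2, by omega⟩

lemma dbl_o0 {m D t : ℕ} (hm : m % 14 = 7) {C : ℕ} (hC : C % 16 = 1) (hD : D % 16 = 9)
    (ht : t ^ 2 + C ^ 2 + 2048 * D ^ 2 = 105 * (C * D)) : DblR m C D t := by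
  have hj : jT m = 0 := by
    unfold jT; rw [if_neg (by omega), if_neg (by omega), if_neg (by omega)]
  have a1 := mm hC hD
  have a2 := sq16 hC
  have a3 := sq16 hD
  obtain ⟨t1, ht1⟩ : ∃ t1, t ^ 2 = 16 * t1 := ⟨t ^ 2 / 16, by omega⟩
  have hw : ((C : ℤ) ^ 2 - 2048 * (D : ℤ) ^ 2) % 16 = ((1 : ℕ) : ℤ) := by
    have e3 : (((C ^ 2 : ℕ) : ℤ)) % 16 = 1 := by omega
    push_cast at e3 ⊢
    omega
  have hw2 := nat_sq hw
  refine ⟨0, (C : ℤ) ^ 2 - 2048 * (D : ℤ) ^ 2, 64 * (C * D * t1), ?_, ?_, by omega,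
    by right; rfl, ?_⟩
  · rw [hj]; push_cast; ring
  · rw [hj, ht1]; ring
  · right; right; right; right; right; right; right
    refine ⟨by omega, ?_, by omega⟩
    rw [pow_zero, one_mul]
    exact hw2

lemma dbl_e1 {m D t : ℕ} (hm : m % 14 = 6 ∨ m % 14 = 8) {u : ℕ} (hu : u % 16 = 1) (hD : D % 16 = 9)
    (ht : t ^ 2 = (64 * u) ^ 2 + 105 * ((64 * u) * D) + 2048 * D ^ 2) : DblR m (64 * u) D t := by
  have hj : jT m = 7 := by unfold jT; rw [if_pos (by omega)]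
  have a1 := mm hu hD
  have a2 := sq16 hu
  have a3 := sq16 hD
  obtain ⟨t1, ht1, ht16⟩ : ∃ t1, t ^ 2 = 64 * t1 ∧ t1 % 16 = 1 :=
    ⟨64 * u ^ 2 + 105 * (u * D) + 32 * D ^ 2, by rw [ht]; ring, by omega⟩
  have hq := mm (a := u * D) (b := t1) (r := 9) (s := 1) (by omega) ht16
  have hw : (2 * (u : ℤ) ^ 2 - (D : ℤ) ^ 2) % 16 = ((1 : ℕ) : ℤ) := by
    have e3 : (((u ^ 2 : ℕ) : ℤ)) % 16 = 1 := by omega
    have e4 : (((D ^ 2 : ℕ) : ℤ)) % 16 = 1 := by omega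
    push_cast at e3 e4 ⊢
    omega
  have hw2 := nat_sq hw
  refine ⟨4, 2 * (u : ℤ) ^ 2 - (D : ℤ) ^ 2, u * D * t1, ?_, ?_, by omega, by left; omega, ?_⟩
  · rw [hj]; push_cast; ring
  · rw [hj, ht1]; ring
  · right; right; right; right; right; left
    exact ⟨by omega, _, by ring, hw2, by omega⟩

lemma dbl_e2 {m D t : ℕ} (hm : m % 14 = 2 ∨ m % 14 = 12) {u : ℕ} (hu : u % 16 = 1) (hD : D % 16 = 9)
    (ht : t ^ 2 = (256 * u) ^ 2 + 105 * ((256 * u) * D) + 2048 * D ^ 2) : DblR m (256 * u) D t := by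
  have hj : jT m = 9 := by unfold jT; rw [if_neg (by omega), if_pos (by omega)]
  have a1 := mm hu hD
  have a2 := sq16 hu
  have a3 := sq16 hD
  obtain ⟨t1, ht1, ht16⟩ : ∃ t1, t ^ 2 = 256 * t1 ∧ t1 % 16 = 9 :=
    ⟨256 * u ^ 2 + 105 * (u * D) + 8 * D ^ 2, by rw [ht]; ring, by omega⟩
  have hq := mm (a := u * D) (b := t1) (r := 9) (s := 9) (by omega) ht16
  have hw : (32 * (u : ℤ) ^ 2 - (D : ℤ) ^ 2) % 16 = ((15 : ℕ) : ℤ) := by
    have e4 : (((D ^ 2 : ℕ) : ℤ)) % 16 = 1 := by omega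
    push_cast at e4 ⊢
    omega
  have hw2 := nat_sq hw
  refine ⟨2, 32 * (u : ℤ) ^ 2 - (D : ℤ) ^ 2, u * D * t1, ?_, ?_, by omega, by left; omega, ?_⟩
  · rw [hj]; push_cast; ring
  · rw [hj, ht1]; ring
  · right; right; right; right; right; right; left
    exact ⟨by omega, _, by ring, hw2, by omega⟩

lemma dbl_e3 {m D t : ℕ} (hm : m % 14 = 4 ∨ m % 14 = 10) {u : ℕ} (hu : u % 16 = 1) (hD : D % 16 = 1)
    (ht : t ^ 2 = (16 * u) ^ 2 + 105 * ((16 * u) * D) + 2048 * D ^ 2) : DblR m (16 * u) D t := by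
  have hj : jT m = 5 := by
    unfold jT; rw [if_neg (by omega), if_neg (by omega), if_pos (by omega)]
  have a1 := mm hu hD
  have a2 := sq16 hu
  have a3 := sq16 hD
  obtain ⟨t1, ht1, ht16⟩ : ∃ t1, t ^ 2 = 16 * t1 ∧ t1 % 16 = 9 :=
    ⟨16 * u ^ 2 + 105 * (u * D) + 128 * D ^ 2, by rw [ht]; ring, by omega⟩
  have hq := mm (a := u * D) (b := t1) (r := 1) (s := 9) (by omega) ht16
  have hw : ((u : ℤ) ^ 2 - 8 * (D : ℤ) ^ 2) % 16 = ((9 : ℕ) : ℤ) := by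
    have e3 : (((u ^ 2 : ℕ) : ℤ)) % 16 = 1 := by omega
    have e4 : (((D ^ 2 : ℕ) : ℤ)) % 16 = 1 := by omega
    push_cast at e3 e4 ⊢
    omega
  have hw2 := nat_sq hw
  refine ⟨3, (u : ℤ) ^ 2 - 8 * (D : ℤ) ^ 2, u * D * t1, ?_, ?_, by omega, by left; omega, ?_⟩
  · rw [hj]; push_cast; ring
  · rw [hj, ht1]; ring
  · right; right; right; right; left
    exact ⟨by omega, _, by ring, hw2, by omega⟩

lemma dbl_e0 {m D t : ℕ} (hm : m % 14 = 0) {C : ℕ} (hC : C % 16 = 1) (hD : D % 64 = 0)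
    (ht : t ^ 2 = C ^ 2 + 105 * (C * D) + 2048 * D ^ 2) : DblR m C D t := by
  have hj : jT m = 0 := by
    unfold jT; rw [if_neg (by omega), if_neg (by omega), if_neg (by omega)]
  obtain ⟨D', rfl⟩ : ∃ D', D = 64 * D' := ⟨D / 64, by omega⟩
  have a2 := sq16 hC
  have hw : ((C : ℤ) ^ 2 - 2048 * ((64 * D' : ℕ) : ℤ) ^ 2) % 16 = ((1 : ℕ) : ℤ) := by
    have e3 : (((C ^ 2 : ℕ) : ℤ)) % 16 = 1 := by omega
    push_cast at e3 ⊢
    have e4 : 2048 * (64 * (D' : ℤ)) ^ 2 = 16 * (524288 * (D' : ℤ) ^ 2) := by ring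
    omega
  have hw2 := nat_sq hw
  refine ⟨0, (C : ℤ) ^ 2 - 2048 * ((64 * D' : ℕ) : ℤ) ^ 2, 64 * (4 * (C * D') * t ^ 2), ?_, ?_,
    by omega, by right; rfl, ?_⟩
  · rw [hj]; push_cast; ring
  · rw [hj]; ring
  · right; right; right; right; right; right; right
    refine ⟨by omega, ?_, by omega⟩
    rw [pow_zero, one_mul]
    exact hw2

lemma dbl_arith {m C D t : ℕ} (h : Ad m C D)
    (ht : (m % 2 = 1 ∧ t ^ 2 + C ^ 2 + 2048 * D ^ 2 = 105 * (C * D)) ∨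
      (m % 2 = 0 ∧ t ^ 2 = C ^ 2 + 105 * (C * D) + 2048 * D ^ 2)) : DblR m C D t := by
  rcases h with ⟨hm, u, rfl, hu, hD⟩ | ⟨hm, u, rfl, hu, hD⟩ | ⟨hm, u, rfl, hu, hD⟩ | ⟨hm, hC, hD⟩ |
    ⟨hm, u, rfl, hu, hD⟩ | ⟨hm, u, rfl, hu, hD⟩ | ⟨hm, u, rfl, hu, hD⟩ | ⟨hm, hC, hD⟩
  · exact dbl_o1 hm hu hD (ht.resolve_right (by omega)).2
  · exact dbl_o2 hm hu hD (ht.resolve_right (by omega)).2
  · exact dbl_o3 hm hu hD (ht.resolve_right (by omega)).2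
  · exact dbl_o0 hm hC hD (ht.resolve_right (by omega)).2
  · exact dbl_e1 hm hu hD (ht.resolve_left (by omega)).2
  · exact dbl_e2 hm hu hD (ht.resolve_left (by omega)).2
  · exact dbl_e3 hm hu hD (ht.resolve_left (by omega)).2
  · exact dbl_e0 hm hC hD (ht.resolve_left (by omega)).2

end Vale.Agent.P027.L
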