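import Vale.Agent.P027.L.LawA
import Vale.Agent.P027.L.LawC

/-! The laws for the multiples of `P0`: residues modulo seven and the induction. -/

set_option linter.all false

namespace Vale.Agent.P027.L

def tC : List ℕ := [1, 1, 4, 4, 0, 4, 2, 4, 2, 2, 4, 4, 0, 2, 1, 1, 4, 2, 4, 4, 0, 1, 2, 2, 4, 2, 4, 2, 0, 2, 4, 2, 4, 2, 2, 1, 0, 4, 4, 2, 4, 1, 1, 2, 0, 4, 4, 2, 2, 4, 2, 4, 0, 4, 4, 1]

def tD : List ℕ := [0, 1, 2, 1, 2, 1, 1, 4, 0, 2, 2, 1, 2, 4, 4, 1, 0, 2, 2, 1, 1, 2, 1, 2, 0, 2, 2, 4, 4, 4, 2, 2, 0, 2, 1, 2, 1, 1, 2, 2, 0, 1, 4, 4, 2, 1, 2, 2, 0, 4, 1, 1, 2, 1, 2, 1]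

/-- the square of the numerator modulo seven -/
def C7 (n : ℕ) : ZMod 7 := ((tC.getD (n % 56) 0 : ℕ) : ZMod 7)

/-- the square of the denominator modulo seven -/
def D7 (n : ℕ) : ZMod 7 := ((tD.getD (n % 56) 0 : ℕ) : ZMod 7)

lemma C7_congr {a b : ℕ} (h : a % 56 = b % 56) : C7 a = C7 b := by unfold C7; rw [h]
lemma D7_congr {a b : ℕ} (h : a % 56 = b % 56) : D7 a = D7 b := by unfold D7; rw [h]

lemma muT_congr {a b : ℕ} (h : a % 56 = b % 56) : muT a = muT b := by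
  have : a % 7 = b % 7 := by omega
  unfold muT
  rw [this]

lemma jT_congr {a b : ℕ} (h : a % 56 = b % 56) : jT a = jT b := by
  have : a % 7 = b % 7 := by omega
  unfold jT
  rw [this]

/-- even and odd neighbours -/
def ev (k : ℕ) : ℕ := if k % 2 = 0 then k else k + 1
def od (k : ℕ) : ℕ := if k % 2 = 0 then k + 1 else k

lemma tab_add : ∀ k < 56, C7 (2 * k + 1) * 4 ^ (3 + muT k) =
      (C7 (ev k) * C7 (od k) + 2048 * (D7 (ev k) * D7 (od k))) ^ 2 ∧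
    D7 (2 * k + 1) * 4 ^ muT k = (C7 (ev k) * D7 (od k) + D7 (ev k) * C7 (od k)) ^ 2 := by
  decide

lemma tab_dbl : ∀ m < 56, C7 (2 * m) * 4 ^ jT m = (C7 m ^ 2 - 2048 * D7 m ^ 2) ^ 2 ∧
    D7 (2 * m) * 4 ^ jT m = 4 * (C7 m * D7 m) * (if m % 2 = 1 then
      105 * (C7 m * D7 m) - C7 m ^ 2 - 2048 * D7 m ^ 2 else
      C7 m ^ 2 + 105 * (C7 m * D7 m) + 2048 * D7 m ^ 2) := by
  decide

lemma add7 (k : ℕ) : C7 (2 * k + 1) * 4 ^ (3 + muT k) =
      (C7 (ev k) * C7 (od k) + 2048 * (D7 (ev k) * D7 (od k))) ^ 2 ∧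
    D7 (2 * k + 1) * 4 ^ muT k = (C7 (ev k) * D7 (od k) + D7 (ev k) * C7 (od k)) ^ 2 := by
  have h := tab_add (k % 56) (Nat.mod_lt _ (by norm_num))
  have h2 : k % 56 % 2 = k % 2 := by omega
  have he : ev (k % 56) % 56 = ev k % 56 := by
    unfold ev
    rw [h2]
    split_ifs <;> omega
  have ho : od (k % 56) % 56 = od k % 56 := by
    unfold od
    rw [h2]
    split_ifs <;> omega
  rw [C7_congr (a := 2 * (k % 56) + 1) (b := 2 * k + 1) (by omega),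
    D7_congr (a := 2 * (k % 56) + 1) (b := 2 * k + 1) (by omega), muT_congr (a := k % 56) (b := k)
    (by omega), C7_congr he, C7_congr ho, D7_congr he, D7_congr ho] at h
  exact h

lemma dbl7 (m : ℕ) : C7 (2 * m) * 4 ^ jT m = (C7 m ^ 2 - 2048 * D7 m ^ 2) ^ 2 ∧
    D7 (2 * m) * 4 ^ jT m = 4 * (C7 m * D7 m) * (if m % 2 = 1 then
      105 * (C7 m * D7 m) - C7 m ^ 2 - 2048 * D7 m ^ 2 else
      C7 m ^ 2 + 105 * (C7 m * D7 m) + 2048 * D7 m ^ 2) := by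
  have h := tab_dbl (m % 56) (Nat.mod_lt _ (by norm_num))
  have h2 : m % 56 % 2 = m % 2 := by omega
  rw [C7_congr (a := 2 * (m % 56)) (b := 2 * m) (by omega),
    D7_congr (a := 2 * (m % 56)) (b := 2 * m) (by omega), jT_congr (a := m % 56) (b := m)
    (by omega), C7_congr (a := m % 56) (b := m) (by omega),
    D7_congr (a := m % 56) (b := m) (by omega), h2] at h
  exact h

/-- the numerator and the denominator of the root of the first coordinate of `n P0` -/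
structure Fr (n c d : ℕ) : Prop where
  cpos : 0 < c
  dpos : 0 < d
  cop : Nat.Coprime c d
  ad : Ad n (c ^ 2) (d ^ 2)
  c7 : ((c : ℕ) : ZMod 7) ^ 2 = C7 n
  d7 : ((d : ℕ) : ZMod 7) ^ 2 = D7 n
  c3 : ((c : ℕ) : ZMod 3) ^ 2 = 1
  d3 : ((d : ℕ) : ZMod 3) ^ 2 = if n % 2 = 1 then 1 else 0
  x : HasX ((n : ℤ) • P0) ((if n % 2 = 1 then (-1 : ℚ) else 1) * ((c : ℚ) / d) ^ 2)

instance : Fact (Nat.Prime 7) := ⟨by norm_num⟩

lemma four7 (j : ℕ) : (4 : ZMod 7) ^ j ≠ 0 := pow_ne_zero _ (by decide)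

lemma cancel7 {x y z : ZMod 7} {j : ℕ} (h1 : x * 4 ^ j = z) (h2 : y * 4 ^ j = z) : x = y :=
  mul_right_cancel₀ (four7 j) (h1.trans h2.symm)

/-- coprimality from odd primes -/
lemma cop_of {N M : ℤ} {x y j l : ℕ} (hnp : ∀ p : ℕ, p.Prime → p ≠ 2 → (p : ℤ) ∣ N → (p : ℤ) ∣ M → False)
    (hx : (x : ℤ) ∣ N) (hy : (y : ℤ) ∣ M) (h2 : x % 2 = 1 ∨ y % 2 = 1) : Nat.Coprime x y := by
  refine Nat.coprime_of_dvd fun p hp h1 h3 => ?_
  have hp2 : p ≠ 2 := by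
    rintro rfl
    omega
  exact hnp p hp hp2 ((Int.natCast_dvd_natCast.2 h1).trans hx)
    ((Int.natCast_dvd_natCast.2 h3).trans hy)

lemma cast_sq_div {N M x y : ℚ} (g : ℚ) (hg : g ≠ 0) (h1 : N = g * x) (h2 : M = g * y) :
    N / M = x / y := by
  rw [h1, h2, mul_div_mul_left _ _ hg]

/-- doubling -/
lemma fr_dbl {m c d : ℕ} (hm : 0 < m) (h : Fr m c d) : ∃ c' d', Fr (2 * m) c' d' := by
  obtain ⟨hc, hd, hcop, hAd, h7c, h7d, h3c, h3d, hx⟩ := h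
  have hcq : (0 : ℚ) < c := by exact_mod_cast hc
  have hdq : (0 : ℚ) < d := by exact_mod_cast hd
  obtain ⟨ε, hε⟩ : ∃ ε : ℚ, ε = if m % 2 = 1 then (-1 : ℚ) else 1 := ⟨_, rfl⟩
  rw [← hε] at hx
  have hε0 : ε = -1 ∨ ε = 1 := by rw [hε]; split_ifs <;> simp
  have hx0 : ε * ((c : ℚ) / d) ^ 2 ≠ 0 := by
    refine mul_ne_zero ?_ (pow_ne_zero _ (div_ne_zero hcq.ne' hdq.ne'))
    rcases hε0 with h | h <;> rw [h] <;> norm_num
  have hdbl := hasX_two_smul hx hx0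
  have hcub := cubic_ne hx0
  obtain ⟨Y, hY, -⟩ := hx
  -- the quartic
  obtain ⟨t, ht⟩ : ∃ t : ℕ, (m % 2 = 1 ∧ t ^ 2 + c ^ 4 + 2048 * d ^ 4 = 105 * c ^ 2 * d ^ 2) ∨
      (m % 2 = 0 ∧ t ^ 2 = c ^ 4 + 105 * c ^ 2 * d ^ 2 + 2048 * d ^ 4) := by
    by_cases h2 : m % 2 = 1
    · rw [if_pos h2] at hε
      obtain ⟨t, ht⟩ := quart_odd hc hd hY (by rw [hε]; ring)
      exact ⟨t, Or.inl ⟨h2, ht⟩⟩
    · rw [if_neg h2] at hε
      obtain ⟨t, ht⟩ := quart_even hc hd hY (by rw [hε]; ring)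
      exact ⟨t, Or.inr ⟨by omega, ht⟩⟩
  have htq : (t : ℚ) ^ 2 = ε * ((c : ℚ) ^ 4 + 2048 * (d : ℚ) ^ 4) + 105 * (c : ℚ) ^ 2 * (d : ℚ) ^ 2 := by
    rcases ht with ⟨h2, ht⟩ | ⟨h2, ht⟩
    · rw [if_pos h2] at hε
      have : (t : ℚ) ^ 2 + (c : ℚ) ^ 4 + 2048 * (d : ℚ) ^ 4 = 105 * (c : ℚ) ^ 2 * (d : ℚ) ^ 2 := by
        exact_mod_cast ht
      rw [hε]; linarith
    · rw [if_neg (by omega)] at hε
      have : (t : ℚ) ^ 2 = (c : ℚ) ^ 4 + 105 * (c : ℚ) ^ 2 * (d : ℚ) ^ 2 + 2048 * (d : ℚ) ^ 4 := by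
        exact_mod_cast ht
      rw [hε]; linarith
  have hε2 : ε ^ 2 = 1 := by rcases hε0 with h | h <;> rw [h] <;> norm_num
  have hcubic : (ε * ((c : ℚ) / d) ^ 2) ^ 3 + 105 * (ε * ((c : ℚ) / d) ^ 2) ^ 2 +
      2048 * (ε * ((c : ℚ) / d) ^ 2) = (c : ℚ) ^ 2 * t ^ 2 / d ^ 6 := by
    rw [htq, eq_div_iff (by positivity)]
    have e3 : ε ^ 3 = ε := by rw [pow_succ, hε2, one_mul]
    have : ((ε * ((c : ℚ) / d) ^ 2) ^ 3 + 105 * (ε * ((c : ℚ) / d) ^ 2) ^ 2 +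
      2048 * (ε * ((c : ℚ) / d) ^ 2)) * d ^ 6 = ε ^ 3 * c ^ 6 + 105 * ε ^ 2 * c ^ 4 * d ^ 2 +
        2048 * ε * c ^ 2 * d ^ 4 := by
      field_simp
    rw [this, e3, hε2]
    ring
  have ht0 : 0 < t := by
    rcases Nat.eq_zero_or_pos t with h | h
    · exfalso
      apply hcub
      rw [hcubic, h]
      simp
    · exact h
  have htq0 : (0 : ℚ) < t := by exact_mod_cast ht0
  have hform : (((ε * ((c : ℚ) / d) ^ 2) ^ 2 - 2048) ^ 2 / (4 * ((ε * ((c : ℚ) / d) ^ 2) ^ 3 +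
      105 * (ε * ((c : ℚ) / d) ^ 2) ^ 2 + 2048 * (ε * ((c : ℚ) / d) ^ 2)))) =
      (((c : ℚ) ^ 4 - 2048 * d ^ 4) / (2 * c * d * t)) ^ 2 := by
    rw [hcubic]
    have e1 : (ε * ((c : ℚ) / d) ^ 2) ^ 2 - 2048 = ((c : ℚ) ^ 4 - 2048 * d ^ 4) / d ^ 4 := by
      rw [mul_pow, hε2]
      field_simp
    rw [e1]
    field_simp
    ring
  rw [hform] at hdbl
  -- residues
  have ht' : (m % 2 = 1 ∧ t ^ 2 + (c ^ 2) ^ 2 + 2048 * (d ^ 2) ^ 2 = 105 * (c ^ 2 * d ^ 2)) ∨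
      (m % 2 = 0 ∧ t ^ 2 = (c ^ 2) ^ 2 + 105 * (c ^ 2 * d ^ 2) + 2048 * (d ^ 2) ^ 2) := by
    rcases ht with ⟨h2, ht⟩ | ⟨h2, ht⟩
    · left; refine ⟨h2, ?_⟩
      have e1 : t ^ 2 + (c ^ 2) ^ 2 + 2048 * (d ^ 2) ^ 2 = t ^ 2 + c ^ 4 + 2048 * d ^ 4 := by ring
      rw [e1, ht]; ring
    · right; exact ⟨h2, by rw [ht]; ring⟩
  obtain ⟨g, w, q, hw, hq, hwo, hqo, hAd'⟩ := dbl_arith hAd ht'
  have hMsq : (2 * c * d * t) ^ 2 = 4 ^ jT m * q := by rw [← hq]; ring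
  obtain ⟨d', hd'⟩ : 2 ^ jT m ∣ 2 * c * d * t := by
    rw [← Nat.pow_dvd_pow_iff (n := 2) two_ne_zero]
    refine ⟨q, ?_⟩
    rw [hMsq, ← pow_mul, mul_comm (jT m) 2, pow_mul]
    norm_num
  have hd'q : d' ^ 2 = q := by
    have e1 : 4 ^ jT m * d' ^ 2 = 4 ^ jT m * q := by
      rw [← hMsq, hd', mul_pow, ← pow_mul, mul_comm (jT m) 2, pow_mul]
      norm_num
    exact Nat.eq_of_mul_eq_mul_left (by positivity) e1
  have hw0 : w ≠ 0 := by rintro rfl; simp at hwo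
  have hd'0 : 0 < d' := by
    rcases Nat.eq_zero_or_pos d' with h | h
    · exfalso
      rw [h, mul_zero] at hd'
      have : 0 < 2 * c * d * t := by positivity
      omega
    · exact h
  have hcz : (c : ℤ) ^ 4 - 2048 * (d : ℤ) ^ 4 = 2 ^ (jT m + g) * w := by
    rw [← hw]; push_cast; ring
  obtain ⟨c', hc'⟩ : ∃ c' : ℕ, c' = 2 ^ g * w.natAbs := ⟨_, rfl⟩
  have hc'z : (c' : ℤ) = 2 ^ g * |w| := by rw [hc']; push_cast; rfl
  have hcz2 : ((c : ℤ) ^ 4 - 2048 * (d : ℤ) ^ 4) ^ 2 = (c' : ℤ) ^ 2 * 4 ^ jT m := by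
    rw [hcz, hc'z]
    have e1 : (|w| : ℤ) ^ 2 = w ^ 2 := sq_abs w
    have e2 : (4 : ℤ) ^ jT m = 2 ^ jT m * 2 ^ jT m := by rw [← mul_pow]; norm_num
    rw [mul_pow, mul_pow, e1, e2, pow_add]
    ring
  have hc'0 : 0 < c' := by rw [hc']; exact Nat.mul_pos (by positivity) (Int.natAbs_pos.2 hw0)
  refine ⟨c', d', ⟨hc'0, hd'0, ?_, ?_, ?_, ?_, ?_, ?_, ?_⟩⟩
  · -- coprime
    refine cop_of (N := (c : ℤ) ^ 4 - 2048 * (d : ℤ) ^ 4) (M := 2 * (c : ℤ) * d * t) (j := 0)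
      (l := 0) ?_ ?_ ?_ ?_
    · intro p hp hp2 h1 h2
      have h3 : (p : ℤ) ∣ (c : ℤ) * d * t := by
        have h4 : (p : ℤ) ∣ 2 * ((c : ℤ) * d * t) := by
          have e : 2 * ((c : ℤ) * d * t) = 2 * (c : ℤ) * d * t := by ring
          rw [e]; exact h2
        exact ((Nat.prime_iff_prime_int.1 hp).dvd_or_dvd h4).resolve_left (n2 hp hp2)
      rcases ht with ⟨-, ht⟩ | ⟨-, ht⟩
      · exact nop_dbl_odd hp hp2 hcop ht h1 h3
      · exact nop_dbl_even hp hp2 hcop ht h1 h3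
    · rw [hcz, hc'z]
      have e1 : (|w| : ℤ) ∣ w := (abs_dvd_self w)
      calc (2 : ℤ) ^ g * |w| ∣ 2 ^ g * w := mul_dvd_mul_left _ e1
        _ ∣ 2 ^ (jT m + g) * w := ⟨2 ^ jT m, by rw [pow_add]; ring⟩
    · refine ⟨2 ^ jT m, ?_⟩
      have := congrArg (fun z : ℕ => (z : ℤ)) hd'
      push_cast at this
      rw [this]; ring
    · rcases hqo with h | h
      · right
        rw [← hd'q] at h
        by_contra hcon
        have : d' ^ 2 % 2 = 0 := by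
          obtain ⟨k, hk⟩ : ∃ k, d' = 2 * k := ⟨d' / 2, by omega⟩
          rw [hk, mul_pow]
          omega
        omega
      · left
        rw [hc', h, pow_zero, one_mul]
        omega
  · -- two-adic table
    have e1 : c' ^ 2 = 4 ^ g * w.natAbs ^ 2 := by
      rw [hc', mul_pow, ← pow_mul, mul_comm g 2, pow_mul]
      norm_num
    rw [e1, hd'q]
    exact hAd'
  · -- seven, numerator
    refine cancel7 (j := jT m) (z := (C7 m ^ 2 - 2048 * D7 m ^ 2) ^ 2) ?_ (dbl7 m).1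
    have := congrArg (fun z : ℤ => (z : ZMod 7)) hcz2
    push_cast at this
    rw [← h7c, ← h7d, ← this]
    ring
  · -- seven, denominator
    refine cancel7 (j := jT m) ?_ (dbl7 m).2
    have e1 := congrArg (fun z : ℕ => (z : ZMod 7)) hMsq
    rw [← hd'q] at e1
    push_cast at e1
    rw [mul_comm, ← e1, ← h7c, ← h7d]
    rcases ht with ⟨h2, ht⟩ | ⟨h2, ht⟩
    · rw [if_pos h2]
      have e2 := congrArg (fun z : ℕ => (z : ZMod 7)) ht
      push_cast at e2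
      linear_combination (4 * (c : ZMod 7) ^ 2 * (d : ZMod 7) ^ 2) * e2
    · rw [if_neg (by omega)]
      have e2 := congrArg (fun z : ℕ => (z : ZMod 7)) ht
      push_cast at e2
      linear_combination (4 * (c : ZMod 7) ^ 2 * (d : ZMod 7) ^ 2) * e2
  · -- three, numerator
    have := congrArg (fun z : ℤ => (z : ZMod 3)) hcz2
    push_cast at this
    have e4 : (4 : ZMod 3) = 1 := by decide
    have e2048 : (2048 : ZMod 3) = 2 := by decide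
    rw [e4, one_pow, mul_one] at this
    rw [← this]
    have e5 : (c : ZMod 3) ^ 4 = 1 := by
      have : (c : ZMod 3) ^ 4 = ((c : ZMod 3) ^ 2) ^ 2 := by ring
      rw [this, h3c]; ring
    have e6 : (d : ZMod 3) ^ 4 = 1 ∨ (d : ZMod 3) ^ 4 = 0 := by
      have : (d : ZMod 3) ^ 4 = ((d : ZMod 3) ^ 2) ^ 2 := by ring
      rw [this, h3d]
      split_ifs
      · left; ring
      · right; ring
    rw [e5, e2048]
    rcases e6 with h | h <;> rw [h] <;> decide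
  · -- three, denominator
    rw [if_neg (by omega)]
    have e1 := congrArg (fun z : ℕ => (z : ZMod 3)) hMsq
    rw [← hd'q] at e1
    push_cast at e1
    have e4 : (4 : ZMod 3) = 1 := by decide
    rw [e4, one_pow, one_mul] at e1
    rw [← e1]
    rcases ht with ⟨h2, ht⟩ | ⟨h2, ht⟩
    · rw [if_pos h2] at h3d
      have e2 := congrArg (fun z : ℕ => (z : ZMod 3)) ht
      push_cast at e2
      have e5 : (c : ZMod 3) ^ 4 = 1 := by
        have : (c : ZMod 3) ^ 4 = ((c : ZMod 3) ^ 2) ^ 2 := by ring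
        rw [this, h3c]; ring
      have e6 : (d : ZMod 3) ^ 4 = 1 := by
        have : (d : ZMod 3) ^ 4 = ((d : ZMod 3) ^ 2) ^ 2 := by ring
        rw [this, h3d]; ring
      rw [e5, e6, h3c, h3d] at e2
      have e7 : (t : ZMod 3) ^ 2 = 0 := by
        have e8 : (105 : ZMod 3) * 1 * 1 - 1 - 2048 * 1 = 0 := by decide
        linear_combination e2 + e8
      have : (2 * (c : ZMod 3) * d * t) ^ 2 = 4 * (c : ZMod 3) ^ 2 * (d : ZMod 3) ^ 2 *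
        (t : ZMod 3) ^ 2 := by ring
      rw [this, e7, mul_zero]
    · rw [if_neg (by omega)] at h3d
      have : (2 * (c : ZMod 3) * d * t) ^ 2 = 4 * (c : ZMod 3) ^ 2 * (d : ZMod 3) ^ 2 *
        (t : ZMod 3) ^ 2 := by ring
      rw [this, h3d]; ring
  · -- the point
    rw [if_neg (by omega), one_mul]
    have e1 : (m : ℤ) • P0 + (m : ℤ) • P0 = ((2 * m : ℕ) : ℤ) • P0 := by
      rw [← add_zsmul]
      congr 1
      push_cast
      ring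
    rw [e1] at hdbl
    have e2 : (((c : ℚ) ^ 4 - 2048 * d ^ 4) / (2 * c * d * t)) ^ 2 =
        ((c' : ℚ) / (d' : ℚ)) ^ 2 := by
      rw [div_pow, div_pow]
      have e3 : ((c : ℚ) ^ 4 - 2048 * (d : ℚ) ^ 4) ^ 2 =
          (4 : ℚ) ^ jT m * (c' : ℚ) ^ 2 := by
        have := congrArg (fun z : ℤ => (z : ℚ)) hcz2
        push_cast at this
        rw [this]; ring
      have e4 : (2 * (c : ℚ) * d * t) ^ 2 = (4 : ℚ) ^ jT m * (d' : ℚ) ^ 2 := by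
        have := congrArg (fun z : ℕ => (z : ℚ)) hMsq
        rw [← hd'q] at this
        push_cast at this
        exact this
      rw [e3, e4, mul_div_mul_left _ _ (by positivity)]
    rw [e2] at hdbl
    exact hdbl

end Vale.Agent.P027.L
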