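import Vale.Agent.P027.L.LawD

/-! The laws for the multiples of `P0`: addition of neighbours and the induction. -/

set_option linter.all false

namespace Vale.Agent.P027.L

lemma sub_nb {k : ℕ} : ((ev k : ℕ) : ℤ) • P0 - ((od k : ℕ) : ℤ) • P0 = P0 ∨
    ((ev k : ℕ) : ℤ) • P0 - ((od k : ℕ) : ℤ) • P0 = -P0 := by
  unfold ev od
  split_ifs with h
  · right
    rw [sub_eq_add_neg, ← sub_zsmul]
    push_cast
    rw [show (k : ℤ) - (k + 1) = -1 by ring, neg_zsmul, one_zsmul]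
  · left
    rw [sub_eq_add_neg, ← sub_zsmul]
    push_cast
    rw [show (k : ℤ) + 1 - k = 1 by ring, one_zsmul]

lemma add_nb {k : ℕ} : ((ev k : ℕ) : ℤ) • P0 + ((od k : ℕ) : ℤ) • P0 = ((2 * k + 1 : ℕ) : ℤ) • P0 := by
  rw [← add_zsmul]
  congr 1
  unfold ev od
  split_ifs <;> (push_cast; ring)

lemma ev_even (k : ℕ) : ev k % 2 = 0 := by unfold ev; split_ifs <;> omega
lemma od_odd (k : ℕ) : od k % 2 = 1 := by unfold od; split_ifs <;> omega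
lemma ev_od (k : ℕ) : (ev k = k ∧ od k = k + 1) ∨ (od k = k ∧ ev k = k + 1) := by
  unfold ev od; split_ifs <;> omega
lemma ev_add_od (k : ℕ) : ev k + od k = 2 * k + 1 := by unfold ev od; split_ifs <;> omega

/-- addition of neighbours -/
lemma fr_add {k a b c d : ℕ} (hE : Fr (ev k) a b) (hO : Fr (od k) c d) :
    ∃ c' d', Fr (2 * k + 1) c' d' := by
  have he2 := ev_even k
  have ho2 := od_odd k
  obtain ⟨ha, hb, hab, hAe, h7a, h7b, h3a, h3b, hxe⟩ := hE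
  obtain ⟨hc, hd, hcd, hAo, h7c, h7d, h3c, h3d, hxo⟩ := hO
  rw [if_neg (by omega), one_mul] at hxe
  rw [if_pos ho2] at hxo
  rw [if_neg (by omega)] at h3b
  rw [if_pos ho2] at h3d
  have haq : (0 : ℚ) < a := by exact_mod_cast ha
  have hbq : (0 : ℚ) < b := by exact_mod_cast hb
  have hcq : (0 : ℚ) < c := by exact_mod_cast hc
  have hdq : (0 : ℚ) < d := by exact_mod_cast hd
  have hne : ((a : ℚ) / b) ^ 2 ≠ (-1) * ((c : ℚ) / d) ^ 2 := by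
    have h1 : (0 : ℚ) < ((a : ℚ) / b) ^ 2 := by positivity
    have h2 : (0 : ℚ) < ((c : ℚ) / d) ^ 2 := by positivity
    intro h
    linarith
  obtain ⟨s, δ, hs, hδ, hsum, hprod⟩ := hasX_add_sub hxe hxo hne
  have hδ' : δ = -64 := by
    rcases sub_nb (k := k) with h | h
    · rw [h] at hδ
      exact hδ.unique hasX_P0
    · rw [h] at hδ
      exact hδ.unique hasX_P0.neg
  obtain ⟨Ye, hYe, -⟩ := hxe
  obtain ⟨t, ht⟩ := quart_even ha hb hYe rfl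
  rw [add_nb] at hs
  subst hδ'
  -- numerator and denominator
  have hM : (0 : ℚ) < (a : ℚ) ^ 2 * d ^ 2 + b ^ 2 * c ^ 2 := by positivity
  have hN : (0 : ℚ) < (a : ℚ) ^ 2 * c ^ 2 + 2048 * (b ^ 2 * d ^ 2) := by positivity
  have e1 : (a / b : ℚ) ^ 2 - (-1) * ((c : ℚ) / d) ^ 2 =
      ((a : ℚ) ^ 2 * d ^ 2 + b ^ 2 * c ^ 2) / (b ^ 2 * d ^ 2) := by
    field_simp
    ring
  have e2 : (a / b : ℚ) ^ 2 * ((-1) * ((c : ℚ) / d) ^ 2) - 2048 =
      -(((a : ℚ) ^ 2 * c ^ 2 + 2048 * (b ^ 2 * d ^ 2)) / (b ^ 2 * d ^ 2)) := by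
    field_simp
    ring
  have hs1 : s = -(((a : ℚ) ^ 2 * c ^ 2 + 2048 * (b ^ 2 * d ^ 2)) /
      (8 * ((a : ℚ) ^ 2 * d ^ 2 + b ^ 2 * c ^ 2))) ^ 2 := by
    rw [e1, e2] at hprod
    have h1 : (b : ℚ) ^ 2 * d ^ 2 ≠ 0 := by positivity
    have h2 : ((a : ℚ) ^ 2 * d ^ 2 + b ^ 2 * c ^ 2) ≠ 0 := hM.ne'
    rw [div_pow, neg_sq, div_pow, mul_div_assoc', div_left_inj' (pow_ne_zero 2 h1)] at hprod
    rw [div_pow, eq_neg_iff_add_eq_zero, mul_pow]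
    field_simp
    linear_combination (-1 : ℚ) * hprod
  have hT : ((a : ℚ) ^ 2 * c ^ 2 + 2048 * (b ^ 2 * d ^ 2)) ^ 2 +
      4096 * ((a : ℚ) ^ 2 * d ^ 2 + b ^ 2 * c ^ 2) ^ 2 =
      128 * (((a : ℚ) ^ 2 * c ^ 2 - 2048 * (b ^ 2 * d ^ 2)) * (a ^ 2 * d ^ 2 - b ^ 2 * c ^ 2) +
        210 * (a ^ 2 * b ^ 2 * c ^ 2 * d ^ 2)) := by
    have h1 : (b : ℚ) ^ 2 * d ^ 2 ≠ 0 := by positivity
    rw [e1] at hsum hprod
    rw [e2] at hprod
    rw [div_pow, mul_div_assoc', div_eq_iff (pow_ne_zero 2 h1)] at hsum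
    rw [div_pow, neg_sq, div_pow, mul_div_assoc', div_left_inj' (pow_ne_zero 2 h1)] at hprod
    have e3 : 2 * (((a / b : ℚ) ^ 2 * ((-1) * ((c : ℚ) / d) ^ 2) + 2048) *
        ((a / b : ℚ) ^ 2 + (-1) * ((c : ℚ) / d) ^ 2) +
        210 * ((a / b : ℚ) ^ 2 * ((-1) * ((c : ℚ) / d) ^ 2))) * ((b : ℚ) ^ 2 * d ^ 2) ^ 2 =
        -(2 * (((a : ℚ) ^ 2 * c ^ 2 - 2048 * (b ^ 2 * d ^ 2)) * (a ^ 2 * d ^ 2 - b ^ 2 * c ^ 2) +
        210 * (a ^ 2 * b ^ 2 * c ^ 2 * d ^ 2))) := by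
      field_simp
      ring
    rw [e3] at hsum
    linear_combination (-64 : ℚ) * hsum - hprod
  have hTz : ((a : ℤ) ^ 2 * c ^ 2 + 2048 * (b ^ 2 * d ^ 2)) ^ 2 +
      4096 * ((a : ℤ) ^ 2 * d ^ 2 + b ^ 2 * c ^ 2) ^ 2 =
      128 * (((a : ℤ) ^ 2 * c ^ 2 - 2048 * (b ^ 2 * d ^ 2)) * (a ^ 2 * d ^ 2 - b ^ 2 * c ^ 2) +
        210 * (a ^ 2 * b ^ 2 * c ^ 2 * d ^ 2)) := by
    exact_mod_cast hT
  obtain ⟨g, w, m, hw, hm, hwo, hmo, hAd⟩ := add_arith ho2 (ev_od k) hAe hAo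
  obtain ⟨c', hc'⟩ : ∃ c' : ℕ, c' = 2 ^ g * w := ⟨_, rfl⟩
  have hN' : a ^ 2 * c ^ 2 + 2048 * (b ^ 2 * d ^ 2) = 2 ^ (3 + muT k) * c' := by
    rw [hw, hc', pow_add _ (3 + muT k) g]; ring
  have hc'0 : 0 < c' := by rw [hc']; exact Nat.mul_pos (by positivity) (by omega)
  have hm0 : 0 < m := by omega
  refine ⟨c', m, ⟨hc'0, hm0, ?_, ?_, ?_, ?_, ?_, ?_, ?_⟩⟩
  · refine cop_of (N := (a : ℤ) ^ 2 * c ^ 2 + 2048 * (b ^ 2 * d ^ 2))
      (M := (a : ℤ) ^ 2 * d ^ 2 + b ^ 2 * c ^ 2) (j := 0) (l := 0) ?_ ?_ ?_ (Or.inr hmo)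
    · intro p hp hp2 h1 h2
      exact nop_add hp hp2 hab hcd ht hTz h1 h2
    · refine ⟨2 ^ (3 + muT k), ?_⟩
      have := congrArg (fun z : ℕ => (z : ℤ)) hN'
      push_cast at this
      rw [this]; ring
    · refine ⟨2 ^ muT k, ?_⟩
      have := congrArg (fun z : ℕ => (z : ℤ)) hm
      push_cast at this
      rw [this]; ring
  · have e1 : c' ^ 2 = 4 ^ g * w ^ 2 := by
      rw [hc', mul_pow, ← pow_mul, mul_comm g 2, pow_mul]
      norm_num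
    rw [e1, ← ev_add_od k]
    exact hAd
  · refine cancel7 (j := 3 + muT k) ?_ (add7 k).1
    have e1 := congrArg (fun z : ℕ => (z : ZMod 7)) hN'
    push_cast at e1
    rw [← h7a, ← h7b, ← h7c, ← h7d, e1, mul_pow, ← pow_mul, mul_comm (3 + muT k) 2, pow_mul]
    have e2 : (2 : ZMod 7) ^ 2 = 4 := by norm_num
    rw [e2]; ring
  · refine cancel7 (j := muT k) ?_ (add7 k).2
    have e1 := congrArg (fun z : ℕ => (z : ZMod 7)) hm
    push_cast at e1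
    rw [← h7a, ← h7b, ← h7c, ← h7d, e1, mul_pow, ← pow_mul, mul_comm (muT k) 2, pow_mul]
    have e2 : (2 : ZMod 7) ^ 2 = 4 := by norm_num
    rw [e2]; ring
  · have e1 := congrArg (fun z : ℕ => (z : ZMod 3)) hN'
    push_cast at e1
    rw [h3a, h3b, h3c, h3d] at e1
    have e2 : (2 : ZMod 3) ^ 2 = 1 := by decide
    have e3 : (c' : ZMod 3) ^ 2 = ((2 : ZMod 3) ^ (3 + muT k) * c') ^ 2 := by
      rw [mul_pow, ← pow_mul, mul_comm (3 + muT k) 2, pow_mul, e2, one_pow, one_mul]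
    rw [e3, ← e1]
    ring
  · rw [if_pos (by omega)]
    have e1 := congrArg (fun z : ℕ => (z : ZMod 3)) hm
    push_cast at e1
    rw [h3a, h3b, h3c, h3d] at e1
    have e2 : (2 : ZMod 3) ^ 2 = 1 := by decide
    have e3 : (m : ZMod 3) ^ 2 = ((2 : ZMod 3) ^ (muT k) * m) ^ 2 := by
      rw [mul_pow, ← pow_mul, mul_comm (muT k) 2, pow_mul, e2, one_pow, one_mul]
    rw [e3, ← e1]
    ring
  · rw [if_pos (by omega)]
    have e1 : s = (-1 : ℚ) * ((c' : ℚ) / m) ^ 2 := by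
      rw [hs1]
      have h1 := congrArg (fun z : ℕ => (z : ℚ)) hN'
      have h2 := congrArg (fun z : ℕ => (z : ℚ)) hm
      push_cast at h1 h2
      have h3 : (8 : ℚ) * (2 ^ muT k * m) = 2 ^ (3 + muT k) * m := by
        rw [pow_add]; ring
      rw [h1, h2, h3, mul_div_mul_left _ _ (by positivity)]
      ring
    rw [← e1]
    exact hs

lemma fr_one : Fr 1 8 1 := by
  refine ⟨by norm_num, by norm_num, by norm_num, ?_, by decide, by decide, by decide, by decide, ?_⟩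
  · left
    exact ⟨by norm_num, 1, by norm_num, by norm_num, by norm_num⟩
  · have e : (if 1 % 2 = 1 then (-1 : ℚ) else 1) * (((8 : ℕ) : ℚ) / ((1 : ℕ) : ℚ)) ^ 2 = -64 := by
      norm_num
    rw [e, Nat.cast_one, one_zsmul]
    exact hasX_P0

theorem fr_all : ∀ n : ℕ, 0 < n → ∃ c d, Fr n c d := by
  intro n
  induction n using Nat.strong_induction_on with
  | _ n ih =>
    intro hn
    rcases Nat.even_or_odd' n with ⟨k, rfl | rfl⟩
    · obtain ⟨c, d, h⟩ := ih k (by omega) (by omega)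
      exact fr_dbl (by omega) h
    · rcases Nat.eq_zero_or_pos k with rfl | hk
      · exact ⟨8, 1, fr_one⟩
      · have h1 : ev k < 2 * k + 1 ∧ 0 < ev k := by unfold ev; split_ifs <;> omega
        have h2 : od k < 2 * k + 1 ∧ 0 < od k := by unfold od; split_ifs <;> omega
        obtain ⟨a, b, hE⟩ := ih _ h1.1 h1.2
        obtain ⟨c, d, hO⟩ := ih _ h2.1 h2.2
        exact fr_add hE hO

end Vale.Agent.P027.L
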