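import Vale.Agent.P027.L.DatL
import Vale.Agent.P027.H539.E.Tow

/-! The indices grow like a tower. -/

set_option linter.all false

namespace Vale.Agent.P027.L

open Vale.Agent.P027

/-- the indices -/
noncomputable def Om (a N : ℕ) : ℕ → ℕ
  | 0 => 7 ^ (a + 1) * 3 ^ N
  | i + 1 => nxt (Om a N i)

lemma om_odd (a N i : ℕ) : Odd (Om a N i) := by
  induction i with
  | zero => exact (Odd.pow (by decide)).mul (Odd.pow (by decide))
  | succ i ih => exact nxt_odd ih

lemma om_ne (a N i : ℕ) : Om a N i ≠ 0 := by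
  intro h
  have := om_odd a N i
  rw [h] at this
  simp at this

lemma om_dvd (a N : ℕ) {i j : ℕ} (h : i ≤ j) : Om a N i ∣ Om a N j := by
  induction h with
  | refl => exact dvd_rfl
  | step _ ih => exact ih.trans (dvd_nxt _)

/-- a visible prime of the denominator of index `n` divides the next index -/
lemma dvd_nxt_of_vis {d : ℕ → ℕ} {n : ℕ} (hn : n % 2 = 1)
    (hd : ∀ q, q.Prime → (padicValNat q (d n) ≠ 0 →
      wt q n = padicValNat q (d n) ∧ padicValRat q (xx n) < 0)) {q : ℕ}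
    (h : Vz q (padicValNat q (d n))) : q ∣ nxt n := by
  have hn0 : n ≠ 0 := by omega
  have h1 := (hd q h.prime h.ne_zero).1
  rw [← h1] at h
  have hmem : q ∈ Vs n := (mem_Vs hn0).2 h
  unfold nxt
  exact (Finset.dvd_prod_of_mem _ hmem).mul_left _

/-- tower growth -/
theorem om_tower (hL : LawL) (a N : ℕ) (hN : 16 ≤ N) (i : ℕ) : tow (i + 2) ≤ Om a N (i + 1) := by
  obtain ⟨d, hdat, hd⟩ := dat hL
  refine datTower d _ hdat (fun i => Om a N i) (fun i => Nat.odd_iff.1 (om_odd a N i)) ?_ ?_ i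
  · intro i
    refine dvd_trans ?_ (om_dvd a N (Nat.zero_le i))
    exact (pow_dvd_pow 3 hN).trans (dvd_mul_left (3 ^ N) (7 ^ (a + 1)))
  · intro i q hq hv
    show q ∣ nxt (Om a N i)
    exact dvd_nxt_of_vis (Nat.odd_iff.1 (om_odd a N i)) (hd _ (Nat.odd_iff.1 (om_odd a N i))) hv

end Vale.Agent.P027.L
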