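import Vale.Agent.P027.Q.St

/-! The cubic check. `L = ℚ(θ)` with `θ³ + θ² - 2 θ - 1 = 0` is the cubic field of conductor `7`. -/

set_option linter.all false

namespace Vale.Agent.P027.L

open Polynomial

/-- the norm form `N(x + yθ + zθ²)` -/
def N7 {R : Type*} [CommRing R] (x y z : R) : R :=
  x ^ 3 - x ^ 2 * y + 5 * x ^ 2 * z - 2 * x * y ^ 2 - x * y * z + 6 * x * z ^ 2 + y ^ 3 -
    y ^ 2 * z - 2 * y * z ^ 2 + z ^ 3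

/-- the primes inert in `L` -/
def Inert7 (q : ℕ) : Prop := q.Prime ∧ ∀ t : ZMod q, t ^ 3 + t ^ 2 - 2 * t - 1 ≠ 0

/-- `b` is a norm from `L ⊗ ℚ[X]/(X³ - κX² - b)` -/
def P3 (b κ : ℚ) : Prop := ∃ x y z g : ℚ[X],
  N7 x y z = C b + (X ^ 3 - C κ * X ^ 2 - C b) * g

/-- the constant -/
def c3 : ℚ := 42 ^ 20

/-- every inert prime `q ∤ 42` with `3 ∤ v_q(s)` divides `κ` -/
def St3 (s κ : ℚ) : Prop := ∃ w : ℚ, w ≠ 0 ∧ P3 (s * w ^ 3) c3 ∧ P3 (s * w ^ 3)⁻¹ (c3 * κ)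

end Vale.Agent.P027.L
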